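import Vale.Agent.Lib.P262.Walk

namespace Vale.Agent.Lib.P262

open Finset

section Chain

variable {ι D : Type} [DecidableEq ι] [Fintype D] [DecidableEq D]

/-- Coordinate error of `c` relative to the base point `c₀`. -/
noncomputable def Er (z : ι → D → ℝ) (R : Finset ι) (c₀ c : ι → ℝ) (a : D) : ℝ :=
  ∑ i ∈ R, (c i - c₀ i) * z i a

omit [DecidableEq ι] [Fintype D] [DecidableEq D] in
lemma Er_step (z : ι → D → ℝ) (R : Finset ι) (c₀ c c' : ι → ℝ) (a : D) :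
    Er z R c₀ c' a = Er z R c₀ c a + ∑ i ∈ R, (c' i - c i) * z i a := by
  simp only [Er]
  rw [← Finset.sum_add_distrib]
  refine Finset.sum_congr rfl (fun i _ => ?_)
  ring

omit [DecidableEq ι] [Fintype D] [DecidableEq D] in
lemma Er_self (z : ι → D → ℝ) (R : Finset ι) (c₀ : ι → ℝ) (a : D) : Er z R c₀ c₀ a = 0 := by
  simp [Er]

/-- The variance is concentrated on the fractional coordinates. -/
lemma Yd_le (R : Finset ι) (dd c : ι → ℝ) (hd : ∀ i ∈ R, 0 ≤ dd i)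
    (hc : ∀ i ∈ R, 0 ≤ c i ∧ c i ≤ 1) :
    Yd R dd c ≤ (1 / 4) * ∑ i ∈ frac R c, dd i := by
  have hsub : frac R c ⊆ R := Finset.filter_subset _ _
  have e1 : Yd R dd c = ∑ i ∈ frac R c, dd i * (c i * (1 - c i)) := by
    refine (Finset.sum_subset hsub (fun i hi hi' => ?_)).symm
    have h := hc i hi
    have : c i = 0 ∨ c i = 1 := by
      by_contra hcon
      push Not at hcon
      exact hi' (mem_frac.mpr ⟨hi, lt_of_le_of_ne h.1 (Ne.symm hcon.1), lt_of_le_of_ne h.2 hcon.2⟩)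
    rcases this with h0 | h0 <;> rw [h0] <;> ring
  rw [e1, Finset.mul_sum]
  refine Finset.sum_le_sum (fun i hi => ?_)
  have hdi := hd i (hsub hi)
  nlinarith [mul_nonneg hdi (sq_nonneg (c i - 1 / 2))]

lemma Yd_nonneg (R : Finset ι) (dd c : ι → ℝ) (hd : ∀ i ∈ R, 0 ≤ dd i)
    (hc : ∀ i ∈ R, 0 ≤ c i ∧ c i ≤ 1) : 0 ≤ Yd R dd c := by
  refine Finset.sum_nonneg (fun i hi => ?_)
  have h := hc i hi
  exact mul_nonneg (hd i hi) (mul_nonneg h.1 (by linarith [h.2]))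

/-- One stage of the chain. -/
theorem stage (z : ι → D → ℝ) (R : Finset ι) (hz : ∀ i ∈ R, ∑ a, z i a ^ 2 ≤ 1)
    (c₀ c : ι → ℝ) (hc : ∀ i ∈ R, 0 ≤ c i ∧ c i ≤ 1) (N' : ℕ) (hN' : 0 < N')
    (halive : (frac R c).card ≤ N') (lo X : Finset D) (w : ι → ℝ) (y : D → ℝ) {q : ℕ}
    (tr : Fin q → Finset D) (htr : ∀ ℓ, Disjoint (tr ℓ) lo) (N : ℕ)
    (hN : 2 * (X.card + 3 + (q + 1) + 1) ≤ N) :
    ∃ c' : ι → ℝ, (∀ i ∈ R, 0 ≤ c' i ∧ c' i ≤ 1) ∧ (∀ i ∈ R, i ∉ frac R c → c' i = c i) ∧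
      (frac R c').card ≤ N ∧ (∀ a ∈ X, ∑ i ∈ R, (c' i - c i) * z i a = 0) ∧
      ∑ i ∈ R, (c' i - c i) = 0 ∧ ∑ i ∈ R, (c' i - c i) * w i = 0 ∧
      ∑ i ∈ R, (c' i - c i) * (∑ a, y a * z i a) = 0 ∧
      (∀ ℓ, ∑ a ∈ tr ℓ, Er z R c₀ c' a ^ 2 ≤ ∑ a ∈ tr ℓ, Er z R c₀ c a ^ 2 + N') ∧
      ∑ a ∈ lo, Er z R c₀ c' a ^ 2 ≤ ∑ a ∈ lo, Er z R c₀ c a ^ 2 + ∑ i ∈ R, ∑ a ∈ lo, z i a ^ 2 := by
  set E := ∑ i ∈ R, ∑ a ∈ lo, z i a ^ 2 with hE
  have hE0 : 0 ≤ E := Finset.sum_nonneg (fun i _ => Finset.sum_nonneg (fun a _ => sq_nonneg _))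
  set ν : ℝ := (N' : ℝ) / E with hν
  have hν0 : 0 ≤ ν := div_nonneg (Nat.cast_nonneg _) hE0
  have hνE : ν * E ≤ N' := by
    by_cases h : E = 0
    · simp [hν, h]
    · rw [hν, div_mul_cancel₀ _ h]
  let sc : D → ℝ := fun a => if a ∈ lo then Real.sqrt ν else 1
  let b : ι → D → ℝ := fun i a => sc a * z i a
  let dd : ι → ℝ := fun i => 1 + ν * ∑ a ∈ lo, z i a ^ 2
  have hlo0 : ∀ i, 0 ≤ ∑ a ∈ lo, z i a ^ 2 := fun i => Finset.sum_nonneg (fun a _ => sq_nonneg _)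
  have hdpos : ∀ i ∈ R, 0 < dd i := fun i _ => by
    have := mul_nonneg hν0 (hlo0 i)
    simp only [dd]; linarith
  have hsc2lo : ∀ a ∈ lo, sc a ^ 2 = ν := fun a ha => by
    simp only [sc, ha, if_true]; exact Real.sq_sqrt hν0
  have hsc2 : ∀ a, a ∉ lo → sc a = 1 := fun a ha => by simp [sc, ha]
  have hb : ∀ i ∈ R, ∑ a, b i a ^ 2 ≤ dd i := by
    intro i hi
    have hs : ∑ a, b i a ^ 2 = ∑ a ∈ lo, b i a ^ 2 + ∑ a ∈ univ \ lo, b i a ^ 2 := by
      rw [add_comm, Finset.sum_sdiff (Finset.subset_univ lo)]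
    have h1 : ∑ a ∈ lo, b i a ^ 2 = ν * ∑ a ∈ lo, z i a ^ 2 := by
      rw [Finset.mul_sum]
      refine Finset.sum_congr rfl (fun a ha => ?_)
      simp only [b, mul_pow, hsc2lo a ha]
    have h2 : ∑ a ∈ univ \ lo, b i a ^ 2 ≤ 1 := by
      refine le_trans ?_ (hz i hi)
      calc ∑ a ∈ univ \ lo, b i a ^ 2 = ∑ a ∈ univ \ lo, z i a ^ 2 := by
            refine Finset.sum_congr rfl (fun a ha => ?_)
            have : a ∉ lo := (Finset.mem_sdiff.mp ha).2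
            simp only [b, hsc2 a this, one_mul]
        _ ≤ ∑ a, z i a ^ 2 := Finset.sum_le_sum_of_subset_of_nonneg (Finset.subset_univ _)
            (fun a _ _ => sq_nonneg _)
    simp only [dd]
    rw [hs, h1]
    linarith
  let Φ : (↥X ⊕ Fin 3) → ι → ℝ := fun f i =>
    match f with
    | Sum.inl a => z i a
    | Sum.inr 0 => 1
    | Sum.inr 1 => w i
    | Sum.inr 2 => ∑ a, y a * z i a
  let X' : Fin (q + 1) → Finset D := fun ℓ =>
    if h : ℓ.val < q then tr ⟨ℓ.val, h⟩ else lo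
  have hcardJ : 2 * (Fintype.card (↥X ⊕ Fin 3) + (q + 1) + 1) ≤ N := by
    simp only [Fintype.card_sum, Fintype.card_coe, Fintype.card_fin]
    omega
  obtain ⟨c', hc'range, hc'fix, hc'Φ, hc'card, hc'X⟩ := walk_reduce R Φ X' b dd hdpos hb N hcardJ
    _ c (fun a => sc a * Er z R c₀ c a) rfl hc
  -- the energy estimate
  have hY : 2 * (Yd R dd c - Yd R dd c') ≤ N' := by
    have h1 := Yd_nonneg R dd c' (fun i hi => (hdpos i hi).le) hc'range
    have h2 := Yd_le R dd c (fun i hi => (hdpos i hi).le) hc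
    have hsub : frac R c ⊆ R := Finset.filter_subset _ _
    have h3 : ∑ i ∈ frac R c, dd i ≤ 2 * (N' : ℝ) := by
      have e1 : ∑ i ∈ frac R c, dd i
          = ((frac R c).card : ℝ) + ν * ∑ i ∈ frac R c, ∑ a ∈ lo, z i a ^ 2 := by
        simp only [dd]
        rw [Finset.sum_add_distrib, ← Finset.mul_sum]
        simp
      have e2 : ∑ i ∈ frac R c, ∑ a ∈ lo, z i a ^ 2 ≤ E :=
        Finset.sum_le_sum_of_subset_of_nonneg hsub (fun i _ _ => hlo0 i)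
      have e3 : ((frac R c).card : ℝ) ≤ N' := by exact_mod_cast halive
      have e4 := mul_le_mul_of_nonneg_left e2 hν0
      rw [e1]
      linarith
    linarith
  have hEr : ∀ a, sc a * Er z R c₀ c a + ∑ i ∈ R, (c' i - c i) * b i a
      = sc a * Er z R c₀ c' a := by
    intro a
    rw [Er_step z R c₀ c c' a, mul_add, Finset.mul_sum]
    congr 1
    refine Finset.sum_congr rfl (fun i _ => ?_)
    simp only [b]
    ring
  refine ⟨c', hc'range, hc'fix, hc'card, ?_, ?_, ?_, ?_, ?_, ?_⟩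
  · intro a ha
    have := hc'Φ (Sum.inl ⟨a, ha⟩)
    simp only [Φ] at this
    rw [← this]
    exact Finset.sum_congr rfl (fun i _ => mul_comm _ _)
  · have := hc'Φ (Sum.inr 0)
    simpa [Φ] using this
  · have := hc'Φ (Sum.inr 1)
    simp only [Φ] at this
    rw [← this]
    exact Finset.sum_congr rfl (fun i _ => mul_comm _ _)
  · have := hc'Φ (Sum.inr 2)
    simp only [Φ] at this
    rw [← this]
    exact Finset.sum_congr rfl (fun i _ => mul_comm _ _)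
  · intro ℓ
    have hℓ : (⟨ℓ.val, by omega⟩ : Fin (q + 1)).val < q := ℓ.2
    have h := hc'X ⟨ℓ.val, by omega⟩
    simp only [X', hℓ, dif_pos, Fin.eta] at h
    simp_rw [hEr] at h
    have hnot : ∀ a ∈ tr ℓ, sc a = 1 := fun a ha =>
      hsc2 a (Finset.disjoint_left.mp (htr ℓ) ha)
    have e1 : ∑ a ∈ tr ℓ, (sc a * Er z R c₀ c' a) ^ 2 = ∑ a ∈ tr ℓ, Er z R c₀ c' a ^ 2 :=
      Finset.sum_congr rfl (fun a ha => by rw [hnot a ha, one_mul])
    have e2 : ∑ a ∈ tr ℓ, (sc a * Er z R c₀ c a) ^ 2 = ∑ a ∈ tr ℓ, Er z R c₀ c a ^ 2 :=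
      Finset.sum_congr rfl (fun a ha => by rw [hnot a ha, one_mul])
    rw [e1, e2] at h
    linarith
  · by_cases hE00 : E = 0
    · -- everything vanishes on `lo`
      have hzero : ∀ i ∈ R, ∀ a ∈ lo, z i a = 0 := by
        intro i hi a ha
        have h1 : ∑ a ∈ lo, z i a ^ 2 = 0 := by
          have := (Finset.sum_eq_zero_iff_of_nonneg (fun i _ => hlo0 i)).mp hE00
          exact this i hi
        have h2 := (Finset.sum_eq_zero_iff_of_nonneg (fun a _ => sq_nonneg (z i a))).mp h1 a ha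
        exact pow_eq_zero_iff (two_ne_zero) |>.mp h2
      have hEr0 : ∀ c : ι → ℝ, ∀ a ∈ lo, Er z R c₀ c a = 0 := by
        intro c a ha
        refine Finset.sum_eq_zero (fun i hi => ?_)
        rw [hzero i hi a ha, mul_zero]
      have e1 : ∑ a ∈ lo, Er z R c₀ c' a ^ 2 = 0 :=
        Finset.sum_eq_zero (fun a ha => by rw [hEr0 c' a ha]; ring)
      rw [e1]
      exact add_nonneg (Finset.sum_nonneg (fun a _ => sq_nonneg _)) hE0
    · have hEpos : 0 < E := lt_of_le_of_ne hE0 (Ne.symm hE00)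
      have hνpos : 0 < ν := div_pos (by exact_mod_cast hN') hEpos
      have hℓ : ¬ (⟨q, by omega⟩ : Fin (q + 1)).val < q := by simp
      have h := hc'X ⟨q, by omega⟩
      simp only [X', hℓ, dif_neg, not_false_eq_true] at h
      simp_rw [hEr] at h
      have e1 : ∑ a ∈ lo, (sc a * Er z R c₀ c' a) ^ 2 = ν * ∑ a ∈ lo, Er z R c₀ c' a ^ 2 := by
        rw [Finset.mul_sum]
        refine Finset.sum_congr rfl (fun a ha => ?_)
        rw [mul_pow, hsc2lo a ha]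
      have e2 : ∑ a ∈ lo, (sc a * Er z R c₀ c a) ^ 2 = ν * ∑ a ∈ lo, Er z R c₀ c a ^ 2 := by
        rw [Finset.mul_sum]
        refine Finset.sum_congr rfl (fun a ha => ?_)
        rw [mul_pow, hsc2lo a ha]
      rw [e1, e2] at h
      have h3 : ν * ∑ a ∈ lo, Er z R c₀ c' a ^ 2
          ≤ ν * (∑ a ∈ lo, Er z R c₀ c a ^ 2 + E) := by
        have : ν * E = N' := by rw [hν, div_mul_cancel₀ _ hE00]
        rw [mul_add, this]
        linarith
      exact le_of_mul_le_mul_left h3 hνpos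


/-- The chain of stages: state after stage `t`. -/
theorem chain_stages (z : ι → D → ℝ) (R : Finset ι) (hz : ∀ i ∈ R, ∑ a, z i a ^ 2 ≤ 1)
    (c₁ : ι → ℝ) (hc₁ : ∀ i ∈ R, 0 ≤ c₁ i ∧ c₁ i ≤ 1) (N₀ : ℕ) (hN₀ : 0 < N₀)
    (halive : (frac R c₁).card ≤ N₀) (lo : Finset D) (w : ι → ℝ) (y : D → ℝ)
    (X : ℕ → Finset D) (hanti : ∀ t, X (t + 1) ⊆ X t) (hlo : Disjoint (X 0) lo)
    (N : ℕ → ℕ) (hNpos : ∀ t, 0 < N t) (hN : ∀ t, 2 * ((X t).card + t + 5) ≤ N t) :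
    ∀ t : ℕ, ∃ c : ι → ℝ, (∀ i ∈ R, 0 ≤ c i ∧ c i ≤ 1) ∧ (∀ i ∈ R, i ∉ frac R c₁ → c i = c₁ i) ∧
      (frac R c).card ≤ N t ∧ (∀ a ∈ X t, Er z R c₁ c a = 0) ∧
      ∑ i ∈ R, (c i - c₁ i) = 0 ∧ ∑ i ∈ R, (c i - c₁ i) * w i = 0 ∧
      ∑ i ∈ R, (c i - c₁ i) * (∑ a, y a * z i a) = 0 ∧
      (∀ t' ≤ t, ∑ a ∈ X t', Er z R c₁ c a ^ 2 ≤ ∑ τ ∈ Finset.Ico t' t, (N τ : ℝ)) ∧
      ∑ a ∈ lo, Er z R c₁ c a ^ 2 ≤ ((t : ℝ) + 1) * ∑ i ∈ R, ∑ a ∈ lo, z i a ^ 2 := by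
  have hXanti : ∀ t t', t ≤ t' → X t' ⊆ X t := by
    intro t t' h
    induction t', h using Nat.le_induction with
    | base => exact subset_rfl
    | succ n _ ih => exact (hanti n).trans ih
  intro t
  induction t with
  | zero =>
    obtain ⟨c, hr, hfix, hcard, hX, h0, h1, h2, -, hlo'⟩ := stage z R hz c₁ c₁ hc₁ N₀ hN₀ halive lo
      (X 0) w y (q := 0) (fun ℓ => ℓ.elim0) (fun ℓ => ℓ.elim0) (N 0) (by have := hN 0; omega)
    have hEr : ∀ a ∈ X 0, Er z R c₁ c a = 0 := fun a ha => hX a ha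
    refine ⟨c, hr, hfix, hcard, hEr, h0, h1, h2, ?_, ?_⟩
    · intro t' ht'
      have : t' = 0 := by omega
      subst this
      rw [Finset.sum_eq_zero (fun a ha => by rw [hEr a ha]; ring)]
      simp
    · simp only [Er_self] at hlo'
      simpa using hlo'
  | succ t ih =>
    obtain ⟨c, hr, hfix, hcard, hEr, h0, h1, h2, hXt, hlot⟩ := ih
    have hNt := hNpos t
    obtain ⟨c', hr', hfix', hcard', hX', h0', h1', h2', htr', hlo'⟩ := stage z R hz c₁ c hr (N t) hNt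
      hcard lo (X (t + 1)) w y (q := t + 1) (fun ℓ => X ℓ.val)
      (fun ℓ => Finset.disjoint_of_subset_left (hXanti 0 ℓ.val (Nat.zero_le _)) hlo)
      (N (t + 1)) (by have := hN (t + 1); omega)
    have hfracsub : frac R c ⊆ frac R c₁ := by
      intro i hi
      obtain ⟨hiR, h3, h4⟩ := mem_frac.mp hi
      by_contra hcon
      rw [hfix i hiR hcon] at h3 h4
      exact hcon (mem_frac.mpr ⟨hiR, h3, h4⟩)
    have hsumadd : ∀ g : ι → ℝ, ∑ i ∈ R, (c' i - c₁ i) * g i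
        = ∑ i ∈ R, (c' i - c i) * g i + ∑ i ∈ R, (c i - c₁ i) * g i := by
      intro g
      rw [← Finset.sum_add_distrib]
      exact Finset.sum_congr rfl (fun i _ => by ring)
    have hEr' : ∀ a ∈ X (t + 1), Er z R c₁ c' a = 0 := by
      intro a ha
      rw [Er_step z R c₁ c c' a, hX' a ha, hEr a (hanti t ha), add_zero]
    refine ⟨c', hr', ?_, hcard', hEr', ?_, ?_, ?_, ?_, ?_⟩
    · intro i hi hi'
      rw [hfix' i hi (fun h => hi' (hfracsub h)), hfix i hi hi']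
    · have := hsumadd (fun _ => 1)
      simp only [mul_one] at this
      rw [this, h0', h0, add_zero]
    · rw [hsumadd w, h1', h1, add_zero]
    · rw [hsumadd (fun i => ∑ a, y a * z i a), h2', h2, add_zero]
    · intro t' ht'
      rcases Nat.lt_or_ge t' (t + 1) with hlt | hge
      · have h3 := htr' ⟨t', hlt⟩
        have h4 := hXt t' (by omega)
        rw [Finset.sum_Ico_succ_top (by omega)]
        simp only at h3
        linarith
      · have : t' = t + 1 := by omega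
        subst this
        rw [Finset.sum_eq_zero (fun a ha => by rw [hEr' a ha]; ring)]
        simp
    · have := hlo'
      push_cast
      nlinarith

/-- **Chain rounding.**  -/
theorem chain_round (z : ι → D → ℝ) (R : Finset ι) (hz : ∀ i ∈ R, ∑ a, z i a ^ 2 ≤ 1)
    (c₁ : ι → ℝ) (hc₁ : ∀ i ∈ R, 0 ≤ c₁ i ∧ c₁ i ≤ 1) (N₀ : ℕ) (hN₀ : 0 < N₀)
    (halive : (frac R c₁).card ≤ N₀) (lo : Finset D) (w : ι → ℝ) (wm : ℝ)
    (hwm0 : 0 ≤ wm) (hw : ∀ i ∈ R, 0 ≤ w i ∧ w i ≤ wm) (y : D → ℝ)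
    (X : ℕ → Finset D) (hanti : ∀ t, X (t + 1) ⊆ X t) (hlo : Disjoint (X 0) lo)
    (N : ℕ → ℕ) (hNpos : ∀ t, 0 < N t) (hN : ∀ t, 2 * ((X t).card + t + 5) ≤ N t) (L : ℕ) :
    ∃ χ : ι → ℝ, (∀ i ∈ R, χ i = 0 ∨ χ i = 1) ∧ (∀ i ∈ R, i ∉ frac R c₁ → χ i = c₁ i) ∧
      |∑ i ∈ R, (χ i - c₁ i)| ≤ N L ∧ |∑ i ∈ R, (χ i - c₁ i) * w i| ≤ N L * wm ∧
      ∑ i ∈ R, (χ i - c₁ i) * (∑ a, y a * z i a) ≤ 0 ∧
      (∀ t ≤ L, ∑ a ∈ X t, Er z R c₁ χ a ^ 2
        ≤ 2 * ∑ τ ∈ Finset.Ico t L, (N τ : ℝ) + 2 * (N L : ℝ) ^ 2) ∧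
      ∑ a ∈ lo, Er z R c₁ χ a ^ 2
        ≤ (2 * ((L : ℝ) + 1) + 2 * (N L : ℝ)) * ∑ i ∈ R, ∑ a ∈ lo, z i a ^ 2 := by
  obtain ⟨c, hr, hfix, hcard, -, h0, h1, h2, hX, hlot⟩ := chain_stages z R hz c₁ hc₁ N₀ hN₀ halive
    lo w y X hanti hlo N hNpos hN L
  set F := frac R c with hF
  have hFR : F ⊆ R := Finset.filter_subset _ _
  set η : ι → ℝ := fun i => ∑ a, y a * z i a with hη
  let χ : ι → ℝ := fun i => if i ∈ F then (if 0 < η i then 0 else 1) else c i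
  have hχoff : ∀ i, i ∉ F → χ i = c i := fun i hi => by simp [χ, hi]
  have hint : ∀ i ∈ R, i ∉ F → c i = 0 ∨ c i = 1 := by
    intro i hi hiF
    have h := hr i hi
    by_contra hcon
    push Not at hcon
    exact hiF (mem_frac.mpr ⟨hi, lt_of_le_of_ne h.1 (Ne.symm hcon.1), lt_of_le_of_ne h.2 hcon.2⟩)
  have hRF : ∀ g : ι → ℝ, ∑ i ∈ R, (χ i - c i) * g i = ∑ i ∈ F, (χ i - c i) * g i := by
    intro g
    refine (Finset.sum_subset hFR (fun i _ hi => ?_)).symm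
    rw [hχoff i hi]; ring
  have hχc : ∀ i ∈ F, |χ i - c i| ≤ 1 := by
    intro i hi
    have h := hr i (hFR hi)
    simp only [χ, hi, if_true]
    split_ifs
    · rw [abs_le]; constructor <;> linarith [h.1, h.2]
    · rw [abs_le]; constructor <;> linarith [h.1, h.2]
  have hsumadd : ∀ g : ι → ℝ, ∑ i ∈ R, (χ i - c₁ i) * g i
      = ∑ i ∈ F, (χ i - c i) * g i + ∑ i ∈ R, (c i - c₁ i) * g i := by
    intro g
    rw [← hRF, ← Finset.sum_add_distrib]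
    exact Finset.sum_congr rfl (fun i _ => by ring)
  have hFcard : (F.card : ℝ) ≤ N L := by exact_mod_cast hcard
  have hErχ : ∀ a, Er z R c₁ χ a = Er z R c₁ c a + ∑ i ∈ F, (χ i - c i) * z i a := by
    intro a
    rw [Er_step z R c₁ c χ a, hRF (fun i => z i a)]
  -- the leftover block
  have hleft : ∀ Q : Finset D, ∑ a ∈ Q, (∑ i ∈ F, (χ i - c i) * z i a) ^ 2
      ≤ (F.card : ℝ) * ∑ i ∈ F, ∑ a ∈ Q, z i a ^ 2 := by
    intro Q
    calc ∑ a ∈ Q, (∑ i ∈ F, (χ i - c i) * z i a) ^ 2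
        ≤ ∑ a ∈ Q, ((F.card : ℝ) * ∑ i ∈ F, z i a ^ 2) := by
          refine Finset.sum_le_sum (fun a _ => ?_)
          have h3 := sq_sum_le_card_mul_sum_sq (s := F) (f := fun i => (χ i - c i) * z i a)
          refine h3.trans ?_
          refine mul_le_mul_of_nonneg_left ?_ (Nat.cast_nonneg _)
          refine Finset.sum_le_sum (fun i hi => ?_)
          have h4 := hχc i hi
          have h5 : (χ i - c i) ^ 2 ≤ 1 := by
            rw [← sq_abs]; nlinarith [abs_nonneg (χ i - c i)]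
          rw [mul_pow]
          nlinarith [sq_nonneg (z i a)]
      _ = (F.card : ℝ) * ∑ i ∈ F, ∑ a ∈ Q, z i a ^ 2 := by
          rw [← Finset.mul_sum, Finset.sum_comm]
  have hcomb : ∀ Q : Finset D, ∑ a ∈ Q, Er z R c₁ χ a ^ 2
      ≤ 2 * ∑ a ∈ Q, Er z R c₁ c a ^ 2
        + 2 * ((F.card : ℝ) * ∑ i ∈ F, ∑ a ∈ Q, z i a ^ 2) := by
    intro Q
    have h3 := hleft Q
    have h4 : ∑ a ∈ Q, Er z R c₁ χ a ^ 2 ≤ ∑ a ∈ Q, (2 * Er z R c₁ c a ^ 2
        + 2 * (∑ i ∈ F, (χ i - c i) * z i a) ^ 2) := by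
      refine Finset.sum_le_sum (fun a _ => ?_)
      rw [hErχ a]
      nlinarith [sq_nonneg (Er z R c₁ c a - ∑ i ∈ F, (χ i - c i) * z i a)]
    rw [Finset.sum_add_distrib, ← Finset.mul_sum, ← Finset.mul_sum] at h4
    linarith
  refine ⟨χ, ?_, ?_, ?_, ?_, ?_, ?_, ?_⟩
  · intro i hi
    by_cases hiF : i ∈ F
    · simp only [χ, hiF, if_true]
      split_ifs <;> simp
    · rw [hχoff i hiF]; exact hint i hi hiF
  · intro i hi hi'
    have hnF : i ∉ F := by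
      intro hiF
      obtain ⟨hiR, h3, h4⟩ := mem_frac.mp hiF
      rw [hfix i hi hi'] at h3 h4
      exact hi' (mem_frac.mpr ⟨hiR, h3, h4⟩)
    rw [hχoff i hnF, hfix i hi hi']
  · have := hsumadd (fun _ => 1)
    simp only [mul_one] at this
    rw [this, h0, add_zero]
    refine (Finset.abs_sum_le_sum_abs _ _).trans ?_
    calc ∑ i ∈ F, |χ i - c i| ≤ ∑ _i ∈ F, (1 : ℝ) := Finset.sum_le_sum hχc
      _ = F.card := by simp
      _ ≤ N L := hFcard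
  · rw [hsumadd w, h1, add_zero]
    refine (Finset.abs_sum_le_sum_abs _ _).trans ?_
    calc ∑ i ∈ F, |(χ i - c i) * w i| ≤ ∑ _i ∈ F, wm := by
          refine Finset.sum_le_sum (fun i hi => ?_)
          rw [abs_mul, abs_of_nonneg (hw i (hFR hi)).1]
          have h3 := hχc i hi
          have h4 := hw i (hFR hi)
          nlinarith [abs_nonneg (χ i - c i)]
      _ = F.card * wm := by simp
      _ ≤ N L * wm := mul_le_mul_of_nonneg_right hFcard hwm0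
  · rw [hsumadd η, h2, add_zero]
    refine Finset.sum_nonpos (fun i hi => ?_)
    have h := hr i (hFR hi)
    simp only [χ, hi, if_true]
    split_ifs with hp
    · nlinarith [h.1]
    · push Not at hp
      nlinarith [h.2]
  · intro t ht
    have h3 := hcomb (X t)
    have h4 := hX t ht
    have h5 : ∑ i ∈ F, ∑ a ∈ X t, z i a ^ 2 ≤ F.card := by
      calc ∑ i ∈ F, ∑ a ∈ X t, z i a ^ 2 ≤ ∑ _i ∈ F, (1 : ℝ) := by
            refine Finset.sum_le_sum (fun i hi => ?_)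
            refine le_trans ?_ (hz i (hFR hi))
            exact Finset.sum_le_sum_of_subset_of_nonneg (Finset.subset_univ _)
              (fun a _ _ => sq_nonneg _)
        _ = F.card := by simp
    have h6 : (0:ℝ) ≤ F.card := Nat.cast_nonneg _
    have h7 : (F.card : ℝ) * ∑ i ∈ F, ∑ a ∈ X t, z i a ^ 2 ≤ (N L : ℝ) ^ 2 := by
      have h8 : (0:ℝ) ≤ ∑ i ∈ F, ∑ a ∈ X t, z i a ^ 2 :=
        Finset.sum_nonneg (fun i _ => Finset.sum_nonneg (fun a _ => sq_nonneg _))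
      nlinarith
    linarith
  · have h3 := hcomb lo
    have hE0 : 0 ≤ ∑ i ∈ R, ∑ a ∈ lo, z i a ^ 2 :=
      Finset.sum_nonneg (fun i _ => Finset.sum_nonneg (fun a _ => sq_nonneg _))
    have h5 : ∑ i ∈ F, ∑ a ∈ lo, z i a ^ 2 ≤ ∑ i ∈ R, ∑ a ∈ lo, z i a ^ 2 :=
      Finset.sum_le_sum_of_subset_of_nonneg hFR
        (fun i _ _ => Finset.sum_nonneg (fun a _ => sq_nonneg _))
    have h6 : (0:ℝ) ≤ F.card := Nat.cast_nonneg _
    have h8 : (0:ℝ) ≤ ∑ i ∈ F, ∑ a ∈ lo, z i a ^ 2 :=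
      Finset.sum_nonneg (fun i _ => Finset.sum_nonneg (fun a _ => sq_nonneg _))
    have h7 : (F.card : ℝ) * ∑ i ∈ F, ∑ a ∈ lo, z i a ^ 2
        ≤ (N L : ℝ) * ∑ i ∈ R, ∑ a ∈ lo, z i a ^ 2 := by
      exact mul_le_mul hFcard h5 h8 (Nat.cast_nonneg _)
    have h9 : ∑ a ∈ lo, Er z R c₁ c a ^ 2 ≤ ((L : ℝ) + 1) * ∑ i ∈ R, ∑ a ∈ lo, z i a ^ 2 := hlot
    nlinarith

end Chain

end Vale.Agent.Lib.P262
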