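import Vale.Agent.Lib.P262.Pay

namespace Vale.Agent.Lib.P262

open Finset

section Close

variable {ι D : Type} [DecidableEq ι] [Fintype D] [DecidableEq D]

lemma rho_anti {j k : ℕ} (h : j ≤ k) : rho k ≤ rho j := by
  simp only [rho]
  exact pow_le_pow_of_le_one (by norm_num) (by norm_num) h

lemma Th_mono {Λ : D → ℝ} (hΛ : ∀ a, 0 ≤ Λ a) (μ : ℝ) {j k : ℕ} (h : j ≤ k) :
    Th Λ μ j ⊆ Th Λ μ k := by
  intro a ha
  have h1 : rho j * Λ a ≤ μ := (Finset.mem_filter.mp ha).2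
  refine Finset.mem_filter.mpr ⟨Finset.mem_univ a, ?_⟩
  have := mul_le_mul_of_nonneg_right (rho_anti h) (hΛ a)
  linarith

/-- The norm invariant of a position. -/
def TT (z : ι → D → ℝ) (Λ : D → ℝ) (μ : ℝ) (K : ℕ) (β₁ β₂ κ : ℝ) (j : ℕ) (s : Finset ι)
    (x : D → ℝ) : Prop :=
  ∀ k, j ≤ k → nm (Th Λ μ k) x
    ≤ Real.sqrt (β₁ * Psi z K (Th Λ μ j) s + β₂ * ((Th Λ μ k).card : ℝ)) + Lb κ Λ μ j

lemma TT_mono {z : ι → D → ℝ} {Λ : D → ℝ} (hΛ : ∀ a, 0 ≤ Λ a) {μ : ℝ} (hμ : 0 ≤ μ) {K : ℕ}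
    {β₁ β₂ κ : ℝ} (hβ₁ : 0 ≤ β₁) (hκ : 0 ≤ κ) {j : ℕ} {s C : Finset ι}
    (hC : C ⊆ s) {x : D → ℝ} (h : TT z Λ μ K β₁ β₂ κ j s x) : TT z Λ μ K β₁ β₂ κ (j + 1) C x := by
  intro k hk
  refine (h k (by omega)).trans ?_
  have h1 : Psi z K (Th Λ μ j) s ≤ Psi z K (Th Λ μ (j + 1)) C := by
    have h2 := Psi_pay z K (Th_mono hΛ μ (Nat.le_succ j)) hC
    have h3 : 0 ≤ ∑ i ∈ s \ C, wt z K (Th Λ μ j) s i :=
      Finset.sum_nonneg (fun i _ => wt_nonneg z K _ s i)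
    linarith
  have h4 := Lb_mono hκ hΛ hμ j
  have h5 : Real.sqrt (β₁ * Psi z K (Th Λ μ j) s + β₂ * ((Th Λ μ k).card : ℝ))
      ≤ Real.sqrt (β₁ * Psi z K (Th Λ μ (j + 1)) C + β₂ * ((Th Λ μ k).card : ℝ)) := by
    refine Real.sqrt_le_sqrt ?_
    have := mul_le_mul_of_nonneg_left h1 hβ₁
    linarith
  linarith

/-- Minkowski in the plane. -/
lemma sqrt_add_sq_le {x y w : ℝ} (hx : 0 ≤ x) (hy : 0 ≤ y) (hw : 0 ≤ w) :
    Real.sqrt ((x + y) ^ 2 + w) ≤ Real.sqrt (x ^ 2 + w) + y := by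
  have h0 : 0 ≤ x ^ 2 + w := by positivity
  have h1 : x ≤ Real.sqrt (x ^ 2 + w) := Real.le_sqrt_of_sq_le (by linarith)
  refine Real.sqrt_le_iff.mpr ⟨by positivity, ?_⟩
  have h2 := Real.sq_sqrt h0
  nlinarith [mul_le_mul_of_nonneg_right h1 hy]

/-- Closing the norm invariant at a new position. -/
lemma T_close {z : ι → D → ℝ} {Λ : D → ℝ} (hΛ : ∀ a, 0 ≤ Λ a) {μ : ℝ} (hμ : 0 ≤ μ) {K : ℕ}
    {β₁ β₂ κ : ℝ} (hκ : 0 ≤ κ) {j k : ℕ} (hk : j + 1 ≤ k) {s C : Finset ι} {P P' M l : D → ℝ}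
    (h0 : 0 ≤ β₁ * Psi z K (Th Λ μ j) s + β₂ * ((Th Λ μ j).card : ℝ))
    (hP : TT z Λ μ K β₁ β₂ κ j s P) (hP' : TT z Λ μ K β₁ β₂ κ j s P') {N' : ℝ} (hN' : 0 ≤ N')
    (hQ : ∑ a ∈ Th Λ μ j, (M a - l a) ^ 2 + ∑ a ∈ Th Λ μ k \ Th Λ μ j, M a ^ 2
      ≤ ∑ a ∈ Th Λ μ j, ((P a + P' a) / 2) ^ 2 + N')
    (hPsi : β₁ * Psi z K (Th Λ μ j) s + β₂ * ((Th Λ μ j).card : ℝ) + N'
      ≤ β₁ * Psi z K (Th Λ μ (j + 1)) C + β₂ * ((Th Λ μ k).card : ℝ))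
    (hleak : ∑ a ∈ Th Λ μ j, l a ^ 2 ≤ (Lb κ Λ μ (j + 1) - Lb κ Λ μ j) ^ 2) :
    nm (Th Λ μ k) M ≤ Real.sqrt (β₁ * Psi z K (Th Λ μ (j + 1)) C + β₂ * ((Th Λ μ k).card : ℝ))
      + Lb κ Λ μ (j + 1) := by
  set S := Th Λ μ j with hS
  set A₀ := Real.sqrt (β₁ * Psi z K S s + β₂ * (S.card : ℝ)) with hA₀
  set L := Lb κ Λ μ j with hL
  set Δ := Lb κ Λ μ (j + 1) - L with hΔ
  have hL0 : 0 ≤ L := Lb_nonneg hκ Λ j
  have hΔ0 : 0 ≤ Δ := by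
    have := Lb_mono hκ hΛ hμ j
    rw [hΔ]; linarith
  have hA₀0 : 0 ≤ A₀ := Real.sqrt_nonneg _
  have hA₀sq : A₀ ^ 2 = β₁ * Psi z K S s + β₂ * (S.card : ℝ) := Real.sq_sqrt h0
  -- the midpoint
  have h1 := hP j le_rfl
  have h2 := hP' j le_rfl
  have hc : nm S (fun a => (P a + P' a) / 2) ≤ A₀ + L := by
    have e1 : (fun a => (P a + P' a) / 2) = fun a => (1 / 2 : ℝ) * (fun a => P a + P' a) a := by
      funext a; simp only; ring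
    rw [e1, nm_smul]
    have h3 := nm_add_le S P P'
    have h4 : |(1 / 2 : ℝ)| = 1 / 2 := abs_of_pos (by norm_num)
    rw [h4]
    linarith
  have hcsq : ∑ a ∈ S, ((P a + P' a) / 2) ^ 2 ≤ (A₀ + L) ^ 2 := sum_sq_le_of_nm hc
  -- decompose the thin block
  have hsub : S ⊆ Th Λ μ k := Th_mono hΛ μ (by omega)
  set a₁ := nm S (fun a => M a - l a) with ha₁
  set e2 := ∑ a ∈ Th Λ μ k \ S, M a ^ 2 with he2
  have he20 : 0 ≤ e2 := Finset.sum_nonneg (fun _ _ => sq_nonneg _)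
  have ha₁0 : 0 ≤ a₁ := nm_nonneg _ _
  have ha₁sq : a₁ ^ 2 = ∑ a ∈ S, (M a - l a) ^ 2 := nm_sq _ _
  have hsplitnm : nm (Th Λ μ k) M = Real.sqrt (nm S M ^ 2 + e2) := by
    simp only [nm]
    rw [Real.sq_sqrt (Finset.sum_nonneg (fun _ _ => sq_nonneg _)), he2, add_comm,
      Finset.sum_sdiff hsub]
  have hSM : nm S M ≤ a₁ + Δ := by
    have e1 : M = fun a => (M a - l a) + l a := by
      funext a; ring
    conv_lhs => rw [e1]
    refine (nm_add_le S (fun a => M a - l a) l).trans ?_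
    have h3 : nm S l ≤ Δ := nm_le_of_sq hΔ0 hleak
    linarith
  rw [hsplitnm]
  have h5 : Real.sqrt (nm S M ^ 2 + e2) ≤ Real.sqrt ((a₁ + Δ) ^ 2 + e2) := by
    refine Real.sqrt_le_sqrt ?_
    have := pow_le_pow_left₀ (nm_nonneg S M) hSM 2
    linarith
  have h6 := sqrt_add_sq_le ha₁0 hΔ0 he20
  have h7 : Real.sqrt (a₁ ^ 2 + e2) ≤ Real.sqrt ((A₀ + L) ^ 2 + N') := by
    refine Real.sqrt_le_sqrt ?_
    rw [ha₁sq]
    linarith
  have h8 := sqrt_add_sq_le hA₀0 hL0 hN'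
  have h9 : Real.sqrt (A₀ ^ 2 + N')
      ≤ Real.sqrt (β₁ * Psi z K (Th Λ μ (j + 1)) C + β₂ * ((Th Λ μ k).card : ℝ)) := by
    refine Real.sqrt_le_sqrt ?_
    rw [hA₀sq]
    exact hPsi
  have h10 : Lb κ Λ μ (j + 1) = L + Δ := by rw [hΔ]; ring
  rw [h10]
  linarith

/-- Using the flags for a threshold block. -/
lemma flag_use {Λ : D → ℝ} {μ : ℝ} {m : ℕ} (hdm : Fintype.card D ≤ 2 ^ m) {j k : ℕ}
    (f : D → ℝ) {Ξ F0 : ℝ} (hΞ : 0 ≤ Ξ) (hF0 : 0 ≤ F0)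
    (hflag : ∀ i ≤ m, ∑ a ∈ flagSet (Vv Λ μ j) Λ i, f a ^ 2 ≤ 8 * 2 ^ i + F0 * (Ξ + 1)) :
    ∑ a ∈ Th Λ μ k \ Th Λ μ j, f a ^ 2
      ≤ (16 + F0) * ((Th Λ μ k \ Th Λ μ j).card : ℝ) + F0 * Ξ := by
  set K' := Th Λ μ k \ Th Λ μ j with hK'
  by_cases hemp : K' = ∅
  · rw [hemp]
    simp only [Finset.sum_empty, Finset.card_empty, Nat.cast_zero, mul_zero, zero_add]
    exact mul_nonneg hF0 hΞ
  have hr : 0 < K'.card := Finset.card_pos.mpr (Finset.nonempty_iff_ne_empty.mpr hemp)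
  set i := Nat.clog 2 K'.card with hi
  have hle : K'.card ≤ 2 ^ i := Nat.le_pow_clog (by norm_num) _
  have hcardD : K'.card ≤ 2 ^ m := (Finset.card_le_univ K').trans hdm
  have him : i ≤ m := Nat.clog_le_of_le_pow hcardD
  have h2r : 2 ^ i ≤ 2 * K'.card := by
    by_cases h1 : K'.card = 1
    · rw [hi, h1]; simp
    · have hge : 2 ≤ K'.card := by omega
      have h3 : 2 ^ (i - 1) < K'.card :=
        Nat.pow_pred_clog_lt_self (b := 2) (by norm_num) (x := K'.card) (by omega)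
      have hipos : 0 < i := Nat.clog_pos (by norm_num) hge
      have h4 : 2 ^ i = 2 * 2 ^ (i - 1) := by
        rw [← pow_succ']
        congr 1
        omega
      rw [h4]
      omega
  have hKeq : K' = (Vv Λ μ j).filter (fun a => Λ a ≤ μ / rho k) := by
    ext a
    have hr := rho_pos k
    simp only [hK', Th, Vv, Finset.mem_sdiff, Finset.mem_filter, Finset.mem_univ, true_and, not_le]
    rw [le_div_iff₀ hr, mul_comm]
    tauto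
  have hsub : K' ⊆ flagSet (Vv Λ μ j) Λ i := by
    rw [hKeq]
    refine subset_flagSet _ _ _ _ ?_
    rw [← hKeq]
    exact hle
  have h1 : ∑ a ∈ K', f a ^ 2 ≤ ∑ a ∈ flagSet (Vv Λ μ j) Λ i, f a ^ 2 :=
    Finset.sum_le_sum_of_subset_of_nonneg hsub (fun _ _ _ => sq_nonneg _)
  refine h1.trans ((hflag i him).trans ?_)
  have h2 : ((2 : ℝ) ^ i) ≤ 2 * (K'.card : ℝ) := by exact_mod_cast h2r
  have h3 : (1 : ℝ) ≤ K'.card := by exact_mod_cast hr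
  nlinarith

/-- The Gram invariant for a child. -/
lemma OO_child {z : ι → D → ℝ} {Λ : D → ℝ} (hΛ : ∀ a, 0 ≤ Λ a) {A : ℝ} (hA : 0 < A) {j : ℕ}
    {s C : Finset ι} (hO : OO z Λ A A j s) (F : D × D → ℝ) {b : ℝ} (hb0 : 0 ≤ b) (hbA : 5 * b ≤ A)
    (hF : ∀ p, Gm z C p - (1 / 2) * Gm z s p = F p)
    (hb : ∑ p : D × D, (sw (gg Λ A j) p * F p) ^ 2 ≤ b ^ 2) : OO z Λ A A (j + 1) C := by
  have hg := gg_pos hΛ hA j
  have hg' := gg_pos hΛ hA (j + 1)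
  have hDev : ∀ p, Dev z Λ C (j + 1) p = (1 / 2) * Dev z Λ s j p + F p := by
    intro p
    rw [← hF p]
    simp only [Dev, rho_succ]
    split_ifs <;> ring
  have h1 := hs_change hg hg' (gg_step hΛ A j) (Dev z Λ C (j + 1))
  unfold OO
  refine h1.trans ?_
  have h2 : nm univ (fun p => sw (gg Λ A j) p * Dev z Λ C (j + 1) p) ≤ A / 2 + b := by
    have e1 : (fun p => sw (gg Λ A j) p * Dev z Λ C (j + 1) p)
        = fun p => (1 / 2 : ℝ) * (sw (gg Λ A j) p * Dev z Λ s j p) + sw (gg Λ A j) p * F p := by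
      funext p
      rw [hDev p]
      ring
    rw [e1]
    refine (nm_add_le univ _ _).trans ?_
    rw [nm_smul]
    have h3 : nm univ (fun p => sw (gg Λ A j) p * Dev z Λ s j p) ≤ A := nm_le_of_sq hA.le hO
    have h4 : nm univ (fun p => sw (gg Λ A j) p * F p) ≤ b := nm_le_of_sq hb0 hb
    have h5 : |(1 / 2 : ℝ)| = 1 / 2 := abs_of_pos (by norm_num)
    rw [h5]
    linarith
  have h3 := sum_sq_le_of_nm h2
  have h4 : (A / 2 + b) ^ 2 ≤ (7 / 10 * A) ^ 2 :=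
    pow_le_pow_left₀ (by positivity) (by linarith) 2
  nlinarith

/-- Some threshold level contains every coordinate. -/
lemma exists_Th_univ {μ : ℝ} (hμ : 0 < μ) {Λ : D → ℝ} (hΛ : ∀ a, 0 ≤ Λ a) (j : ℕ) :
    ∃ k, j ≤ k ∧ Th Λ μ k = univ := by
  set T := ∑ a, Λ a with hT
  have hT0 : 0 ≤ T := Finset.sum_nonneg (fun a _ => hΛ a)
  obtain ⟨n, hn⟩ := exists_pow_lt_of_lt_one (show 0 < μ / (T + 1) by positivity)
    (show (1 / 2 : ℝ) < 1 by norm_num)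
  refine ⟨j + n, by omega, ?_⟩
  refine Finset.eq_univ_of_forall (fun a => Finset.mem_filter.mpr ⟨Finset.mem_univ a, ?_⟩)
  have h1 : rho (j + n) ≤ μ / (T + 1) := (rho_anti (Nat.le_add_left n j)).trans hn.le
  have h2 : Λ a ≤ T + 1 := by
    have := Finset.single_le_sum (f := Λ) (fun a _ => hΛ a) (Finset.mem_univ a)
    linarith
  calc rho (j + n) * Λ a ≤ (μ / (T + 1)) * (T + 1) :=
        mul_le_mul h1 h2 (hΛ a) (by positivity)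
    _ = μ := by field_simp

/-- The global norm bound from the invariant. -/
lemma TT_norm_le {z : ι → D → ℝ} {Λ : D → ℝ} (hΛ : ∀ a, 0 ≤ Λ a) {μ : ℝ} (hμ : 0 < μ) {K : ℕ}
    {β₁ β₂ κ : ℝ} (hβ₁ : 0 ≤ β₁) (hκ : 0 ≤ κ) {j : ℕ} {s : Finset ι} {x : D → ℝ}
    (h : TT z Λ μ K β₁ β₂ κ j s x) :
    nm univ x ≤ Real.sqrt (β₁ * (((K : ℝ) + 1) * (Fintype.card D : ℝ))
      + β₂ * (Fintype.card D : ℝ)) + κ * (4 * (Fintype.card D : ℝ)) := by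
  obtain ⟨k, hk, hT⟩ := exists_Th_univ hμ hΛ j
  have h1 := h k hk
  rw [hT] at h1
  refine h1.trans ?_
  have h2 : Psi z K (Th Λ μ j) s ≤ ((K : ℝ) + 1) * (Fintype.card D : ℝ) := by
    refine (Psi_le z K _ s).trans ?_
    refine mul_le_mul_of_nonneg_left ?_ (by positivity)
    exact_mod_cast Finset.card_le_univ _
  have h3 := Lb_le hκ Λ (μ := μ) j
  have h4 : (Finset.univ : Finset D).card = Fintype.card D := Finset.card_univ
  rw [h4]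
  have h5 := mul_le_mul_of_nonneg_left h2 hβ₁
  have h6 : Real.sqrt (β₁ * Psi z K (Th Λ μ j) s + β₂ * (Fintype.card D : ℝ))
      ≤ Real.sqrt (β₁ * (((K : ℝ) + 1) * (Fintype.card D : ℝ)) + β₂ * (Fintype.card D : ℝ)) :=
    Real.sqrt_le_sqrt (by linarith)
  linarith

end Close

end Vale.Agent.Lib.P262
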