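import Mathlib

namespace Vale.Agent.Lib.P262

open Finset

section NM

variable {α : Type}

/-- Euclidean norm of `f` on the block `X`. -/
noncomputable def nm (X : Finset α) (f : α → ℝ) : ℝ := Real.sqrt (∑ a ∈ X, f a ^ 2)

lemma nm_nonneg (X : Finset α) (f : α → ℝ) : 0 ≤ nm X f := Real.sqrt_nonneg _

lemma nm_sq (X : Finset α) (f : α → ℝ) : nm X f ^ 2 = ∑ a ∈ X, f a ^ 2 :=
  Real.sq_sqrt (Finset.sum_nonneg (fun _ _ => sq_nonneg _))

lemma nm_le_of_sq {X : Finset α} {f : α → ℝ} {r : ℝ} (hr : 0 ≤ r) (h : ∑ a ∈ X, f a ^ 2 ≤ r ^ 2) :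
    nm X f ≤ r := Real.sqrt_le_iff.mpr ⟨hr, h⟩

lemma sum_sq_le_of_nm {X : Finset α} {f : α → ℝ} {r : ℝ} (h : nm X f ≤ r) :
    ∑ a ∈ X, f a ^ 2 ≤ r ^ 2 := by
  rw [← nm_sq]
  exact pow_le_pow_left₀ (nm_nonneg _ _) h 2

lemma nm_add_le (X : Finset α) (f g : α → ℝ) :
    nm X (fun a => f a + g a) ≤ nm X f + nm X g := by
  refine nm_le_of_sq (add_nonneg (nm_nonneg _ _) (nm_nonneg _ _)) ?_
  have h1 : ∑ a ∈ X, f a * g a ≤ nm X f * nm X g := Real.sum_mul_le_sqrt_mul_sqrt X f g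
  have h2 : ∑ a ∈ X, (f a + g a) ^ 2
      = ∑ a ∈ X, f a ^ 2 + 2 * ∑ a ∈ X, f a * g a + ∑ a ∈ X, g a ^ 2 := by
    rw [Finset.mul_sum, ← Finset.sum_add_distrib, ← Finset.sum_add_distrib]
    exact Finset.sum_congr rfl (fun a _ => by ring)
  rw [h2, ← nm_sq X f, ← nm_sq X g]
  nlinarith

lemma nm_sum_le {β : Type} (X : Finset α) (F : Finset β) (u : β → α → ℝ) :
    nm X (fun a => ∑ i ∈ F, u i a) ≤ ∑ i ∈ F, nm X (u i) := by
  classical
  induction F using Finset.induction_on with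
  | empty => simp [nm]
  | insert i F hi ih =>
    simp only [Finset.sum_insert hi]
    exact (nm_add_le X (u i) (fun a => ∑ i ∈ F, u i a)).trans (by linarith)

lemma nm_mono {X Y : Finset α} (h : X ⊆ Y) (f : α → ℝ) : nm X f ≤ nm Y f :=
  Real.sqrt_le_sqrt (Finset.sum_le_sum_of_subset_of_nonneg h (fun _ _ _ => sq_nonneg _))

lemma nm_congr {X : Finset α} {f g : α → ℝ} (h : ∀ a ∈ X, f a = g a) : nm X f = nm X g := by
  simp only [nm]
  congr 1
  exact Finset.sum_congr rfl (fun a ha => by rw [h a ha])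

lemma nm_smul (X : Finset α) (c : ℝ) (f : α → ℝ) : nm X (fun a => c * f a) = |c| * nm X f := by
  simp only [nm]
  have : ∑ a ∈ X, (c * f a) ^ 2 = c ^ 2 * ∑ a ∈ X, f a ^ 2 := by
    rw [Finset.mul_sum]
    exact Finset.sum_congr rfl (fun a _ => by ring)
  rw [this, Real.sqrt_mul (sq_nonneg c), Real.sqrt_sq_eq_abs]

/-- Linear combinations: Cauchy-Schwarz in the coefficient space. -/
lemma nm_lincomb_sq {β : Type} (X : Finset α) (F : Finset β) (κ : β → ℝ) (u : β → α → ℝ) :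
    ∑ a ∈ X, (∑ i ∈ F, κ i * u i a) ^ 2 ≤ (∑ i ∈ F, κ i ^ 2) * ∑ i ∈ F, nm X (u i) ^ 2 := by
  calc ∑ a ∈ X, (∑ i ∈ F, κ i * u i a) ^ 2
      ≤ ∑ a ∈ X, ((∑ i ∈ F, κ i ^ 2) * ∑ i ∈ F, u i a ^ 2) :=
        Finset.sum_le_sum (fun a _ => Finset.sum_mul_sq_le_sq_mul_sq F κ (fun i => u i a))
    _ = (∑ i ∈ F, κ i ^ 2) * ∑ i ∈ F, nm X (u i) ^ 2 := by
        rw [← Finset.mul_sum, Finset.sum_comm]
        congr 1
        exact Finset.sum_congr rfl (fun i _ => (nm_sq X (u i)).symm)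

end NM

section HS

variable {D : Type} [Fintype D]

/-- Weight of a matrix entry. -/
noncomputable def sw (g : D → ℝ) (p : D × D) : ℝ := Real.sqrt (1 / (g p.1 * g p.2))

lemma sw_sq {g : D → ℝ} (hg : ∀ a, 0 < g a) (p : D × D) : sw g p ^ 2 = 1 / (g p.1 * g p.2) :=
  Real.sq_sqrt (by have := hg p.1; have := hg p.2; positivity)

lemma sw_nonneg (g : D → ℝ) (p : D × D) : 0 ≤ sw g p := Real.sqrt_nonneg _

/-- The normalized atom. -/
noncomputable def aa (g : D → ℝ) (v : D → ℝ) (p : D × D) : ℝ := sw g p * (v p.1 * v p.2)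

/-- The bilinear estimate. -/
lemma bilin {g : D → ℝ} (hg : ∀ a, 0 < g a) (F : D × D → ℝ) (x y : D → ℝ) :
    (∑ p : D × D, F p * (x p.1 * y p.2)) ^ 2
      ≤ (∑ p : D × D, (sw g p * F p) ^ 2) * ((∑ a, g a * x a ^ 2) * ∑ b, g b * y b ^ 2) := by
  have h := Finset.sum_sq_le_sum_mul_sum_of_sq_le_mul (Finset.univ : Finset (D × D))
    (r := fun p => F p * (x p.1 * y p.2)) (f := fun p => (sw g p * F p) ^ 2)
    (g := fun p => (g p.1 * x p.1 ^ 2) * (g p.2 * y p.2 ^ 2))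
    (fun p _ => sq_nonneg _)
    (fun p _ => mul_nonneg (mul_nonneg (hg _).le (sq_nonneg _)) (mul_nonneg (hg _).le (sq_nonneg _)))
    (fun p _ => le_of_eq (by
      have h1 := hg p.1
      have h2 := hg p.2
      rw [mul_pow (sw g p), sw_sq hg]
      field_simp))
  refine h.trans (le_of_eq ?_)
  congr 1
  rw [Finset.sum_mul_sum, ← Finset.univ_product_univ, Finset.sum_product]

/-- Row version of the bilinear estimate. -/
lemma bilin_row {g : D → ℝ} (hg : ∀ a, 0 < g a) (F : D × D → ℝ) (y : D → ℝ) (a : D) :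
    (∑ b, F (a, b) * y b) ^ 2
      ≤ g a * ((∑ b, (sw g (a, b) * F (a, b)) ^ 2) * ∑ b, g b * y b ^ 2) := by
  have h := Finset.sum_sq_le_sum_mul_sum_of_sq_le_mul (Finset.univ : Finset D)
    (r := fun b => F (a, b) * y b) (f := fun b => (sw g (a, b) * F (a, b)) ^ 2)
    (g := fun b => g a * (g b * y b ^ 2))
    (fun p _ => sq_nonneg _)
    (fun p _ => mul_nonneg (hg _).le (mul_nonneg (hg _).le (sq_nonneg _)))
    (fun b _ => le_of_eq (by
      have h1 := hg a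
      have h2 := hg b
      rw [mul_pow (sw g (a, b)), sw_sq hg]
      field_simp))
  refine h.trans (le_of_eq ?_)
  rw [← Finset.mul_sum]
  ring

lemma sum_prod_sq (F : D × D → ℝ) :
    ∑ p : D × D, F p = ∑ a, ∑ b, F (a, b) := by
  rw [← Finset.univ_product_univ, Finset.sum_product]

/-- Squared size of a normalized atom. -/
lemma aa_norm_sq {g : D → ℝ} (hg : ∀ a, 0 < g a) (v : D → ℝ) :
    ∑ p : D × D, aa g v p ^ 2 = (∑ a, v a ^ 2 / g a) ^ 2 := by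
  rw [sq (∑ a, v a ^ 2 / g a), Finset.sum_mul_sum, sum_prod_sq]
  refine Finset.sum_congr rfl (fun a _ => Finset.sum_congr rfl (fun b _ => ?_))
  simp only [aa]
  have h1 := hg a
  have h2 := hg b
  rw [mul_pow, sw_sq hg]
  field_simp

lemma aa_nm {g : D → ℝ} (hg : ∀ a, 0 < g a) (v : D → ℝ) :
    nm univ (aa g v) = ∑ a, v a ^ 2 / g a := by
  simp only [nm]
  rw [aa_norm_sq hg, Real.sqrt_sq]
  exact Finset.sum_nonneg (fun a _ => div_nonneg (sq_nonneg _) (hg a).le)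

/-- The square of the size is at most `∑ v_a²/g_a²` for a unit vector. -/
lemma aa_nm_sq_le {g : D → ℝ} (hg : ∀ a, 0 < g a) {v : D → ℝ} (hv : ∑ a, v a ^ 2 ≤ 1) :
    nm univ (aa g v) ^ 2 ≤ ∑ a, v a ^ 2 / g a ^ 2 := by
  rw [aa_nm hg]
  have h := Finset.sum_sq_le_sum_mul_sum_of_sq_le_mul (Finset.univ : Finset D)
    (r := fun a => v a ^ 2 / g a) (f := fun a => v a ^ 2) (g := fun a => v a ^ 2 / g a ^ 2)
    (fun a _ => sq_nonneg _) (fun a _ => div_nonneg (sq_nonneg _) (sq_nonneg _))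
    (fun a _ => le_of_eq (by
      have h1 := hg a
      field_simp))
  refine h.trans ?_
  have h0 : 0 ≤ ∑ a, v a ^ 2 / g a ^ 2 :=
    Finset.sum_nonneg (fun a _ => div_nonneg (sq_nonneg _) (sq_nonneg _))
  nlinarith

/-- Uniform size bound. -/
lemma aa_nm_le {g : D → ℝ} (hg : ∀ a, 0 < g a) {s₀ : ℝ} (hs₀ : 0 < s₀) (hgs : ∀ a, s₀ ≤ g a)
    {v : D → ℝ} (hv : ∑ a, v a ^ 2 ≤ 1) : nm univ (aa g v) ≤ 1 / s₀ := by
  rw [aa_nm hg]
  have h1 : ∀ a, v a ^ 2 / g a ≤ v a ^ 2 / s₀ := fun a =>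
    div_le_div_of_nonneg_left (sq_nonneg _) hs₀ (hgs a)
  calc ∑ a, v a ^ 2 / g a ≤ ∑ a, v a ^ 2 / s₀ := Finset.sum_le_sum (fun a _ => h1 a)
    _ = (∑ a, v a ^ 2) / s₀ := by rw [Finset.sum_div]
    _ ≤ 1 / s₀ := div_le_div_of_nonneg_right hv hs₀.le

/-- Changing the weights by a factor at most two. -/
lemma hs_change {g g' : D → ℝ} (hg : ∀ a, 0 < g a) (hg' : ∀ a, 0 < g' a)
    (h : ∀ a, g a ^ 2 ≤ 2 * g' a ^ 2) (F : D × D → ℝ) :
    ∑ p : D × D, (sw g' p * F p) ^ 2 ≤ 2 * ∑ p : D × D, (sw g p * F p) ^ 2 := by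
  rw [Finset.mul_sum]
  refine Finset.sum_le_sum (fun p _ => ?_)
  rw [mul_pow, mul_pow, sw_sq hg, sw_sq hg']
  have h1 := hg p.1
  have h2 := hg p.2
  have h3 := hg' p.1
  have h4 := hg' p.2
  have key : g p.1 * g p.2 ≤ 2 * (g' p.1 * g' p.2) := by
    have h5 : (g p.1 * g p.2) ^ 2 ≤ (2 * (g' p.1 * g' p.2)) ^ 2 := by
      have h6 := h p.1
      have h7 := h p.2
      calc (g p.1 * g p.2) ^ 2 = g p.1 ^ 2 * g p.2 ^ 2 := by ring
        _ ≤ (2 * g' p.1 ^ 2) * (2 * g' p.2 ^ 2) :=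
            mul_le_mul h6 h7 (sq_nonneg _) (by positivity)
        _ = (2 * (g' p.1 * g' p.2)) ^ 2 := by ring
    exact (pow_le_pow_iff_left₀ (by positivity) (by positivity) two_ne_zero).mp h5
  have h8 : 1 / (g' p.1 * g' p.2) ≤ 2 * (1 / (g p.1 * g p.2)) := by
    rw [div_le_iff₀ (by positivity)]
    have : 2 * (1 / (g p.1 * g p.2)) * (g' p.1 * g' p.2)
        = 2 * (g' p.1 * g' p.2) / (g p.1 * g p.2) := by ring
    rw [this, le_div_iff₀ (by positivity)]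
    linarith
  have := mul_le_mul_of_nonneg_right h8 (sq_nonneg (F p))
  linarith

end HS

end Vale.Agent.Lib.P262
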