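import Mathlib

namespace Vale.Agent.Lib.P262

open Finset

section Pot

/-- The potential of one coordinate. -/
noncomputable def psi (K : ℕ) (e : ℝ) : ℝ := ∑ k ∈ range (K + 1), (2 : ℝ) ^ k / (e + 2 ^ k)

/-- Its (negative) derivative. -/
noncomputable def dpsi (K : ℕ) (e : ℝ) : ℝ := ∑ k ∈ range (K + 1), (2 : ℝ) ^ k / (e + 2 ^ k) ^ 2

lemma psi_nonneg (K : ℕ) {e : ℝ} (he : 0 ≤ e) : 0 ≤ psi K e :=
  Finset.sum_nonneg (fun k _ => by positivity)

lemma psi_le (K : ℕ) {e : ℝ} (he : 0 ≤ e) : psi K e ≤ K + 1 := by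
  have : psi K e ≤ ∑ _k ∈ range (K + 1), (1 : ℝ) := by
    refine Finset.sum_le_sum (fun k _ => ?_)
    have h2 : (0:ℝ) < 2 ^ k := by positivity
    rw [div_le_one (by positivity)]
    linarith
  simpa using this

lemma dpsi_nonneg (K : ℕ) (e : ℝ) : 0 ≤ dpsi K e :=
  Finset.sum_nonneg (fun k _ => by positivity)

lemma dpsi_le_two (K : ℕ) {e : ℝ} (he : 0 ≤ e) : dpsi K e ≤ 2 := by
  have h1 : dpsi K e ≤ ∑ k ∈ range (K + 1), (1 / 2 : ℝ) ^ k := by
    refine Finset.sum_le_sum (fun k _ => ?_)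
    have h2 : (0:ℝ) < 2 ^ k := by positivity
    rw [div_le_iff₀ (by positivity), one_div, inv_pow]
    have h3 : (2:ℝ) ^ k * (2 ^ k) ≤ (e + 2 ^ k) ^ 2 := by nlinarith
    have h4 : ((2:ℝ) ^ k)⁻¹ * (e + 2 ^ k) ^ 2 ≥ ((2:ℝ) ^ k)⁻¹ * ((2:ℝ) ^ k * (2 ^ k)) :=
      mul_le_mul_of_nonneg_left h3 (by positivity)
    rw [← mul_assoc, inv_mul_cancel₀ h2.ne', one_mul] at h4
    exact h4
  have h2 : ∑ k ∈ range (K + 1), (1 / 2 : ℝ) ^ k ≤ 2 := by
    have := sum_geometric_two_le (K + 1)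
    simpa using this
  linarith

/-- Tangent line inequality for the potential. -/
lemma psi_tangent (K : ℕ) {e y : ℝ} (hy : 0 ≤ y) (hye : y ≤ e) :
    psi K e + y * dpsi K e ≤ psi K (e - y) := by
  simp only [psi, dpsi]
  rw [Finset.mul_sum, ← Finset.sum_add_distrib]
  refine Finset.sum_le_sum (fun k _ => ?_)
  have h2 : (0:ℝ) < 2 ^ k := by positivity
  set p : ℝ := (2:ℝ) ^ k with hp
  have hx : 0 < e + p := by linarith
  have hx' : 0 < e - y + p := by linarith
  have key : p / (e - y + p) - (p / (e + p) + y * (p / (e + p) ^ 2))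
      = p * y ^ 2 / ((e + p) ^ 2 * (e - y + p)) := by
    field_simp
    ring
  have h3 : 0 ≤ p * y ^ 2 / ((e + p) ^ 2 * (e - y + p)) := by positivity
  linarith

/-- Main scale inequality for the weight: `min(1, e) ≤ 18 e f(es)`. -/
lemma min_le_dpsi (K : ℕ) {e es : ℝ} (he : 0 ≤ e) (hes : e ≤ es) (hes1 : es ≤ e + 1)
    (hesK : es ≤ 2 ^ K) : min 1 e ≤ 18 * (e * dpsi K es) := by
  have hes0 : 0 ≤ es := he.trans hes
  by_cases h1 : e < 1
  · -- term `k = 0`
    have hterm : 1 / (es + 1) ^ 2 ≤ dpsi K es := by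
      have := Finset.single_le_sum (f := fun k => (2 : ℝ) ^ k / (es + 2 ^ k) ^ 2)
        (s := range (K + 1)) (fun k _ => by positivity) (Finset.mem_range.mpr (Nat.succ_pos K))
      have e0 : (2 : ℝ) ^ 0 / (es + 2 ^ 0) ^ 2 = 1 / (es + 1) ^ 2 := by simp
      rw [← e0]
      exact this
    have h2 : (1 : ℝ) / 9 ≤ 1 / (es + 1) ^ 2 := by
      apply one_div_le_one_div_of_le (by positivity)
      nlinarith
    have h3 : e * (1 / 9) ≤ e * dpsi K es :=
      mul_le_mul_of_nonneg_left (h2.trans hterm) he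
    calc min 1 e ≤ e := min_le_right _ _
      _ ≤ 18 * (e * dpsi K es) := by nlinarith
  · push Not at h1
    have hes1' : 1 ≤ es := h1.trans hes
    -- pick the dyadic scale
    obtain ⟨k, hk1, hk2⟩ : ∃ k : ℕ, (2:ℝ) ^ k ≤ es ∧ es < 2 ^ (k + 1) := by
      have := exists_nat_pow_near (x := es) (y := 2) hes1' (by norm_num)
      exact this
    have hkK : k ≤ K := by
      by_contra hcon
      push Not at hcon
      have h2 : (2:ℝ) ^ (K + 1) ≤ 2 ^ k := pow_le_pow_right₀ (by norm_num) hcon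
      have h3 : (2:ℝ) ^ (K + 1) = 2 * 2 ^ K := by ring
      have h4 : (0:ℝ) < 2 ^ K := by positivity
      linarith
    have hterm : (2:ℝ) ^ k / (es + 2 ^ k) ^ 2 ≤ dpsi K es :=
      Finset.single_le_sum (f := fun k => (2 : ℝ) ^ k / (es + 2 ^ k) ^ 2)
        (s := range (K + 1)) (fun k _ => by positivity) (Finset.mem_range.mpr (by omega))
    set p : ℝ := (2:ℝ) ^ k with hp
    have hp0 : 0 < p := by positivity
    have hes2 : es < 2 * p := by
      have : (2:ℝ) ^ (k + 1) = 2 * p := by rw [hp]; ring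
      linarith
    have hlow : 1 / (9 * p) ≤ p / (es + p) ^ 2 := by
      rw [div_le_div_iff₀ (by positivity) (by positivity)]
      nlinarith
    have he2 : p / 2 ≤ e := by
      have : es ≤ 2 * e := by linarith
      linarith
    have h3 : (p / 2) * (1 / (9 * p)) ≤ e * dpsi K es :=
      mul_le_mul he2 (hlow.trans hterm) (by positivity) he
    have h4 : (p / 2) * (1 / (9 * p)) = 1 / 18 := by
      field_simp
      norm_num
    rw [h4] at h3
    calc min 1 e ≤ 1 := min_le_left _ _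
      _ ≤ 18 * (e * dpsi K es) := by linarith

end Pot

section Flags

variable {D : Type} [DecidableEq D]

/-- The `2^i` lowest coordinates of `V` in the order given by `Λ`. -/
noncomputable def flagSet (V : Finset D) (Λ : D → ℝ) (i : ℕ) : Finset D :=
  V.filter (fun a => (V.filter (fun b => Λ b ≤ Λ a)).card ≤ 2 ^ i)

lemma flagSet_subset (V : Finset D) (Λ : D → ℝ) (i : ℕ) : flagSet V Λ i ⊆ V :=
  Finset.filter_subset _ _

lemma flagSet_mono (V : Finset D) (Λ : D → ℝ) (i : ℕ) : flagSet V Λ i ⊆ flagSet V Λ (i + 1) := by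
  intro a ha
  obtain ⟨h1, h2⟩ := Finset.mem_filter.mp ha
  refine Finset.mem_filter.mpr ⟨h1, h2.trans ?_⟩
  exact Nat.pow_le_pow_right (by norm_num) (Nat.le_succ i)

lemma flagSet_card (V : Finset D) (Λ : D → ℝ) (i : ℕ) : (flagSet V Λ i).card ≤ 2 ^ i := by
  by_cases hne : (flagSet V Λ i).Nonempty
  · obtain ⟨a, ha, hmax⟩ := Finset.exists_max_image (flagSet V Λ i) Λ hne
    have h1 := (Finset.mem_filter.mp ha).2
    refine le_trans (Finset.card_le_card ?_) h1
    intro b hb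
    exact Finset.mem_filter.mpr ⟨flagSet_subset V Λ i hb, hmax b hb⟩
  · rw [Finset.not_nonempty_iff_eq_empty.mp hne]
    simp

lemma subset_flagSet (V : Finset D) (Λ : D → ℝ) (τ : ℝ) (i : ℕ)
    (h : (V.filter (fun a => Λ a ≤ τ)).card ≤ 2 ^ i) :
    V.filter (fun a => Λ a ≤ τ) ⊆ flagSet V Λ i := by
  intro a ha
  obtain ⟨h1, h2⟩ := Finset.mem_filter.mp ha
  refine Finset.mem_filter.mpr ⟨h1, le_trans (Finset.card_le_card ?_) h⟩
  intro b hb
  obtain ⟨h3, h4⟩ := Finset.mem_filter.mp hb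
  exact Finset.mem_filter.mpr ⟨h3, h4.trans h2⟩

lemma flagSet_top (V : Finset D) (Λ : D → ℝ) (i : ℕ) (h : V.card ≤ 2 ^ i) :
    flagSet V Λ i = V := by
  refine Finset.Subset.antisymm (flagSet_subset V Λ i) ?_
  intro a ha
  refine Finset.mem_filter.mpr ⟨ha, le_trans (Finset.card_le_card (Finset.filter_subset _ _)) h⟩

end Flags

end Vale.Agent.Lib.P262
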