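import Mathlib

namespace Vale.Agent.Lib.P262

open Finset

section Tilt

variable {ι D : Type} [Fintype D] [DecidableEq D]

/-- Solving the tilt equations: the quadratic form is positive definite on `V`. -/
lemma exists_tilt (z : ι → D → ℝ) (R : Finset ι) (V : Finset D) (q : D → ℝ)
    (hq : ∀ a ∈ V, 0 < q a)
    (hlow : ∀ v : D → ℝ, (∀ a, a ∉ V → v a = 0) →
      ∑ a ∈ V, q a * v a ^ 2 ≤ ∑ i ∈ R, (∑ a, v a * z i a) ^ 2)
    (tgt : D → ℝ) :
    ∃ v : D → ℝ, (∀ a, a ∉ V → v a = 0) ∧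
      ∀ a ∈ V, ∑ i ∈ R, (∑ b, v b * z i b) * z i a = tgt a := by
  classical
  let ext : (↥V → ℝ) → D → ℝ := fun x a => if h : a ∈ V then x ⟨a, h⟩ else 0
  have hext_off : ∀ x a, a ∉ V → ext x a = 0 := fun x a ha => by simp [ext, ha]
  have hext_on : ∀ x (a : ↥V), ext x a = x a := fun x a => by simp [ext]
  have hext_add : ∀ x y a, ext (x + y) a = ext x a + ext y a := by
    intro x y a
    by_cases h : a ∈ V <;> simp [ext, h]
  have hext_smul : ∀ (c : ℝ) x a, ext (c • x) a = c * ext x a := by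
    intro c x a
    by_cases h : a ∈ V <;> simp [ext, h]
  let L : (↥V → ℝ) →ₗ[ℝ] (↥V → ℝ) :=
    { toFun := fun x a => ∑ i ∈ R, (∑ b, ext x b * z i b) * z i a
      map_add' := by
        intro x y; funext a
        simp only [Pi.add_apply, ← Finset.sum_add_distrib]
        refine Finset.sum_congr rfl (fun i _ => ?_)
        rw [← add_mul, ← Finset.sum_add_distrib]
        congr 1
        refine Finset.sum_congr rfl (fun b _ => ?_)
        rw [hext_add]; ring
      map_smul' := by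
        intro c x; funext a
        simp only [RingHom.id_apply, Pi.smul_apply, smul_eq_mul, Finset.mul_sum]
        refine Finset.sum_congr rfl (fun i _ => ?_)
        rw [← mul_assoc, Finset.mul_sum]
        congr 1
        refine Finset.sum_congr rfl (fun b _ => ?_)
        rw [hext_smul]; ring }
  have hinj : Function.Injective L := by
    rw [← LinearMap.ker_eq_bot, LinearMap.ker_eq_bot']
    intro x hx
    have hsum : ∑ i ∈ R, (∑ b, ext x b * z i b) ^ 2 = 0 := by
      have h1 : ∀ i, ∑ b, ext x b * z i b = ∑ a : ↥V, x a * z i a := by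
        intro i
        rw [← Finset.sum_subset (Finset.subset_univ V)
          (fun b _ hb => by rw [hext_off x b hb, zero_mul]), ← Finset.sum_coe_sort V]
        exact Finset.sum_congr rfl (fun a _ => by rw [hext_on])
      have h2 : ∑ a : ↥V, x a * (L x) a = ∑ i ∈ R, (∑ b, ext x b * z i b) ^ 2 := by
        show ∑ a : ↥V, x a * (∑ i ∈ R, (∑ b, ext x b * z i b) * z i a) = _
        simp_rw [Finset.mul_sum]
        rw [Finset.sum_comm]
        refine Finset.sum_congr rfl (fun i _ => ?_)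
        have h3 : ∑ a : ↥V, x a * ((∑ b, ext x b * z i b) * z i a)
            = (∑ b, ext x b * z i b) * ∑ a : ↥V, x a * z i a := by
          rw [Finset.mul_sum]
          refine Finset.sum_congr rfl (fun a _ => ?_)
          ring
        rw [h3, ← h1 i, sq]
      rw [← h2, hx]
      simp
    have h3 := hlow (ext x) (hext_off x)
    rw [hsum] at h3
    have h4 : ∑ a ∈ V, q a * ext x a ^ 2 = 0 := by
      refine le_antisymm h3 (Finset.sum_nonneg (fun a ha => ?_))
      exact mul_nonneg (hq a ha).le (sq_nonneg _)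
    have h5 := (Finset.sum_eq_zero_iff_of_nonneg
      (fun a ha => mul_nonneg (hq a ha).le (sq_nonneg _))).mp h4
    funext a
    have h6 := h5 a a.2
    have h7 : ext x a ^ 2 = 0 := by
      rcases mul_eq_zero.mp h6 with h | h
      · exact absurd h (hq a a.2).ne'
      · exact h
    have h8 : ext x a = 0 := pow_eq_zero_iff (two_ne_zero) |>.mp h7
    rw [hext_on] at h8
    simpa using h8
  have hsurj : Function.Surjective L := LinearMap.injective_iff_surjective.mp hinj
  obtain ⟨x, hx⟩ := hsurj (fun a => tgt a)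
  refine ⟨ext x, hext_off x, fun a ha => ?_⟩
  have := congrFun hx ⟨a, ha⟩
  exact this

/-- Bounds for the tilt: with `T = ∑ t_i²` one has `T ≤ Γ/m`, etc. -/
lemma tilt_bounds (z : ι → D → ℝ) (R : Finset ι) (V : Finset D) (q : D → ℝ) (m : ℝ) (hm : 0 < m)
    (hq : ∀ a ∈ V, m ≤ q a) (v tgt : D → ℝ) (hv : ∀ a, a ∉ V → v a = 0)
    (hlow : ∑ a ∈ V, q a * v a ^ 2 ≤ ∑ i ∈ R, (∑ a, v a * z i a) ^ 2)
    (hsol : ∀ a ∈ V, ∑ i ∈ R, (∑ b, v b * z i b) * z i a = tgt a) :
    ∑ i ∈ R, (∑ a, v a * z i a) ^ 2 ≤ (∑ a ∈ V, tgt a ^ 2) / m ∧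
    ∑ a ∈ V, q a * v a ^ 2 ≤ (∑ a ∈ V, tgt a ^ 2) / m ∧
    ∑ a ∈ V, v a ^ 2 ≤ (∑ a ∈ V, tgt a ^ 2) / m ^ 2 := by
  set T := ∑ i ∈ R, (∑ a, v a * z i a) ^ 2 with hT
  set Q := ∑ a ∈ V, q a * v a ^ 2 with hQ
  set W := ∑ a ∈ V, v a ^ 2 with hW
  set Γ := ∑ a ∈ V, tgt a ^ 2 with hΓ
  have hT0 : 0 ≤ T := Finset.sum_nonneg (fun i _ => sq_nonneg _)
  have hW0 : 0 ≤ W := Finset.sum_nonneg (fun i _ => sq_nonneg _)
  have hΓ0 : 0 ≤ Γ := Finset.sum_nonneg (fun i _ => sq_nonneg _)
  -- `T` as a pairing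
  have hTpair : T = ∑ a ∈ V, v a * tgt a := by
    have h1 : ∀ a ∈ V, v a * tgt a = ∑ i ∈ R, (∑ b, v b * z i b) * (v a * z i a) := by
      intro a ha
      rw [← hsol a ha, Finset.mul_sum]
      exact Finset.sum_congr rfl (fun i _ => by ring)
    rw [Finset.sum_congr rfl h1, Finset.sum_comm, hT]
    refine Finset.sum_congr rfl (fun i _ => ?_)
    rw [← Finset.mul_sum, sq]
    congr 1
    refine (Finset.sum_subset (Finset.subset_univ V) (fun b _ hb => ?_)).symm
    rw [hv b hb, zero_mul]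
  have hCS : T ^ 2 ≤ W * Γ := by
    rw [hTpair]
    exact Finset.sum_mul_sq_le_sq_mul_sq V v tgt
  have hmW : m * W ≤ Q := by
    rw [hW, hQ, Finset.mul_sum]
    refine Finset.sum_le_sum (fun a ha => ?_)
    exact mul_le_mul_of_nonneg_right (hq a ha) (sq_nonneg _)
  have hWT : W ≤ T / m := by
    rw [le_div_iff₀ hm]; linarith
  have hTle : T ≤ Γ / m := by
    rw [le_div_iff₀ hm]
    by_cases hT00 : T = 0
    · rw [hT00]; simp; exact hΓ0
    · have hTpos : 0 < T := lt_of_le_of_ne hT0 (Ne.symm hT00)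
      have h1 : T ^ 2 ≤ (T / m) * Γ := hCS.trans (mul_le_mul_of_nonneg_right hWT hΓ0)
      have h2 : T * (T * m) ≤ T * Γ := by
        have : (T / m) * Γ * m = T * Γ := by field_simp
        have h3 := mul_le_mul_of_nonneg_right h1 hm.le
        rw [this] at h3
        nlinarith
      exact le_of_mul_le_mul_left h2 hTpos
  refine ⟨hTle, hlow.trans hTle, ?_⟩
  calc W ≤ T / m := hWT
    _ ≤ (Γ / m) / m := div_le_div_of_nonneg_right hTle hm.le
    _ = Γ / m ^ 2 := by field_simp

end Tilt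

end Vale.Agent.Lib.P262
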