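import Vale.Agent.Lib.P262.Chain
import Vale.Agent.Lib.P262.HS
import Vale.Agent.Lib.P262.Tilt
import Vale.Agent.Lib.P262.Pot

namespace Vale.Agent.Lib.P262

open Finset

section Defs

variable {ι D : Type} [Fintype D]

/-- Scale at depth `j`. -/
noncomputable def rho (j : ℕ) : ℝ := (1 / 2 : ℝ) ^ j

lemma rho_pos (j : ℕ) : 0 < rho j := by simp [rho]

lemma rho_succ (j : ℕ) : rho (j + 1) = rho j / 2 := by simp [rho, pow_succ]; ring

/-- The weight `g_j(a) = √(ρ_j Λ_a + s₀²)`. -/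
noncomputable def gg (Λ : D → ℝ) (s₀ : ℝ) (j : ℕ) (a : D) : ℝ := Real.sqrt (rho j * Λ a + s₀ ^ 2)

/-- Energy of a coordinate. -/
noncomputable def En (z : ι → D → ℝ) (s : Finset ι) (a : D) : ℝ := ∑ i ∈ s, z i a ^ 2

lemma En_nonneg (z : ι → D → ℝ) (s : Finset ι) (a : D) : 0 ≤ En z s a :=
  Finset.sum_nonneg (fun _ _ => sq_nonneg _)

lemma En_mono (z : ι → D → ℝ) {s t : Finset ι} (h : s ⊆ t) (a : D) : En z s a ≤ En z t a :=
  Finset.sum_le_sum_of_subset_of_nonneg h (fun _ _ _ => sq_nonneg _)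

/-- Gram matrix of a block. -/
noncomputable def Gm (z : ι → D → ℝ) (s : Finset ι) (p : D × D) : ℝ := ∑ i ∈ s, z i p.1 * z i p.2

variable [DecidableEq D]

/-- Deviation from the scaled diagonal. -/
noncomputable def Dev (z : ι → D → ℝ) (Λ : D → ℝ) (s : Finset ι) (j : ℕ) (p : D × D) : ℝ :=
  Gm z s p - if p.1 = p.2 then rho j * Λ p.1 else 0

/-- The Gram invariant. -/
def OO (z : ι → D → ℝ) (Λ : D → ℝ) (s₀ A : ℝ) (j : ℕ) (s : Finset ι) : Prop :=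
  ∑ p : D × D, (sw (gg Λ s₀ j) p * Dev z Λ s j p) ^ 2 ≤ A ^ 2

/-- Thin coordinates at depth `j`. -/
noncomputable def Th (Λ : D → ℝ) (μ : ℝ) (j : ℕ) : Finset D := univ.filter (fun a => rho j * Λ a ≤ μ)

/-- Thick coordinates at depth `j`. -/
noncomputable def Vv (Λ : D → ℝ) (μ : ℝ) (j : ℕ) : Finset D := univ.filter (fun a => μ < rho j * Λ a)

omit [DecidableEq D] in
lemma gg_sq {Λ : D → ℝ} (hΛ : ∀ a, 0 ≤ Λ a) (s₀ : ℝ) (j : ℕ) (a : D) :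
    gg Λ s₀ j a ^ 2 = rho j * Λ a + s₀ ^ 2 :=
  Real.sq_sqrt (add_nonneg (mul_nonneg (rho_pos j).le (hΛ a)) (sq_nonneg _))

omit [DecidableEq D] in
lemma gg_ge {Λ : D → ℝ} (hΛ : ∀ a, 0 ≤ Λ a) {s₀ : ℝ} (hs : 0 < s₀) (j : ℕ) (a : D) :
    s₀ ≤ gg Λ s₀ j a := by
  refine Real.le_sqrt_of_sq_le ?_
  have := mul_nonneg (rho_pos j).le (hΛ a)
  linarith

omit [DecidableEq D] in
lemma gg_pos {Λ : D → ℝ} (hΛ : ∀ a, 0 ≤ Λ a) {s₀ : ℝ} (hs : 0 < s₀) (j : ℕ) (a : D) :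
    0 < gg Λ s₀ j a := lt_of_lt_of_le hs (gg_ge hΛ hs j a)

omit [DecidableEq D] in
lemma gg_step {Λ : D → ℝ} (hΛ : ∀ a, 0 ≤ Λ a) (s₀ : ℝ) (j : ℕ) (a : D) :
    gg Λ s₀ j a ^ 2 ≤ 2 * gg Λ s₀ (j + 1) a ^ 2 := by
  rw [gg_sq hΛ, gg_sq hΛ, rho_succ]
  nlinarith [sq_nonneg s₀]

lemma Dev_diag (z : ι → D → ℝ) (Λ : D → ℝ) (s : Finset ι) (j : ℕ) (a : D) :
    Dev z Λ s j (a, a) = En z s a - rho j * Λ a := by
  simp [Dev, Gm, En, sq]

lemma Dev_off (z : ι → D → ℝ) (Λ : D → ℝ) (s : Finset ι) (j : ℕ) {a b : D} (h : a ≠ b) :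
    Dev z Λ s j (a, b) = ∑ i ∈ s, z i a * z i b := by
  simp [Dev, Gm, h]

/-- Diagonal entries of a matrix controlled by the normalized Frobenius norm. -/
lemma diag_le {g : D → ℝ} (hg : ∀ a, 0 < g a) {F : D × D → ℝ} {A : ℝ} (hA : 0 ≤ A)
    (h : ∑ p : D × D, (sw g p * F p) ^ 2 ≤ A ^ 2) (a : D) : |F (a, a)| ≤ A * g a := by
  have h1 : (sw g (a, a) * F (a, a)) ^ 2 ≤ A ^ 2 := by
    refine le_trans ?_ h
    exact Finset.single_le_sum (f := fun p => (sw g p * F p) ^ 2) (fun p _ => sq_nonneg _)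
      (Finset.mem_univ (a, a))
  rw [mul_pow, sw_sq hg] at h1
  have hga := hg a
  have h2 : F (a, a) ^ 2 ≤ (A * g a) ^ 2 := by
    have h3 : 1 / (g a * g a) * F (a, a) ^ 2 * (g a * g a) = F (a, a) ^ 2 := by
      field_simp
    rw [← h3, mul_pow]
    have := mul_le_mul_of_nonneg_right h1 (by positivity : 0 ≤ g a * g a)
    calc 1 / (g a * g a) * F (a, a) ^ 2 * (g a * g a) ≤ A ^ 2 * (g a * g a) := this
      _ = A ^ 2 * g a ^ 2 := by ring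
  exact abs_le_of_sq_le_sq h2 (by positivity)

/-- Upper bound for the energy. -/
lemma En_le_of_OO {z : ι → D → ℝ} {Λ : D → ℝ} (hΛ : ∀ a, 0 ≤ Λ a) {s₀ A : ℝ} (hs : 0 < s₀)
    (hA : 0 ≤ A) {j : ℕ} {s : Finset ι} (hO : OO z Λ s₀ A j s) (a : D) :
    En z s a ≤ rho j * Λ a + A * gg Λ s₀ j a := by
  have h := diag_le (gg_pos hΛ hs j) hA hO a
  rw [Dev_diag] at h
  have := (abs_le.mp h).2
  linarith

/-- Thin coordinates have energy at most `2μ`. -/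
lemma En_le_two_mu {z : ι → D → ℝ} {Λ : D → ℝ} (hΛ : ∀ a, 0 ≤ Λ a) {s₀ A μ : ℝ} (hs : 0 < s₀)
    (hA : 0 ≤ A) (hμs : s₀ ^ 2 ≤ μ) (hμA : 2 * A ^ 2 ≤ μ) {j : ℕ} {s : Finset ι}
    (hO : OO z Λ s₀ A j s) {a : D} (ha : a ∈ Th Λ μ j) : En z s a ≤ 2 * μ := by
  have h1 := En_le_of_OO hΛ hs hA hO a
  have h2 : rho j * Λ a ≤ μ := (Finset.mem_filter.mp ha).2
  have hμ : 0 ≤ μ := (sq_nonneg s₀).trans hμs
  have h3 : A * gg Λ s₀ j a ≤ μ := by
    have h4 : (A * gg Λ s₀ j a) ^ 2 ≤ μ ^ 2 := by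
      rw [mul_pow, gg_sq hΛ]
      have h5 : rho j * Λ a + s₀ ^ 2 ≤ 2 * μ := by linarith
      have h6 : A ^ 2 * (rho j * Λ a + s₀ ^ 2) ≤ A ^ 2 * (2 * μ) :=
        mul_le_mul_of_nonneg_left h5 (sq_nonneg A)
      nlinarith
    exact abs_le_of_sq_le_sq' h4 hμ |>.2
  linarith

/-- Total size of the normalized atoms. -/
lemma sum_aa_le {z : ι → D → ℝ} {Λ : D → ℝ} (hz : ∀ i, ∑ a, z i a ^ 2 ≤ 1) (hΛ : ∀ a, 0 ≤ Λ a)
    {s₀ A : ℝ} (hs : 0 < s₀) (hA : 0 ≤ A) (hAs : A ≤ s₀) {j : ℕ} {s : Finset ι}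
    (hO : OO z Λ s₀ A j s) :
    ∑ i ∈ s, nm univ (aa (gg Λ s₀ j) (z i)) ^ 2 ≤ 2 * (Fintype.card D : ℝ) := by
  set g := gg Λ s₀ j with hg
  have hgpos := gg_pos hΛ hs j
  calc ∑ i ∈ s, nm univ (aa g (z i)) ^ 2 ≤ ∑ i ∈ s, ∑ a, z i a ^ 2 / g a ^ 2 :=
        Finset.sum_le_sum (fun i _ => aa_nm_sq_le hgpos (hz i))
    _ = ∑ a, En z s a / g a ^ 2 := by
        rw [Finset.sum_comm]
        refine Finset.sum_congr rfl (fun a _ => ?_)
        rw [En, Finset.sum_div]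
    _ ≤ ∑ _a : D, (2 : ℝ) := by
        refine Finset.sum_le_sum (fun a _ => ?_)
        have h1 := En_le_of_OO hΛ hs hA hO a
        have h2 := hgpos a
        have h3 := gg_sq hΛ s₀ j a
        have h4 := gg_ge hΛ hs j a
        rw [div_le_iff₀ (by positivity)]
        have h5 : A * g a ≤ g a * g a := mul_le_mul_of_nonneg_right (hAs.trans h4) h2.le
        nlinarith [sq_nonneg s₀]
    _ = 2 * (Fintype.card D : ℝ) := by simp; ring

/-- Expansion of the quadratic form along the Gram matrix. -/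
lemma quad_expand [DecidableEq ι] (z : ι → D → ℝ) (s : Finset ι) (v : D → ℝ) :
    ∑ i ∈ s, (∑ a, v a * z i a) ^ 2 = ∑ p : D × D, Gm z s p * (v p.1 * v p.2) := by
  simp only [Gm, Finset.sum_mul]
  rw [Finset.sum_comm]
  refine Finset.sum_congr rfl (fun i _ => ?_)
  rw [sq, Finset.sum_mul_sum, sum_prod_sq]
  refine Finset.sum_congr rfl (fun a _ => Finset.sum_congr rfl (fun b _ => ?_))
  ring

/-- Lower bound for the quadratic form on thick coordinates. -/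
lemma quad_lower [DecidableEq ι] {z : ι → D → ℝ} {Λ : D → ℝ} (hΛ : ∀ a, 0 ≤ Λ a)
    {s₀ A μ : ℝ} (hs : 0 < s₀) (hA : 0 ≤ A) (hμs : s₀ ^ 2 ≤ μ) (hμA : 8 * A ^ 2 ≤ μ)
    {j : ℕ} {s : Finset ι} (hO : OO z Λ s₀ A j s) (v : D → ℝ)
    (hv : ∀ a, a ∉ Vv Λ μ j → v a = 0) :
    (1 / 2) * ∑ a ∈ Vv Λ μ j, rho j * Λ a * v a ^ 2 ≤ ∑ i ∈ s, (∑ a, v a * z i a) ^ 2 := by
  set g := gg Λ s₀ j with hg
  have hgpos := gg_pos hΛ hs j
  set V := Vv Λ μ j with hV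
  rw [quad_expand]
  -- split off the diagonal
  have hsplit : ∑ p : D × D, Gm z s p * (v p.1 * v p.2)
      = ∑ p : D × D, Dev z Λ s j p * (v p.1 * v p.2) + ∑ a ∈ V, rho j * Λ a * v a ^ 2 := by
    have h1 : ∀ p : D × D, Gm z s p * (v p.1 * v p.2) = Dev z Λ s j p * (v p.1 * v p.2)
        + (if p.1 = p.2 then rho j * Λ p.1 else 0) * (v p.1 * v p.2) := by
      intro p; simp only [Dev]; ring
    simp_rw [h1]
    rw [Finset.sum_add_distrib]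
    congr 1
    rw [sum_prod_sq]
    simp only [ite_mul, zero_mul, Finset.sum_ite_eq, Finset.mem_univ, if_true]
    have h2 : ∑ a, rho j * Λ a * (v a * v a) = ∑ a ∈ V, rho j * Λ a * (v a * v a) := by
      refine (Finset.sum_subset (Finset.subset_univ V) (fun a _ ha => ?_)).symm
      rw [hv a ha]; ring
    rw [h2]
    exact Finset.sum_congr rfl (fun a _ => by ring)
  rw [hsplit]
  -- the off-diagonal part
  have hb := bilin hgpos (Dev z Λ s j) v v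
  have hO' : ∑ p : D × D, (sw g p * Dev z Λ s j p) ^ 2 ≤ A ^ 2 := hO
  have hS0 : 0 ≤ ∑ a, g a * v a ^ 2 :=
    Finset.sum_nonneg (fun a _ => mul_nonneg (hgpos a).le (sq_nonneg _))
  have hb2 : (∑ p : D × D, Dev z Λ s j p * (v p.1 * v p.2)) ^ 2
      ≤ (A * ∑ a, g a * v a ^ 2) ^ 2 := by
    refine hb.trans ?_
    rw [mul_pow, sq (∑ a, g a * v a ^ 2)]
    exact mul_le_mul_of_nonneg_right hO' (mul_nonneg hS0 hS0)
  have hb3 := abs_le_of_sq_le_sq' hb2 (mul_nonneg hA hS0)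
  have hQ : A * ∑ a, g a * v a ^ 2 ≤ (1 / 2) * ∑ a ∈ V, rho j * Λ a * v a ^ 2 := by
    have h2 : ∑ a, g a * v a ^ 2 = ∑ a ∈ V, g a * v a ^ 2 := by
      refine (Finset.sum_subset (Finset.subset_univ V) (fun a _ ha => ?_)).symm
      rw [hv a ha]; ring
    rw [h2, Finset.mul_sum, Finset.mul_sum]
    refine Finset.sum_le_sum (fun a ha => ?_)
    have hx : μ < rho j * Λ a := (Finset.mem_filter.mp ha).2
    set x := rho j * Λ a with hxdef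
    have hμ0 : 0 ≤ μ := (sq_nonneg s₀).trans hμs
    have hx0 : 0 < x := lt_of_le_of_lt hμ0 hx
    have h3 : A * g a ≤ x / 2 := by
      have h4 : (A * g a) ^ 2 ≤ (x / 2) ^ 2 := by
        rw [mul_pow, hg, gg_sq hΛ]
        have h5 : A ^ 2 ≤ x / 8 := by linarith
        have h6 : x + s₀ ^ 2 ≤ 2 * x := by linarith
        calc A ^ 2 * (x + s₀ ^ 2) ≤ (x / 8) * (2 * x) :=
              mul_le_mul h5 h6 (by nlinarith [sq_nonneg s₀]) (by positivity)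
          _ = (x / 2) ^ 2 := by ring
      exact (abs_le_of_sq_le_sq' h4 (by positivity)).2
    have := mul_le_mul_of_nonneg_right h3 (sq_nonneg (v a))
    nlinarith
  linarith [hb3.1]

lemma Th_Vv_disjoint (Λ : D → ℝ) (μ : ℝ) (j : ℕ) : Disjoint (Th Λ μ j) (Vv Λ μ j) := by
  rw [Finset.disjoint_left]
  intro a h1 h2
  have h3 := (Finset.mem_filter.mp h1).2
  have h4 := (Finset.mem_filter.mp h2).2
  linarith

lemma mem_Vv_of_not_Th {Λ : D → ℝ} {μ : ℝ} {j : ℕ} {a : D} (h : a ∉ Th Λ μ j) : a ∈ Vv Λ μ j := by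
  simp only [Th, Vv, Finset.mem_filter, Finset.mem_univ, true_and, not_le] at h ⊢
  exact h

lemma mem_Th_of_not_Vv {Λ : D → ℝ} {μ : ℝ} {j : ℕ} {a : D} (h : a ∉ Vv Λ μ j) : a ∈ Th Λ μ j := by
  simp only [Th, Vv, Finset.mem_filter, Finset.mem_univ, true_and, not_lt] at h ⊢
  exact h

/-- Existence of the tilt and its bounds. -/
lemma tilt_exists [DecidableEq ι] {z : ι → D → ℝ} (hz : ∀ i, ∑ a, z i a ^ 2 ≤ 1) {Λ : D → ℝ}
    (hΛ : ∀ a, 0 ≤ Λ a) {s₀ A μ : ℝ} (hs : 0 < s₀) (hA : 0 ≤ A) (hμs : s₀ ^ 2 ≤ μ)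
    (hμA : 8 * A ^ 2 ≤ μ) (hμ8 : 8 ≤ μ) {j : ℕ} {s R : Finset ι} (hO : OO z Λ s₀ A j s)
    (hR : R ⊆ s) (hH : (s \ R).card ≤ 2) (m₀ : ℝ) (hm₀ : 0 < m₀)
    (hm : ∀ a ∈ Vv Λ μ j, m₀ ≤ rho j * Λ a) (tgt : D → ℝ) :
    ∃ v : D → ℝ, (∀ a, a ∉ Vv Λ μ j → v a = 0) ∧
      (∀ a ∈ Vv Λ μ j, ∑ i ∈ R, (∑ b, v b * z i b) * z i a = - tgt a) ∧
      ∑ i ∈ R, (∑ a, v a * z i a) ^ 2 ≤ 4 * (∑ a ∈ Vv Λ μ j, tgt a ^ 2) / m₀ ∧
      ∑ a ∈ Vv Λ μ j, rho j * Λ a * v a ^ 2 ≤ 16 * (∑ a ∈ Vv Λ μ j, tgt a ^ 2) / m₀ ∧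
      ∑ a ∈ Vv Λ μ j, v a ^ 2 ≤ 16 * (∑ a ∈ Vv Λ μ j, tgt a ^ 2) / m₀ ^ 2 := by
  set V := Vv Λ μ j with hV
  have hVx : ∀ a ∈ V, μ < rho j * Λ a := fun a ha => (Finset.mem_filter.mp ha).2
  have hμ0 : 0 < μ := by linarith
  have hlow : ∀ v : D → ℝ, (∀ a, a ∉ V → v a = 0) →
      ∑ a ∈ V, (rho j * Λ a / 4) * v a ^ 2 ≤ ∑ i ∈ R, (∑ a, v a * z i a) ^ 2 := by
    intro v hv
    have h1 := quad_lower hΛ hs hA hμs hμA hO v hv
    have h2 : ∑ i ∈ s, (∑ a, v a * z i a) ^ 2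
        = ∑ i ∈ R, (∑ a, v a * z i a) ^ 2 + ∑ i ∈ s \ R, (∑ a, v a * z i a) ^ 2 := by
      rw [add_comm, Finset.sum_sdiff hR]
    have hvsum : ∑ a, v a ^ 2 = ∑ a ∈ V, v a ^ 2 := by
      refine (Finset.sum_subset (Finset.subset_univ V) (fun a _ ha => ?_)).symm
      rw [hv a ha]; ring
    have h3 : ∑ i ∈ s \ R, (∑ a, v a * z i a) ^ 2 ≤ 2 * ∑ a ∈ V, v a ^ 2 := by
      calc ∑ i ∈ s \ R, (∑ a, v a * z i a) ^ 2 ≤ ∑ _i ∈ s \ R, ∑ a ∈ V, v a ^ 2 := by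
            refine Finset.sum_le_sum (fun i _ => ?_)
            have h4 := Finset.sum_mul_sq_le_sq_mul_sq univ v (z i)
            rw [hvsum] at h4
            have h5 : 0 ≤ ∑ a ∈ V, v a ^ 2 := Finset.sum_nonneg (fun _ _ => sq_nonneg _)
            have := hz i
            nlinarith
        _ = ((s \ R).card : ℝ) * ∑ a ∈ V, v a ^ 2 := by simp
        _ ≤ 2 * ∑ a ∈ V, v a ^ 2 := by
            refine mul_le_mul_of_nonneg_right (by exact_mod_cast hH)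
              (Finset.sum_nonneg (fun _ _ => sq_nonneg _))
    have h4 : 2 * ∑ a ∈ V, v a ^ 2 ≤ (1 / 4) * ∑ a ∈ V, rho j * Λ a * v a ^ 2 := by
      rw [Finset.mul_sum, Finset.mul_sum]
      refine Finset.sum_le_sum (fun a ha => ?_)
      have := hVx a ha
      nlinarith [sq_nonneg (v a)]
    have h5 : ∑ a ∈ V, (rho j * Λ a / 4) * v a ^ 2 = (1 / 4) * ∑ a ∈ V, rho j * Λ a * v a ^ 2 := by
      rw [Finset.mul_sum]
      exact Finset.sum_congr rfl (fun a _ => by ring)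
    rw [h5]
    linarith
  obtain ⟨v, hv, hsol⟩ := exists_tilt z R V (fun a => rho j * Λ a / 4)
    (fun a ha => by have := hVx a ha; linarith) hlow (fun a => - tgt a)
  have hm4 : 0 < m₀ / 4 := by positivity
  obtain ⟨h1, h2, h3⟩ := tilt_bounds z R V (fun a => rho j * Λ a / 4) (m₀ / 4) hm4
    (fun a ha => by have := hm a ha; linarith) v (fun a => - tgt a) hv (hlow v hv) hsol
  have hneg : ∑ a ∈ V, (- tgt a) ^ 2 = ∑ a ∈ V, tgt a ^ 2 :=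
    Finset.sum_congr rfl (fun a _ => by ring)
  simp only [hneg] at h1 h2 h3
  refine ⟨v, hv, hsol, ?_, ?_, ?_⟩
  · refine h1.trans (le_of_eq ?_)
    field_simp
  · have h5 : ∑ a ∈ V, (rho j * Λ a / 4) * v a ^ 2 = (1 / 4) * ∑ a ∈ V, rho j * Λ a * v a ^ 2 := by
      rw [Finset.mul_sum]
      exact Finset.sum_congr rfl (fun a _ => by ring)
    rw [h5] at h2
    have h6 : (∑ a ∈ V, tgt a ^ 2) / (m₀ / 4) = 4 * (∑ a ∈ V, tgt a ^ 2) / m₀ := by field_simp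
    have h7 : 16 * (∑ a ∈ V, tgt a ^ 2) / m₀ = 4 * (4 * (∑ a ∈ V, tgt a ^ 2) / m₀) := by ring
    rw [h6] at h2
    rw [h7]
    linarith
  · refine h3.trans (le_of_eq ?_)
    field_simp
    ring

/-- The leak of the tilt into the thin coordinates. -/
lemma leak_bound [DecidableEq ι] {z : ι → D → ℝ} (hz : ∀ i, ∑ a, z i a ^ 2 ≤ 1) {Λ : D → ℝ}
    (hΛ : ∀ a, 0 ≤ Λ a) {s₀ A μ : ℝ} (hs : 0 < s₀) (hμs : s₀ ^ 2 ≤ μ) {j : ℕ} {s R : Finset ι}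
    (hO : OO z Λ s₀ A j s) (hR : R ⊆ s) (hH : (s \ R).card ≤ 2) (m₀ Γ : ℝ) (hm₀ : 1 ≤ m₀)
    (hΓ : 0 ≤ Γ) (v : D → ℝ) (hv : ∀ a, a ∉ Vv Λ μ j → v a = 0)
    (hQ : ∑ a ∈ Vv Λ μ j, rho j * Λ a * v a ^ 2 ≤ 16 * Γ / m₀)
    (hW : ∑ a ∈ Vv Λ μ j, v a ^ 2 ≤ 16 * Γ / m₀ ^ 2) :
    ∑ a ∈ Th Λ μ j, (∑ i ∈ R, (∑ b, v b * z i b) * z i a) ^ 2
      ≤ (64 * A ^ 2 + 128) * Γ / m₀ := by
  set V := Vv Λ μ j with hV
  set S := Th Λ μ j with hS
  set g := gg Λ s₀ j with hg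
  have hgpos := gg_pos hΛ hs j
  have hm₀pos : 0 < m₀ := by linarith
  have hVx : ∀ a ∈ V, μ < rho j * Λ a := fun a ha => (Finset.mem_filter.mp ha).2
  have hSx : ∀ a ∈ S, rho j * Λ a ≤ μ := fun a ha => (Finset.mem_filter.mp ha).2
  have hμ0 : 0 ≤ μ := (sq_nonneg s₀).trans hμs
  set G₀ := Real.sqrt (2 * μ) with hG₀
  have hG₀0 : 0 ≤ G₀ := Real.sqrt_nonneg _
  have hG₀sq : G₀ ^ 2 = 2 * μ := Real.sq_sqrt (by positivity)
  have hgS : ∀ a ∈ S, g a ≤ G₀ := by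
    intro a ha
    refine Real.le_sqrt_of_sq_le ?_
    rw [hg, gg_sq hΛ]
    have := hSx a ha
    linarith
  have hgV : ∀ b ∈ V, G₀ * g b ≤ 2 * (rho j * Λ b) := by
    intro b hb
    have hx := hVx b hb
    have h1 : (G₀ * g b) ^ 2 ≤ (2 * (rho j * Λ b)) ^ 2 := by
      rw [mul_pow, hG₀sq, hg, gg_sq hΛ]
      set x := rho j * Λ b
      have h2 : x + s₀ ^ 2 ≤ 2 * x := by linarith
      calc 2 * μ * (x + s₀ ^ 2) ≤ (2 * x) * (2 * x) :=
            mul_le_mul (by linarith) h2 (by nlinarith [sq_nonneg s₀]) (by linarith)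
        _ = (2 * x) ^ 2 := by ring
    exact (abs_le_of_sq_le_sq' h1 (by have := hVx b hb; linarith)).2
  -- first part: the deviation
  have hdev : ∀ a ∈ S, ∑ i ∈ s, (∑ b, v b * z i b) * z i a = ∑ b, Dev z Λ s j (a, b) * v b := by
    intro a ha
    have hva : v a = 0 := hv a (fun h => Finset.disjoint_left.mp (Th_Vv_disjoint Λ μ j) ha h)
    have h1 : ∀ b, Dev z Λ s j (a, b) * v b = ∑ i ∈ s, v b * z i b * z i a := by
      intro b
      by_cases hab : a = b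
      · subst hab
        rw [hva]; simp
      · rw [Dev_off z Λ s j hab, Finset.sum_mul]
        exact Finset.sum_congr rfl (fun i _ => by ring)
    simp_rw [h1]
    rw [Finset.sum_comm]
    exact Finset.sum_congr rfl (fun i _ => Finset.sum_mul _ _ _)
  have hO' : ∑ p : D × D, (sw g p * Dev z Λ s j p) ^ 2 ≤ A ^ 2 := hO
  have hsumg0 : 0 ≤ ∑ b, g b * v b ^ 2 :=
    Finset.sum_nonneg (fun a _ => mul_nonneg (hgpos a).le (sq_nonneg _))
  have hgv : G₀ * ∑ b, g b * v b ^ 2 ≤ 2 * ∑ b ∈ V, rho j * Λ b * v b ^ 2 := by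
    have h2 : ∑ a, g a * v a ^ 2 = ∑ a ∈ V, g a * v a ^ 2 := by
      refine (Finset.sum_subset (Finset.subset_univ V) (fun a _ ha => ?_)).symm
      rw [hv a ha]; ring
    rw [h2, Finset.mul_sum, Finset.mul_sum]
    refine Finset.sum_le_sum (fun b hb => ?_)
    have := mul_le_mul_of_nonneg_right (hgV b hb) (sq_nonneg (v b))
    nlinarith
  have hfirst : ∑ a ∈ S, (∑ b, Dev z Λ s j (a, b) * v b) ^ 2 ≤ 32 * A ^ 2 * Γ / m₀ := by
    calc ∑ a ∈ S, (∑ b, Dev z Λ s j (a, b) * v b) ^ 2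
        ≤ ∑ a ∈ S, (G₀ * ((∑ b, (sw g (a, b) * Dev z Λ s j (a, b)) ^ 2) * ∑ b, g b * v b ^ 2)) := by
          refine Finset.sum_le_sum (fun a ha => ?_)
          refine (bilin_row hgpos (Dev z Λ s j) v a).trans ?_
          refine mul_le_mul_of_nonneg_right (hgS a ha) ?_
          exact mul_nonneg (Finset.sum_nonneg (fun _ _ => sq_nonneg _)) hsumg0
      _ = (∑ a ∈ S, ∑ b, (sw g (a, b) * Dev z Λ s j (a, b)) ^ 2) * (G₀ * ∑ b, g b * v b ^ 2) := by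
          rw [Finset.sum_mul]
          exact Finset.sum_congr rfl (fun a _ => by ring)
      _ ≤ A ^ 2 * (2 * (16 * Γ / m₀)) := by
          refine mul_le_mul ?_ (hgv.trans (by linarith)) (mul_nonneg hG₀0 hsumg0) (sq_nonneg A)
          refine le_trans ?_ hO'
          rw [sum_prod_sq]
          exact Finset.sum_le_sum_of_subset_of_nonneg (Finset.subset_univ _)
            (fun a _ _ => Finset.sum_nonneg (fun _ _ => sq_nonneg _))
      _ = 32 * A ^ 2 * Γ / m₀ := by ring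
  -- second part: the removed atoms
  have hvsum : ∑ a, v a ^ 2 = ∑ a ∈ V, v a ^ 2 := by
    refine (Finset.sum_subset (Finset.subset_univ V) (fun a _ ha => ?_)).symm
    rw [hv a ha]; ring
  have hW0 : 0 ≤ ∑ a ∈ V, v a ^ 2 := Finset.sum_nonneg (fun _ _ => sq_nonneg _)
  have ht2 : ∀ i, (∑ b, v b * z i b) ^ 2 ≤ ∑ a ∈ V, v a ^ 2 := by
    intro i
    have h4 := Finset.sum_mul_sq_le_sq_mul_sq univ v (z i)
    rw [hvsum] at h4
    have := hz i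
    nlinarith
  have hHcard : ((s \ R).card : ℝ) ≤ 2 := by exact_mod_cast hH
  have hsecond : ∑ a ∈ S, (∑ i ∈ s \ R, (∑ b, v b * z i b) * z i a) ^ 2
      ≤ 4 * ∑ a ∈ V, v a ^ 2 := by
    calc ∑ a ∈ S, (∑ i ∈ s \ R, (∑ b, v b * z i b) * z i a) ^ 2
        ≤ ∑ a ∈ S, (2 * ∑ i ∈ s \ R, ((∑ a, v a ^ 2) * z i a ^ 2)) := by
          refine Finset.sum_le_sum (fun a _ => ?_)
          refine (sq_sum_le_card_mul_sum_sq).trans ?_
          refine mul_le_mul hHcard ?_ (Finset.sum_nonneg (fun _ _ => sq_nonneg _)) (by norm_num)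
          refine Finset.sum_le_sum (fun i _ => ?_)
          rw [mul_pow, hvsum]
          exact mul_le_mul_of_nonneg_right (ht2 i) (sq_nonneg _)
      _ = 2 * ((∑ a, v a ^ 2) * ∑ i ∈ s \ R, ∑ a ∈ S, z i a ^ 2) := by
          rw [← Finset.mul_sum]
          congr 1
          rw [Finset.mul_sum, Finset.sum_comm]
          refine Finset.sum_congr rfl (fun i _ => ?_)
          rw [Finset.mul_sum]
      _ ≤ 2 * ((∑ a ∈ V, v a ^ 2) * 2) := by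
          rw [hvsum]
          refine mul_le_mul_of_nonneg_left (mul_le_mul_of_nonneg_left ?_ hW0) (by norm_num)
          calc ∑ i ∈ s \ R, ∑ a ∈ S, z i a ^ 2 ≤ ∑ _i ∈ s \ R, (1 : ℝ) := by
                refine Finset.sum_le_sum (fun i _ => le_trans ?_ (hz i))
                exact Finset.sum_le_sum_of_subset_of_nonneg (Finset.subset_univ _)
                  (fun a _ _ => sq_nonneg _)
            _ = ((s \ R).card : ℝ) := by simp
            _ ≤ 2 := hHcard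
      _ = 4 * ∑ a ∈ V, v a ^ 2 := by ring
  -- combine
  have hcomb : ∀ a, (∑ i ∈ R, (∑ b, v b * z i b) * z i a) ^ 2
      ≤ 2 * (∑ i ∈ s, (∑ b, v b * z i b) * z i a) ^ 2
        + 2 * (∑ i ∈ s \ R, (∑ b, v b * z i b) * z i a) ^ 2 := by
    intro a
    have h1 : ∑ i ∈ R, (∑ b, v b * z i b) * z i a
        = ∑ i ∈ s, (∑ b, v b * z i b) * z i a - ∑ i ∈ s \ R, (∑ b, v b * z i b) * z i a := by
      rw [← Finset.sum_sdiff hR]; ring
    rw [h1]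
    nlinarith [sq_nonneg (∑ i ∈ s, (∑ b, v b * z i b) * z i a
      + ∑ i ∈ s \ R, (∑ b, v b * z i b) * z i a)]
  have hfirst' : ∑ a ∈ S, (∑ i ∈ s, (∑ b, v b * z i b) * z i a) ^ 2 ≤ 32 * A ^ 2 * Γ / m₀ := by
    refine le_trans (le_of_eq ?_) hfirst
    exact Finset.sum_congr rfl (fun a ha => by rw [hdev a ha])
  have hW2 : 16 * Γ / m₀ ^ 2 ≤ 16 * Γ / m₀ := by
    refine div_le_div_of_nonneg_left (by positivity) hm₀pos ?_
    nlinarith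
  calc ∑ a ∈ S, (∑ i ∈ R, (∑ b, v b * z i b) * z i a) ^ 2
      ≤ ∑ a ∈ S, (2 * (∑ i ∈ s, (∑ b, v b * z i b) * z i a) ^ 2
        + 2 * (∑ i ∈ s \ R, (∑ b, v b * z i b) * z i a) ^ 2) :=
        Finset.sum_le_sum (fun a _ => hcomb a)
    _ = 2 * ∑ a ∈ S, (∑ i ∈ s, (∑ b, v b * z i b) * z i a) ^ 2
        + 2 * ∑ a ∈ S, (∑ i ∈ s \ R, (∑ b, v b * z i b) * z i a) ^ 2 := by
        rw [Finset.sum_add_distrib, Finset.mul_sum, Finset.mul_sum]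
    _ ≤ 2 * (32 * A ^ 2 * Γ / m₀) + 2 * (4 * (16 * Γ / m₀)) := by
        have := hsecond.trans (mul_le_mul_of_nonneg_left (hW.trans hW2) (by norm_num : (0:ℝ) ≤ 4))
        linarith
    _ = (64 * A ^ 2 + 128) * Γ / m₀ := by ring

end Defs

end Vale.Agent.Lib.P262
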