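import Mathlib

/-!
From a duplicate-free list of all indices to a permutation with the same prefix sums.
-/

namespace Vale.Agent.Lib.P262

lemma exists_perm_of_list {N : ℕ} {α : Type} [AddCommMonoid α] (l : List (Fin N)) (hnd : l.Nodup)
    (hl : l.toFinset = Finset.univ) (v : Fin N → α) :
    ∃ π : Equiv.Perm (Fin N), ∀ k : ℕ, k ≤ N →
      ∑ i ∈ Finset.univ.filter (fun i : Fin N => i.val < k), v (π i) = ((l.take k).map v).sum := by
  have hlen : l.length = N := by
    have h1 := List.toFinset_card_of_nodup hnd
    rw [hl, Finset.card_univ, Fintype.card_fin] at h1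
    exact h1.symm
  have hall : ∀ x, x ∈ l := fun x => by
    have : x ∈ l.toFinset := by rw [hl]; exact Finset.mem_univ x
    exact List.mem_toFinset.mp this
  let π : Equiv.Perm (Fin N) :=
    (finCongr hlen.symm).trans (hnd.getEquivOfForallMemList l hall)
  have hπ : ∀ i : Fin N, π i = l.get (Fin.cast hlen.symm i) := fun i => rfl
  refine ⟨π, ?_⟩
  intro k
  induction k with
  | zero =>
    intro _
    simp
  | succ k ih =>
    intro hk
    have hk' : k < N := hk
    have hk'' : k < l.length := by omega
    have hfilter : Finset.univ.filter (fun i : Fin N => i.val < k + 1)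
        = insert (⟨k, hk'⟩ : Fin N) (Finset.univ.filter (fun i : Fin N => i.val < k)) := by
      ext i
      simp only [Finset.mem_filter, Finset.mem_univ, true_and, Finset.mem_insert, Fin.ext_iff]
      omega
    have hnot : (⟨k, hk'⟩ : Fin N) ∉ Finset.univ.filter (fun i : Fin N => i.val < k) := by
      simp
    rw [hfilter, Finset.sum_insert hnot, ih (by omega), hπ,
      ← List.take_concat_get' l k hk'', List.map_append, List.sum_append]
    simp [add_comm]

end Vale.Agent.Lib.P262
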