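import Vale.Agent.Lib.P262.ParEx
import Vale.Agent.Lib.P262.Perm

namespace Vale.Agent.Lib.P262

open Finset

section Coord

variable {ι D : Type} [Fintype ι] [DecidableEq ι] [Fintype D] [DecidableEq D]

/-- The main theorem in diagonalizing coordinates. -/
theorem coord_main (z : ι → D → ℝ) (hz : ∀ i, ∑ a, z i a ^ 2 ≤ 1) (hsum : ∀ a, ∑ i, z i a = 0)
    (hdiag : ∀ a b, a ≠ b → ∑ i, z i a * z i b = 0) (hd : 1 ≤ Fintype.card D) :
    ∃ l : List ι, l.Nodup ∧ l.toFinset = univ ∧ ∀ l₁, l₁ <+: l →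
      ∑ a, ((l₁.map (fun i => z i a)).sum) ^ 2
        ≤ 3000000000 * (Fintype.card D : ℝ) * ((Nat.clog 2 (Fintype.card D) : ℝ) + 7) ^ 6 := by
  set Λ : D → ℝ := fun a => ∑ i, z i a ^ 2 with hΛdef
  have hΛ : ∀ a, 0 ≤ Λ a := fun a => Finset.sum_nonneg (fun _ _ => sq_nonneg _)
  obtain ⟨p, hpbound, hpm⟩ := exists_par (Fintype.card D) hd
  have hμ0 := p.μ_pos
  have hκ0 := p.hκ0
  have hβ₁ := p.β₁_pos
  have hβ₂ := p.β₂_pos
  have hroot : Inv z Λ p 0 univ (fun _ => 0) := by
    refine ⟨?_, ?_, ?_⟩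
    · have hDev : ∀ q : D × D, Dev z Λ univ 0 q = 0 := by
        rintro ⟨a, b⟩
        by_cases hab : a = b
        · subst hab
          rw [Dev_diag]
          simp [En, rho, hΛdef]
        · rw [Dev_off z Λ univ 0 hab]
          exact hdiag a b hab
      unfold OO
      simp only [hDev, mul_zero]
      simp only [ne_eq, OfNat.ofNat_ne_zero, not_false_eq_true, zero_pow, Finset.sum_const_zero]
      positivity
    · intro k _
      have h1 : nm (Th Λ p.μ k) (fun _ : D => (0 : ℝ)) = 0 := by simp [nm]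
      rw [h1]
      have h2 := Real.sqrt_nonneg (p.β₁ * Psi z p.K (Th Λ p.μ 0) univ + p.β₂ * ((Th Λ p.μ k).card : ℝ))
      have h3 := Lb_nonneg hκ0 Λ (μ := p.μ) 0
      linarith
    · have e : (fun a => (0 : ℝ) + ∑ i ∈ univ, z i a) = fun _ => 0 := by
        funext a
        rw [zero_add, hsum a]
      rw [e]
      intro k _
      have h1 : nm (Th Λ p.μ k) (fun _ : D => (0 : ℝ)) = 0 := by simp [nm]
      rw [h1]
      have h2 := Real.sqrt_nonneg (p.β₁ * Psi z p.K (Th Λ p.μ 0) univ + p.β₂ * ((Th Λ p.μ k).card : ℝ))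
      have h3 := Lb_nonneg hκ0 Λ (μ := p.μ) 0
      linarith
  obtain ⟨l, hnd, hl, hok⟩ := tree_main hz hΛ p univ.card univ rfl 0 _ hroot
  refine ⟨l, hnd, hl, fun l₁ hl₁ => ?_⟩
  have h1 := hok l₁ hl₁
  simp only [zero_add] at h1
  refine h1.trans ?_
  rw [hpm] at hpbound ⊢
  exact hpbound

end Coord

/-- The main theorem: every zero-sum family in the Euclidean unit ball of `ℝ^d` has an ordering
whose partial sums have squared norm at most `3·10⁹ d (⌈log₂ d⌉ + 7)⁶`. -/
theorem steinitz_polylog (d N : ℕ) (v : Fin N → EuclideanSpace ℝ (Fin d)) (hv : ∀ i, ‖v i‖ ≤ 1)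
    (hsum : ∑ i, v i = 0) :
    ∃ π : Equiv.Perm (Fin N), ∀ k : ℕ, k ≤ N →
      ‖∑ i ∈ Finset.univ.filter (fun i : Fin N => i.val < k), v (π i)‖ ^ 2
        ≤ 3000000000 * (d : ℝ) * ((Nat.clog 2 d : ℝ) + 7) ^ 6 := by
  by_cases hd : d = 0
  · subst hd
    refine ⟨Equiv.refl _, fun k _ => ?_⟩
    have h0 : ∀ x : EuclideanSpace ℝ (Fin 0), x = 0 := fun x => Subsingleton.elim x 0
    rw [h0 (∑ i ∈ Finset.univ.filter (fun i : Fin N => i.val < k), v ((Equiv.refl _) i))]
    simp
  have hd1 : 1 ≤ d := Nat.one_le_iff_ne_zero.mpr hd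
  let E := EuclideanSpace ℝ (Fin d)
  let T : E →ₗ[ℝ] E :=
    { toFun := fun x => ∑ i, (inner ℝ (v i) x) • v i
      map_add' := by
        intro x y
        simp only [inner_add_right, add_smul, Finset.sum_add_distrib]
      map_smul' := by
        intro c x
        simp only [real_inner_smul_right, RingHom.id_apply, Finset.smul_sum, mul_smul] }
  have hT : T.IsSymmetric := by
    intro x y
    show inner ℝ (∑ i, (inner ℝ (v i) x) • v i) y = inner ℝ x (∑ i, (inner ℝ (v i) y) • v i)
    rw [sum_inner, inner_sum]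
    refine Finset.sum_congr rfl (fun i _ => ?_)
    rw [real_inner_smul_left, real_inner_smul_right, real_inner_comm x (v i)]
    ring
  have hn : Module.finrank ℝ E = d := finrank_euclideanSpace_fin
  let b := hT.eigenvectorBasis hn
  let z : Fin N → Fin d → ℝ := fun i a => inner ℝ (b a) (v i)
  have hz : ∀ i, ∑ a, z i a ^ 2 ≤ 1 := by
    intro i
    have h1 := b.sum_sq_inner_right (v i)
    simp only [z]
    rw [h1]
    have := hv i
    have h2 := norm_nonneg (v i)
    nlinarith
  have hzsum : ∀ a, ∑ i, z i a = 0 := by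
    intro a
    simp only [z]
    rw [← inner_sum, hsum, inner_zero_right]
  have hdiag : ∀ a a', a ≠ a' → ∑ i, z i a * z i a' = 0 := by
    intro a a' hne
    have h1 : inner ℝ (b a) (T (b a')) = ∑ i, z i a * z i a' := by
      show inner ℝ (b a) (∑ i, (inner ℝ (v i) (b a')) • v i) = _
      rw [inner_sum]
      refine Finset.sum_congr rfl (fun i _ => ?_)
      rw [real_inner_smul_right, real_inner_comm (b a') (v i)]
      ring
    rw [← h1, hT.apply_eigenvectorBasis hn a', real_inner_smul_right]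
    have h2 : inner ℝ (b a) (b a') = 0 := b.orthonormal.2 hne
    show _ * inner ℝ (b a) (b a') = 0
    rw [h2, mul_zero]
  have hcard : Fintype.card (Fin d) = d := Fintype.card_fin d
  obtain ⟨l, hnd, hl, hok⟩ := coord_main z hz hzsum hdiag (by rw [hcard]; exact hd1)
  rw [hcard] at hok
  obtain ⟨π, hπ⟩ := exists_perm_of_list l hnd hl v
  refine ⟨π, fun k hk => ?_⟩
  rw [hπ k hk]
  have h1 := hok (l.take k) (List.take_prefix k l)
  refine le_trans (le_of_eq ?_) h1
  have hinner : ∀ (m : List (Fin N)) (a : Fin d),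
      inner ℝ (b a) (m.map v).sum = (m.map (fun i => z i a)).sum := by
    intro m a
    induction m with
    | nil => simp
    | cons x m ih =>
      simp only [List.map_cons, List.sum_cons, inner_add_right, ih]
      rfl
  rw [← b.sum_sq_inner_right]
  exact Finset.sum_congr rfl (fun a _ => by rw [hinner])

end Vale.Agent.Lib.P262
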