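import Vale.Agent.Lib.P262.Select

/-!
The pointed block recursion.
-/

namespace Vale.Agent.Lib.P262

open Module

/-- Floor of the chain endpoints at level `k`. -/
noncomputable def A (k : ℕ) : ℝ := (k : ℝ) / 4 + 1

/-- Accumulated excess at level `k`. -/
noncomputable def B : ℕ → ℝ
  | 0 => 0
  | (k + 1) => B k + A (k + 1)

lemma A_succ (k : ℕ) : A (k + 1) = A k + 1 / 4 := by
  simp only [A]; push_cast; ring

lemma A_pos (k : ℕ) : 0 < A k := by
  simp only [A]; positivity

lemma B_nonneg (k : ℕ) : 0 ≤ B k := by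
  induction k with
  | zero => simp [B]
  | succ k ih => simp only [B]; linarith [A_pos (k + 1)]

variable {ι : Type} {E : Type} [NormedAddCommGroup E]

/-- All prefix positions of the list `l`, started from `P`, have squared norm at most `R`. -/
def Ok (f : ι → E) (P : E) (R : ℝ) (l : List ι) : Prop :=
  ∀ l₁, l₁ <+: l → ‖P + (l₁.map f).sum‖ ^ 2 ≤ R

lemma Ok.append {f : ι → E} {P : E} {R : ℝ} {a b : List ι} (h₁ : Ok f P R a)
    (h₂ : Ok f (P + (a.map f).sum) R b) : Ok f P R (a ++ b) := by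
  intro l hl
  rcases List.prefix_or_prefix_of_prefix hl (List.prefix_append a b) with h | h
  · exact h₁ l h
  · obtain ⟨t, rfl⟩ := h
    have ht : t <+: b := (List.prefix_append_right_inj a).mp hl
    have := h₂ t ht
    rw [List.map_append, List.sum_append, ← add_assoc]
    exact this

variable [InnerProductSpace ℝ E]

lemma split_norm [FiniteDimensional ℝ E] (w x : E) (hw : ‖w‖ = 1) :
    ‖x‖ ^ 2 = (inner ℝ w x) ^ 2 + ‖((ℝ ∙ w)ᗮ).orthogonalProjectionOnto x‖ ^ 2 := by
  have h := Submodule.norm_sq_eq_add_norm_sq_projection x (ℝ ∙ w)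
  rw [h]
  congr 1
  have h2 : ‖(ℝ ∙ w).orthogonalProjectionOnto x‖ = ‖(ℝ ∙ w).starProjection x‖ := rfl
  rw [h2, Submodule.starProjection_unit_singleton ℝ hw, norm_smul, hw, mul_one,
    Real.norm_eq_abs, sq_abs]

lemma inner_sq_le [FiniteDimensional ℝ E] (w x : E) (hw : ‖w‖ = 1) :
    (inner ℝ w x) ^ 2 ≤ ‖x‖ ^ 2 := by
  rw [split_norm w x hw]
  nlinarith [sq_nonneg ‖((ℝ ∙ w)ᗮ).orthogonalProjectionOnto x‖]

/-- The statement proved by induction on the dimension. -/
def Claim (ι : Type) [DecidableEq ι] (k : ℕ) : Prop :=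
  ∀ (E : Type) [NormedAddCommGroup E] [InnerProductSpace ℝ E] [FiniteDimensional ℝ E],
    finrank ℝ E = k → ∀ (f : ι → E), (∀ i, ‖f i‖ ≤ 1) → ∀ (s : Finset ι) (P : E) (T : ℝ),
      ‖P‖ ^ 2 ≤ T → ‖P + ∑ i ∈ s, f i‖ ^ 2 ≤ T → A k ≤ T →
      ∃ l : List ι, l.Nodup ∧ l.toFinset = s ∧ Ok f P (T + B k) l

variable [DecidableEq ι]

/-- The block lemma: a block that is monotone in the direction `w` reduces to one dimension
less. -/
lemma block [FiniteDimensional ℝ E] {n : ℕ} (hk : finrank ℝ E = n + 1) (ih : Claim ι n)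
    (f : ι → E) (hf : ∀ i, ‖f i‖ ≤ 1) (w : E) (hw : ‖w‖ = 1) (S : Finset ι)
    (hS : ∀ i ∈ S, 0 ≤ inner ℝ w (f i)) (P : E) (T' R : ℝ)
    (hb : ‖P‖ ^ 2 - (inner ℝ w P) ^ 2 ≤ T')
    (hb₁ : ‖P + ∑ i ∈ S, f i‖ ^ 2 - (inner ℝ w (P + ∑ i ∈ S, f i)) ^ 2 ≤ T')
    (hA : A n ≤ T')
    (ha : (inner ℝ w P) ^ 2 + T' + B n ≤ R)
    (ha₁ : (inner ℝ w (P + ∑ i ∈ S, f i)) ^ 2 + T' + B n ≤ R) :
    ∃ l : List ι, l.Nodup ∧ l.toFinset = S ∧ Ok f P R l := by
  have hfin : finrank ℝ ↥((ℝ ∙ w)ᗮ) = n := by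
    have : Fact (finrank ℝ E = n + 1) := ⟨hk⟩
    exact Submodule.finrank_orthogonal_span_singleton (by intro h; simp [h] at hw)
  let π := ((ℝ ∙ w)ᗮ).orthogonalProjectionOnto
  have hπnorm : ∀ x, ‖π x‖ ≤ ‖x‖ := fun x => by
    have := split_norm w x hw
    have h2 : ‖π x‖ ^ 2 ≤ ‖x‖ ^ 2 := by
      rw [this]; nlinarith [sq_nonneg (inner ℝ w x)]
    exact (sq_le_sq₀ (norm_nonneg _) (norm_nonneg _)).mp h2
  have hπ2 : ∀ x, ‖π x‖ ^ 2 = ‖x‖ ^ 2 - (inner ℝ w x) ^ 2 := fun x => by
    have := split_norm w x hw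
    simp only [π]
    linarith
  have hsumπ : π P + ∑ i ∈ S, π (f i) = π (P + ∑ i ∈ S, f i) := by
    rw [map_add, map_sum]
  obtain ⟨l, hnd, hls, hok⟩ := ih ↥((ℝ ∙ w)ᗮ) hfin (fun i => π (f i))
    (fun i => (hπnorm _).trans (hf i)) S (π P) T'
    (by rw [hπ2]; exact hb) (by rw [hsumπ, hπ2]; exact hb₁) hA
  refine ⟨l, hnd, hls, ?_⟩
  intro l₁ hl₁
  -- decomposition of the position
  set x := P + (l₁.map f).sum with hx
  have hπx : π x = π P + (l₁.map (fun i => π (f i))).sum := by
    rw [hx, map_add, map_list_sum, List.map_map]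
    rfl
  have h1 := hok l₁ hl₁
  rw [← hπx, hπ2] at h1
  -- monotonicity in the direction `w`
  obtain ⟨l₂, rfl⟩ := hl₁
  have hinner : ∀ m : List ι, inner ℝ w (m.map f).sum = (m.map (fun i => inner ℝ w (f i))).sum := by
    intro m
    induction m with
    | nil => simp
    | cons a m ih => simp [inner_add_right, ih]
  have hnn : ∀ m : List ι, (∀ i ∈ m, i ∈ S) → 0 ≤ inner ℝ w (m.map f).sum := by
    intro m hm
    rw [hinner]
    refine List.sum_nonneg ?_
    intro y hy
    obtain ⟨i, hi, rfl⟩ := List.mem_map.mp hy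
    exact hS i (hm i hi)
  have hmemS : ∀ i, i ∈ l₁ ++ l₂ → i ∈ S := fun i hi => by
    rw [← hls]; exact List.mem_toFinset.mpr hi
  have hlow := hnn l₁ (fun i hi => hmemS i (List.mem_append_left _ hi))
  have hhigh := hnn l₂ (fun i hi => hmemS i (List.mem_append_right _ hi))
  have htotal : (∑ i ∈ S, f i) = ((l₁ ++ l₂).map f).sum := by
    rw [← hls, List.sum_toFinset _ hnd]
  have h3 : inner ℝ w x = inner ℝ w P + inner ℝ w (l₁.map f).sum := by
    rw [hx, inner_add_right]
  have h4 : inner ℝ w (P + ∑ i ∈ S, f i)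
      = inner ℝ w P + inner ℝ w (l₁.map f).sum + inner ℝ w (l₂.map f).sum := by
    rw [htotal, List.map_append, List.sum_append, inner_add_right, inner_add_right]
    ring
  have hsq : (inner ℝ w x) ^ 2 ≤ (inner ℝ w P) ^ 2 ∨
      (inner ℝ w x) ^ 2 ≤ (inner ℝ w (P + ∑ i ∈ S, f i)) ^ 2 := by
    rw [h3, h4]
    set a := inner ℝ w P
    set u := inner ℝ w (l₁.map f).sum
    set v := inner ℝ w (l₂.map f).sum
    by_cases hcase : a + u ≤ 0
    · left
      nlinarith
    · right
      push Not at hcase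
      nlinarith
  rcases hsq with h5 | h5 <;> linarith

/-- A block going up in the direction `w` to the endpoint. -/
lemma block_up [FiniteDimensional ℝ E] {n : ℕ} (hk : finrank ℝ E = n + 1) (ih : Claim ι n)
    (f : ι → E) (hf : ∀ i, ‖f i‖ ≤ 1) (w : E) (hw : ‖w‖ = 1) (S : Finset ι)
    (hS : ∀ i ∈ S, 0 ≤ inner ℝ w (f i)) (P : E) (T : ℝ)
    (hP : 0 ≤ inner ℝ w P) (hsmall : ‖P‖ ^ 2 - (inner ℝ w P) ^ 2 ≤ A n)
    (hQ : ‖P + ∑ i ∈ S, f i‖ ^ 2 ≤ T) :
    ∃ l : List ι, l.Nodup ∧ l.toFinset = S ∧ Ok f P (T + B (n + 1)) l := by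
  set Q := P + ∑ i ∈ S, f i with hQdef
  have hmono : inner ℝ w P ≤ inner ℝ w Q := by
    rw [hQdef, inner_add_right, inner_sum]
    have : 0 ≤ ∑ i ∈ S, inner ℝ w (f i) := Finset.sum_nonneg hS
    linarith
  have hsq : (inner ℝ w P) ^ 2 ≤ (inner ℝ w Q) ^ 2 := by nlinarith
  have hA := A_succ n
  have hA0 := A_pos n
  have hQin := inner_sq_le w Q hw
  have hmain : (inner ℝ w Q) ^ 2 + max (‖Q‖ ^ 2 - (inner ℝ w Q) ^ 2) (A n) + B n
      ≤ T + B (n + 1) := by
    have : (inner ℝ w Q) ^ 2 + max (‖Q‖ ^ 2 - (inner ℝ w Q) ^ 2) (A n) ≤ T + A (n + 1) := by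
      rcases max_cases (‖Q‖ ^ 2 - (inner ℝ w Q) ^ 2) (A n) with ⟨h, _⟩ | ⟨h, _⟩ <;> rw [h] <;>
        linarith
    simp only [B]
    linarith
  refine block hk ih f hf w hw S hS P (max (‖Q‖ ^ 2 - (inner ℝ w Q) ^ 2) (A n)) _
    (hsmall.trans (le_max_right _ _)) (le_max_left _ _) (le_max_right _ _) ?_ hmain
  linarith

/-- A block going down in the direction `w` from the start. -/
lemma block_down [FiniteDimensional ℝ E] {n : ℕ} (hk : finrank ℝ E = n + 1) (ih : Claim ι n)
    (f : ι → E) (hf : ∀ i, ‖f i‖ ≤ 1) (w : E) (hw : ‖w‖ = 1) (S : Finset ι)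
    (hS : ∀ i ∈ S, inner ℝ w (f i) ≤ 0) (P : E) (T : ℝ)
    (hP₁ : 0 ≤ inner ℝ w (P + ∑ i ∈ S, f i))
    (hsmall : ‖P + ∑ i ∈ S, f i‖ ^ 2 - (inner ℝ w (P + ∑ i ∈ S, f i)) ^ 2 ≤ A n)
    (hPT : ‖P‖ ^ 2 ≤ T) :
    ∃ l : List ι, l.Nodup ∧ l.toFinset = S ∧ Ok f P (T + B (n + 1)) l := by
  set Q := P + ∑ i ∈ S, f i with hQdef
  have hmono : inner ℝ w Q ≤ inner ℝ w P := by
    rw [hQdef, inner_add_right, inner_sum]
    have : ∑ i ∈ S, inner ℝ w (f i) ≤ 0 := Finset.sum_nonpos hS
    linarith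
  have hsq : (inner ℝ w Q) ^ 2 ≤ (inner ℝ w P) ^ 2 := by nlinarith
  have hA := A_succ n
  have hA0 := A_pos n
  have hPin := inner_sq_le w P hw
  have hw' : ‖-w‖ = 1 := by rw [norm_neg]; exact hw
  have hneg : ∀ x, (inner ℝ (-w) x) ^ 2 = (inner ℝ w x) ^ 2 := fun x => by
    rw [inner_neg_left, neg_sq]
  have hmain : (inner ℝ w P) ^ 2 + max (‖P‖ ^ 2 - (inner ℝ w P) ^ 2) (A n) + B n
      ≤ T + B (n + 1) := by
    have : (inner ℝ w P) ^ 2 + max (‖P‖ ^ 2 - (inner ℝ w P) ^ 2) (A n) ≤ T + A (n + 1) := by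
      rcases max_cases (‖P‖ ^ 2 - (inner ℝ w P) ^ 2) (A n) with ⟨h, _⟩ | ⟨h, _⟩ <;> rw [h] <;>
        linarith
    simp only [B]
    linarith
  refine block hk ih f hf (-w) hw' S (fun i hi => ?_) P
    (max (‖P‖ ^ 2 - (inner ℝ w P) ^ 2) (A n)) _ ?_ ?_ (le_max_right _ _) ?_ ?_
  · rw [inner_neg_left]; linarith [hS i hi]
  · rw [hneg]; exact le_max_left _ _
  · rw [hneg]; exact hsmall.trans (le_max_right _ _)
  · rw [hneg]; exact hmain
  · rw [hneg]; linarith

/-- A block between two small-ish endpoints. -/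
lemma block_mid [FiniteDimensional ℝ E] {n : ℕ} (hk : finrank ℝ E = n + 1) (ih : Claim ι n)
    (f : ι → E) (hf : ∀ i, ‖f i‖ ≤ 1) (w : E) (hw : ‖w‖ = 1) (S : Finset ι)
    (hS : ∀ i ∈ S, 0 ≤ inner ℝ w (f i)) (P : E) (T : ℝ)
    (hPT : ‖P‖ ^ 2 ≤ T) (hT : A (n + 1) ≤ T)
    (hsmall : ‖P + ∑ i ∈ S, f i‖ ^ 2 ≤ ((n + 1 : ℕ) : ℝ) / 4) :
    ∃ l : List ι, l.Nodup ∧ l.toFinset = S ∧ Ok f P (T + B (n + 1)) l := by
  set Q := P + ∑ i ∈ S, f i with hQdef
  have hA := A_succ n
  have hA1 : ((n + 1 : ℕ) : ℝ) / 4 + 1 = A (n + 1) := rfl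
  have hPin := inner_sq_le w P hw
  have hQin := inner_sq_le w Q hw
  have hp0 := sq_nonneg (inner ℝ w P)
  have hq0 := sq_nonneg (inner ℝ w Q)
  set T' := max (max (‖P‖ ^ 2 - (inner ℝ w P) ^ 2) (‖Q‖ ^ 2 - (inner ℝ w Q) ^ 2)) (A n) with hT'
  have h1 : (inner ℝ w P) ^ 2 + T' ≤ T + A (n + 1) := by
    rcases max_cases (max (‖P‖ ^ 2 - (inner ℝ w P) ^ 2) (‖Q‖ ^ 2 - (inner ℝ w Q) ^ 2)) (A n)
      with ⟨h, _⟩ | ⟨h, _⟩
    · rw [hT', h]
      rcases max_cases (‖P‖ ^ 2 - (inner ℝ w P) ^ 2) (‖Q‖ ^ 2 - (inner ℝ w Q) ^ 2)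
        with ⟨h', _⟩ | ⟨h', _⟩ <;> rw [h'] <;> linarith
    · rw [hT', h]; linarith
  have h2 : (inner ℝ w Q) ^ 2 + T' ≤ T + A (n + 1) := by
    rcases max_cases (max (‖P‖ ^ 2 - (inner ℝ w P) ^ 2) (‖Q‖ ^ 2 - (inner ℝ w Q) ^ 2)) (A n)
      with ⟨h, _⟩ | ⟨h, _⟩
    · rw [hT', h]
      rcases max_cases (‖P‖ ^ 2 - (inner ℝ w P) ^ 2) (‖Q‖ ^ 2 - (inner ℝ w Q) ^ 2)
        with ⟨h', _⟩ | ⟨h', _⟩ <;> rw [h'] <;> linarith
    · rw [hT', h]; linarith
  have hBs : B (n + 1) = B n + A (n + 1) := rfl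
  refine block hk ih f hf w hw S hS P T' _ ?_ ?_ (le_max_right _ _) ?_ ?_
  · exact (le_max_left _ _).trans (le_max_left _ _)
  · exact (le_max_right _ _).trans (le_max_left _ _)
  · linarith
  · linarith

omit [InnerProductSpace ℝ E] [DecidableEq ι] in
lemma ok_singleton (f : ι → E) (P : E) (R : ℝ) (i : ι) (h0 : ‖P‖ ^ 2 ≤ R)
    (h1 : ‖P + f i‖ ^ 2 ≤ R) : Ok f P R [i] := by
  intro l hl
  rcases (List.prefix_cons_iff).mp hl with rfl | ⟨t, rfl, ht⟩
  · simpa using h0
  · have : t = [] := by simpa using ht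
    subst this
    simpa using h1

/-- The base of the induction. -/
theorem claim_zero (ι : Type) [DecidableEq ι] : Claim ι 0 := by
  intro E _ _ _ hk f _ s P T hP _ hT
  have hsub : Subsingleton E := finrank_zero_iff.mp hk
  refine ⟨s.toList, s.nodup_toList, by simp, ?_⟩
  intro l _
  have : P + (l.map f).sum = 0 := Subsingleton.elim _ _
  rw [this]
  have hA := A_pos 0
  have hB := B_nonneg 0
  simp only [norm_zero]
  nlinarith

/-- The induction step. -/
theorem claim_succ (ι : Type) [DecidableEq ι] (n : ℕ) (ih : Claim ι n) : Claim ι (n + 1) := by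
  intro E _ _ _ hk f hf s
  have hBs : B (n + 1) = B n + A (n + 1) := rfl
  have hBn := B_nonneg (n + 1)
  have hA := A_succ n
  have hAn : ((n + 1 : ℕ) : ℝ) / 4 + 1 = A (n + 1) := rfl
  induction s using Finset.strongInduction with
  | H s IH =>
    intro P T hP hQ hT
    have hnn1 : (0 : ℝ) ≤ ((n + 1 : ℕ) : ℝ) / 4 := by positivity
    by_cases hs : s = ∅
    · subst hs
      refine ⟨[], List.nodup_nil, rfl, ?_⟩
      intro l hl
      have : l = [] := by simpa using hl
      subst this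
      simp only [List.map_nil, List.sum_nil, add_zero]
      linarith
    have hsne : s.Nonempty := Finset.nonempty_iff_ne_empty.mpr hs
    by_cases hsmall : ‖P‖ ^ 2 ≤ ((n + 1 : ℕ) : ℝ) / 4
    · by_cases hex : ∃ i ∈ s, inner ℝ P (f i) ≤ 0
      · -- a single atom
        obtain ⟨i, his, hi⟩ := hex
        have hP₁ : ‖P + f i‖ ^ 2 ≤ A (n + 1) := by
          rw [norm_add_sq_real]
          have h1 : ‖f i‖ ^ 2 ≤ 1 := by nlinarith [hf i, norm_nonneg (f i)]
          linarith
        have herase : (s.erase i) ⊂ s := Finset.erase_ssubset his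
        have hsumer : P + f i + ∑ j ∈ s.erase i, f j = P + ∑ j ∈ s, f j := by
          rw [← Finset.add_sum_erase s f his, add_assoc]
        obtain ⟨l₂, hnd, hl₂, hok⟩ := IH _ herase (P + f i) T (hP₁.trans hT)
          (by rw [hsumer]; exact hQ) hT
        refine ⟨[i] ++ l₂, ?_, ?_, ?_⟩
        · have : i ∉ l₂ := by
            intro h
            have : i ∈ l₂.toFinset := List.mem_toFinset.mpr h
            rw [hl₂] at this
            exact (Finset.mem_erase.mp this).1 rfl
          simpa [this] using hnd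
        · rw [List.singleton_append, List.toFinset_cons, hl₂, Finset.insert_erase his]
        · refine Ok.append (ok_singleton f P _ i (by linarith) (by linarith)) ?_
          simpa using hok
      · -- everything goes up in the direction of `P`
        push Not at hex
        have hP0 : P ≠ 0 := by
          intro h0
          obtain ⟨i, hi⟩ := hsne
          have := hex i hi
          simp [h0] at this
        have hnormP : 0 < ‖P‖ := norm_pos_iff.mpr hP0
        let w := ‖P‖⁻¹ • P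
        have hw : ‖w‖ = 1 := by
          simp only [w]
          rw [norm_smul, norm_inv, norm_norm]; exact inv_mul_cancel₀ hnormP.ne'
        have hwP : inner ℝ w P = ‖P‖ := by
          simp only [w]
          rw [real_inner_smul_left, real_inner_self_eq_norm_sq]
          field_simp
        refine block_up hk ih f hf w hw s (fun i hi => ?_) P T ?_ ?_ hQ
        · simp only [w]
          rw [real_inner_smul_left]
          exact mul_nonneg (by positivity) (hex i hi).le
        · rw [hwP]; exact hnormP.le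
        · rw [hwP]
          have := A_pos n
          linarith
    · -- the big case
      push Not at hsmall
      classical
      obtain ⟨c, hc, hc0, hc1⟩ := exists_nearest (fun i : s => f i) P
      set Ec := P + ∑ j : s, c j • f j with hEc
      -- extension of the coefficients
      let c0 : ι → ℝ := fun i => if h : i ∈ s then c ⟨i, h⟩ else 0
      have hc0s : ∀ i (h : i ∈ s), c0 i = c ⟨i, h⟩ := fun i h => by simp [c0, h]
      have hc0r : ∀ i ∈ s, 0 ≤ c0 i ∧ c0 i ≤ 1 := fun i hi => by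
        rw [hc0s i hi]; exact hc _
      have hsumc : ∑ i ∈ s, c0 i • f i = ∑ j : s, c j • f j := by
        rw [← Finset.sum_coe_sort s]
        refine Finset.sum_congr rfl (fun j _ => ?_)
        rw [hc0s j j.2]
      by_cases hE0 : Ec = 0
      · -- the target zero is reachable
        have hzero : P + ∑ i ∈ s, c0 i • f i = 0 := by rw [hsumc]; exact hE0
        obtain ⟨c', hc'r, hc'P, hrel⟩ := exists_pointed_solution f s P c0 hc0r hzero
        set Tn := s.filter (fun i => c' i ≠ 0) with hTn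
        have hTns : Tn ⊆ s := Finset.filter_subset _ _
        have hsumTn : ∑ i ∈ Tn, c' i • f i = ∑ i ∈ s, c' i • f i := by
          refine Finset.sum_subset hTns (fun i his hi => ?_)
          have : c' i = 0 := by
            by_contra hne
            exact hi (Finset.mem_filter.mpr ⟨his, hne⟩)
          rw [this, zero_smul]
        obtain ⟨S, hSTn, hS⟩ := exists_round f hf Tn c' (fun i hi => hc'r i (hTns hi))
        have hP₁ : ‖P + ∑ i ∈ S, f i‖ ^ 2 ≤ ((n + 1 : ℕ) : ℝ) / 4 := by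
          rw [hk] at hS
          have heq : ∑ i ∈ Tn, c' i • f i - ∑ i ∈ S, f i = - (P + ∑ i ∈ S, f i) := by
            rw [hsumTn]
            have : ∑ i ∈ s, c' i • f i = - P := by
              rw [eq_neg_iff_add_eq_zero, add_comm]; exact hc'P
            rw [this]; abel
          rw [heq, norm_neg] at hS
          exact hS
        have hSne : S.Nonempty := by
          by_contra hemp
          rw [Finset.not_nonempty_iff_eq_empty] at hemp
          rw [hemp] at hP₁
          simp only [Finset.sum_empty, add_zero] at hP₁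
          linarith
        obtain ⟨w, hw, hwpos⟩ := exists_pointed f Tn (hSne.mono hSTn) hrel
        have hSs : S ⊆ s := hSTn.trans hTns
        obtain ⟨l₁, hnd₁, hl₁, hok₁⟩ := block_mid hk ih f hf w hw S
          (fun i hi => (hwpos i (hSTn hi)).le) P T hP hT hP₁
        have hssub : s \ S ⊂ s := by
          refine Finset.sdiff_ssubset hSs hSne
        have hsumsd : P + ∑ i ∈ S, f i + ∑ i ∈ s \ S, f i = P + ∑ i ∈ s, f i := by
          rw [add_assoc, add_comm (∑ i ∈ S, f i), Finset.sum_sdiff hSs]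
        obtain ⟨l₂, hnd₂, hl₂, hok₂⟩ := IH _ hssub (P + ∑ i ∈ S, f i) T (by linarith)
          (by rw [hsumsd]; exact hQ) hT
        refine ⟨l₁ ++ l₂, ?_, ?_, ?_⟩
        · rw [List.nodup_append']
          refine ⟨hnd₁, hnd₂, ?_⟩
          intro a ha₁ ha₂
          have h1 : a ∈ S := by rw [← hl₁]; exact List.mem_toFinset.mpr ha₁
          have h2 : a ∈ s \ S := by rw [← hl₂]; exact List.mem_toFinset.mpr ha₂
          exact (Finset.mem_sdiff.mp h2).2 h1
        · rw [List.toFinset_append, hl₁, hl₂, Finset.union_sdiff_of_subset hSs]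
        · refine Ok.append hok₁ ?_
          have : (l₁.map f).sum = ∑ i ∈ S, f i := by
            rw [← hl₁, List.sum_toFinset _ hnd₁]
          rw [this]
          exact hok₂
      · -- the target is not reachable: two blocks
        have hnormE : 0 < ‖Ec‖ := norm_pos_iff.mpr hE0
        let w := ‖Ec‖⁻¹ • Ec
        have hw : ‖w‖ = 1 := by
          simp only [w]
          rw [norm_smul, norm_inv, norm_norm]; exact inv_mul_cancel₀ hnormE.ne'
        have hwx : ∀ x, inner ℝ w x = ‖Ec‖⁻¹ * inner ℝ Ec x := fun x => by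
          simp only [w]
          rw [real_inner_smul_left]
        have hwE : inner ℝ w Ec = ‖Ec‖ := by
          rw [hwx, real_inner_self_eq_norm_sq]
          field_simp
        set Rneg := s.filter (fun i => inner ℝ Ec (f i) < 0) with hRneg
        set R0 := s.filter (fun i => inner ℝ Ec (f i) = 0) with hR0
        set Rpos := s.filter (fun i => 0 < inner ℝ Ec (f i)) with hRpos
        have hneg1 : ∀ i ∈ Rneg, c0 i = 1 := by
          intro i hi
          obtain ⟨his, hlt⟩ := Finset.mem_filter.mp hi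
          rw [hc0s i his]
          by_contra hne
          have hle := (hc ⟨i, his⟩).2
          have hlt1 : c ⟨i, his⟩ < 1 := lt_of_le_of_ne hle hne
          have := hc1 ⟨i, his⟩ hlt1
          simp only at this
          linarith
        have hpos0 : ∀ i ∈ Rpos, c0 i = 0 := by
          intro i hi
          obtain ⟨his, hlt⟩ := Finset.mem_filter.mp hi
          rw [hc0s i his]
          by_contra hne
          have hle := (hc ⟨i, his⟩).1
          have hlt1 : 0 < c ⟨i, his⟩ := lt_of_le_of_ne hle (Ne.symm hne)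
          have := hc0 ⟨i, his⟩ hlt1
          simp only at this
          linarith
        obtain ⟨S₀, hS₀R, hS₀⟩ := exists_round f hf R0 c0
          (fun i hi => hc0r i (Finset.mem_filter.mp hi).1)
        rw [hk] at hS₀
        have hdisj12 : Disjoint Rneg R0 := by
          rw [Finset.disjoint_left]
          intro i hi hi'
          have h1 := (Finset.mem_filter.mp hi).2
          have h2 := (Finset.mem_filter.mp hi').2
          linarith
        have hdisj1 : Disjoint Rneg S₀ := hdisj12.mono_right hS₀R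
        have hRs : Rneg ⊆ s := Finset.filter_subset _ _
        have hR0s : R0 ⊆ s := Finset.filter_subset _ _
        -- the position at the nearest point
        have hEc : Ec = P + ∑ i ∈ Rneg, f i + ∑ i ∈ R0, c0 i • f i := by
          have hsplit : ∑ i ∈ s, c0 i • f i = ∑ i ∈ Rneg, f i + ∑ i ∈ R0, c0 i • f i := by
            have h1 : ∑ i ∈ Rneg, f i = ∑ i ∈ Rneg, c0 i • f i :=
              Finset.sum_congr rfl (fun i hi => by rw [hneg1 i hi, one_smul])
            rw [h1, ← Finset.sum_union hdisj12]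
            symm
            refine Finset.sum_subset (Finset.union_subset hRs hR0s) (fun i his hi => ?_)
            have hnn : ¬ inner ℝ Ec (f i) < 0 := fun h =>
              hi (Finset.mem_union_left _ (Finset.mem_filter.mpr ⟨his, h⟩))
            have hn0 : ¬ inner ℝ Ec (f i) = 0 := fun h =>
              hi (Finset.mem_union_right _ (Finset.mem_filter.mpr ⟨his, h⟩))
            have hp : 0 < inner ℝ Ec (f i) := by
              rcases lt_trichotomy (inner ℝ Ec (f i)) 0 with h | h | h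
              · exact absurd h hnn
              · exact absurd h hn0
              · exact h
            rw [hpos0 i (Finset.mem_filter.mpr ⟨his, hp⟩), zero_smul]
          rw [hEc, ← hsumc, hsplit, add_assoc]
        set e := ∑ i ∈ R0, c0 i • f i - ∑ i ∈ S₀, f i with he
        have hEe : inner ℝ Ec e = 0 := by
          rw [he, inner_sub_right, inner_sum, inner_sum]
          have h1 : ∑ i ∈ R0, inner ℝ Ec (c0 i • f i) = 0 :=
            Finset.sum_eq_zero (fun i hi => by
              rw [real_inner_smul_right, (Finset.mem_filter.mp hi).2, mul_zero])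
          have h2 : ∑ i ∈ S₀, inner ℝ Ec (f i) = 0 :=
            Finset.sum_eq_zero (fun i hi => (Finset.mem_filter.mp (hS₀R hi)).2)
          rw [h1, h2, sub_zero]
        set B₁ := Rneg ∪ S₀ with hB₁
        set B₂ := s \ B₁ with hB₂
        have hB₁s : B₁ ⊆ s := Finset.union_subset hRs (hS₀R.trans hR0s)
        have hp : P + ∑ i ∈ B₁, f i = Ec - e := by
          rw [hB₁, Finset.sum_union hdisj1, hEc, he]; abel
        have hpw : inner ℝ w (P + ∑ i ∈ B₁, f i) = ‖Ec‖ := by
          rw [hp, inner_sub_right, hwE, hwx e, hEe]; simp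
        have hpn : ‖P + ∑ i ∈ B₁, f i‖ ^ 2 = ‖Ec‖ ^ 2 + ‖e‖ ^ 2 := by
          rw [hp, norm_sub_sq_real, hEe]; ring
        have hsm : ‖P + ∑ i ∈ B₁, f i‖ ^ 2 - (inner ℝ w (P + ∑ i ∈ B₁, f i)) ^ 2 ≤ A n := by
          rw [hpn, hpw]
          have h0 : ((n + 1 : ℕ) : ℝ) / 4 = A n + 1 / 4 - 1 := by
            have : ((n + 1 : ℕ) : ℝ) / 4 + 1 = A n + 1 / 4 := by rw [hAn, hA]
            linarith
          linarith
        have hcomp1 : ∀ i ∈ B₁, inner ℝ w (f i) ≤ 0 := by
          intro i hi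
          rw [hwx]
          rcases Finset.mem_union.mp hi with h | h
          · have := (Finset.mem_filter.mp h).2
            exact mul_nonpos_of_nonneg_of_nonpos (by positivity) this.le
          · have := (Finset.mem_filter.mp (hS₀R h)).2
            rw [this, mul_zero]
        have hcomp2 : ∀ i ∈ B₂, 0 ≤ inner ℝ w (f i) := by
          intro i hi
          rw [hwx]
          obtain ⟨his, hnot⟩ := Finset.mem_sdiff.mp hi
          have hnn : ¬ inner ℝ Ec (f i) < 0 := fun h =>
            hnot (Finset.mem_union_left _ (Finset.mem_filter.mpr ⟨his, h⟩))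
          exact mul_nonneg (by positivity) (not_lt.mp hnn)
        obtain ⟨l₁, hnd₁, hl₁, hok₁⟩ := block_down hk ih f hf w hw B₁ hcomp1 P T
          (by rw [hpw]; exact hnormE.le) hsm hP
        have hsumsd : P + ∑ i ∈ B₁, f i + ∑ i ∈ B₂, f i = P + ∑ i ∈ s, f i := by
          rw [add_assoc, add_comm (∑ i ∈ B₁, f i), hB₂, Finset.sum_sdiff hB₁s]
        obtain ⟨l₂, hnd₂, hl₂, hok₂⟩ := block_up hk ih f hf w hw B₂ hcomp2
          (P + ∑ i ∈ B₁, f i) T (by rw [hpw]; exact hnormE.le) hsm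
          (by rw [hsumsd]; exact hQ)
        refine ⟨l₁ ++ l₂, ?_, ?_, ?_⟩
        · rw [List.nodup_append']
          refine ⟨hnd₁, hnd₂, ?_⟩
          intro a ha₁ ha₂
          have h1 : a ∈ B₁ := by rw [← hl₁]; exact List.mem_toFinset.mpr ha₁
          have h2 : a ∈ B₂ := by rw [← hl₂]; exact List.mem_toFinset.mpr ha₂
          exact (Finset.mem_sdiff.mp h2).2 h1
        · rw [List.toFinset_append, hl₁, hl₂, hB₂, Finset.union_sdiff_of_subset hB₁s]
        · refine Ok.append hok₁ ?_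
          have : (l₁.map f).sum = ∑ i ∈ B₁, f i := by
            rw [← hl₁, List.sum_toFinset _ hnd₁]
          rw [this]
          exact hok₂

/-- The claim in every dimension. -/
theorem claim_all (ι : Type) [DecidableEq ι] (k : ℕ) : Claim ι k := by
  induction k with
  | zero => exact claim_zero ι
  | succ n ih => exact claim_succ ι n ih

lemma B_eq (k : ℕ) : B k = (k : ℝ) * (k + 1) / 8 + k := by
  induction k with
  | zero => simp [B]
  | succ k ih =>
    simp only [B, ih, A]
    push_cast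
    ring

end Vale.Agent.Lib.P262
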