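import Vale.Agent.Lib.P262.Tree

namespace Vale.Agent.Lib.P262

open Finset

section Numeric

lemma num_Y {M D₀ K' : ℝ} (hM7 : 7 ≤ M) (hD0 : 0 ≤ D₀) (hK : K' = 20 * M) :
    60000000 * M ^ 5 * ((K' + 1) * D₀) + (33 + 32 * M ^ 2) * D₀ ≤ 1300000000 * M ^ 6 * D₀ := by
  have hM2 : 49 ≤ M ^ 2 := by nlinarith
  have h1 : K' + 1 ≤ 21 * M := by rw [hK]; linarith
  have h2 : 60000000 * M ^ 5 * (K' + 1) ≤ 60000000 * M ^ 5 * (21 * M) :=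
    mul_le_mul_of_nonneg_left h1 (by positivity)
  have h3 : 60000000 * M ^ 5 * (21 * M) = 1260000000 * M ^ 6 := by ring
  have h4 : 33 + 32 * M ^ 2 ≤ 40000000 * M ^ 6 := by
    have h5 : M ^ 6 = M ^ 2 * M ^ 2 * M ^ 2 := by ring
    have h6 : 49 * 49 ≤ M ^ 2 * M ^ 2 := mul_le_mul hM2 hM2 (by norm_num) (by positivity)
    have h7 : 49 * 49 * M ^ 2 ≤ M ^ 2 * M ^ 2 * M ^ 2 :=
      mul_le_mul_of_nonneg_right h6 (by positivity)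
    rw [h5]
    linarith
  have h7 : 60000000 * M ^ 5 * ((K' + 1) * D₀) + (33 + 32 * M ^ 2) * D₀
      = (60000000 * M ^ 5 * (K' + 1) + (33 + 32 * M ^ 2)) * D₀ := by ring
  rw [h7]
  refine mul_le_mul_of_nonneg_right ?_ hD0
  linarith

lemma num_scale {A D₀ M x τ μ : ℝ} (hD1 : 1 ≤ D₀) (hM7 : 7 ≤ M) (hAle : A ≤ 20 * D₀) (hA0 : 0 < A)
    (hτ2 : τ ^ 2 ≤ 2700000000 * M ^ 6 * D₀) (hx128 : 128 ≤ x) (hDx : D₀ ≤ x) (hMx : M ≤ x)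
    (hμx19 : x ^ 19 ≤ μ) : 16 * D₀ ^ 2 * ((64 * A ^ 2 + 128) * τ ^ 2) ≤ μ := by
  have hD0 : 0 ≤ D₀ := by linarith
  have hx0 : 0 ≤ x := by linarith
  have hM0 : 0 ≤ M := by linarith
  have hA2 : 64 * A ^ 2 + 128 ≤ 25728 * D₀ ^ 2 := by
    have h1 : A ^ 2 ≤ (20 * D₀) ^ 2 := pow_le_pow_left₀ hA0.le hAle 2
    have h2 : 1 ≤ D₀ ^ 2 := one_le_pow₀ hD1
    have h3 : (20 * D₀) ^ 2 = 400 * D₀ ^ 2 := by ring
    linarith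
  have hD5 : D₀ ^ 5 ≤ x ^ 5 := pow_le_pow_left₀ hD0 hDx 5
  have hM6x : M ^ 6 ≤ x ^ 6 := pow_le_pow_left₀ hM0 hMx 6
  have hx8 : (1200000000000000 : ℝ) ≤ x ^ 8 := by
    have h1 : (128 : ℝ) ^ 8 ≤ x ^ 8 := pow_le_pow_left₀ (by norm_num) hx128 8
    norm_num at h1
    linarith
  have h1 : (64 * A ^ 2 + 128) * τ ^ 2 ≤ (25728 * D₀ ^ 2) * (2700000000 * M ^ 6 * D₀) :=
    mul_le_mul hA2 hτ2 (sq_nonneg _) (by positivity)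
  have h2 : 16 * D₀ ^ 2 * ((64 * A ^ 2 + 128) * τ ^ 2)
      ≤ 16 * D₀ ^ 2 * ((25728 * D₀ ^ 2) * (2700000000 * M ^ 6 * D₀)) :=
    mul_le_mul_of_nonneg_left h1 (by positivity)
  have h3 : 16 * D₀ ^ 2 * ((25728 * D₀ ^ 2) * (2700000000 * M ^ 6 * D₀))
      = 1111449600000000 * (D₀ ^ 5 * M ^ 6) := by ring
  have h4 : D₀ ^ 5 * M ^ 6 ≤ x ^ 5 * x ^ 6 :=
    mul_le_mul hD5 hM6x (by positivity) (by positivity)
  have h6 : (0 : ℝ) ≤ x ^ 5 * x ^ 6 := by positivity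
  have h7 : 1111449600000000 * (x ^ 5 * x ^ 6) ≤ x ^ 8 * (x ^ 5 * x ^ 6) :=
    mul_le_mul_of_nonneg_right (by linarith) h6
  have h8 : x ^ 8 * (x ^ 5 * x ^ 6) = x ^ 19 := by ring
  linarith

lemma num_beta {M : ℝ} (hM7 : 7 ≤ M) :
    98304 * M ^ 3 * (18 + 576 * M ^ 2) ≤ 60000000 * M ^ 5 ∧
    36864 * M ^ 2 * (5 + 576 * M ^ 2) ≤ 60000000 * M ^ 5 ∧
    45 + 2016 * M ^ 2 ≤ 60000000 * M ^ 5 := by
  have hM2 : 49 ≤ M ^ 2 := by nlinarith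
  have h1 : 98304 * M ^ 3 * (18 + 576 * M ^ 2) = 1769472 * M ^ 3 + 56623104 * M ^ 5 := by ring
  have h3 : 1769472 * M ^ 3 ≤ 3376896 * M ^ 5 := by
    have h4 : M ^ 5 = M ^ 3 * M ^ 2 := by ring
    have h5 : M ^ 3 * 49 ≤ M ^ 3 * M ^ 2 := mul_le_mul_of_nonneg_left hM2 (by positivity)
    have h6 : 0 ≤ M ^ 3 := by positivity
    rw [h4]
    linarith
  have hM22 : M ^ 2 ≤ M ^ 2 * M ^ 2 := le_mul_of_one_le_right (by positivity) (by linarith)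
  have hM5ge : M ^ 2 * M ^ 2 ≤ M ^ 5 := by
    have h2 : M ^ 5 = M ^ 2 * M ^ 2 * M := by ring
    rw [h2]
    exact le_mul_of_one_le_right (by positivity) (by linarith)
  have h7 : 36864 * M ^ 2 * (5 + 576 * M ^ 2) = 184320 * M ^ 2 + 21233664 * (M ^ 2 * M ^ 2) := by
    ring
  refine ⟨by rw [h1]; linarith, by rw [h7]; linarith, by linarith⟩

lemma num_final {M D₀ Y τ : ℝ} (hM7 : 7 ≤ M) (hD1 : 1 ≤ D₀) (hY0 : 0 ≤ Y)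
    (hYle : Y ≤ 1300000000 * M ^ 6 * D₀) (hτ : τ = Real.sqrt Y + 2) :
    (τ - 1) ^ 2 + (5 * M + 2) ≤ 3000000000 * D₀ * M ^ 6 := by
  have hsqY : Real.sqrt Y ^ 2 = Y := Real.sq_sqrt hY0
  have h1 : (τ - 1) ^ 2 ≤ 2 * Y + 2 := by
    rw [hτ]
    nlinarith [sq_nonneg (Real.sqrt Y - 1)]
  have h3 : 1 ≤ M ^ 6 := one_le_pow₀ (by linarith)
  have h4 : M ≤ M ^ 6 := by
    have h5 : M ^ 6 = M * M ^ 5 := by ring
    rw [h5]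
    exact le_mul_of_one_le_right (by linarith) (one_le_pow₀ (by linarith))
  have h6 : M ^ 6 ≤ M ^ 6 * D₀ := le_mul_of_one_le_right (by positivity) hD1
  have h7 : M ^ 6 * D₀ = D₀ * M ^ 6 := by ring
  have h8 : 1300000000 * M ^ 6 * D₀ = 1300000000 * (D₀ * M ^ 6) := by ring
  rw [h7] at h6
  rw [h8] at hYle
  have h9 : 3000000000 * D₀ * M ^ 6 = 3000000000 * (D₀ * M ^ 6) := by ring
  rw [h9]
  linarith

lemma num_tau {M D₀ Y τ : ℝ} (hM7 : 7 ≤ M) (hD1 : 1 ≤ D₀) (hY0 : 0 ≤ Y)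
    (hYle : Y ≤ 1300000000 * M ^ 6 * D₀) (hτ : τ = Real.sqrt Y + 2) :
    τ ^ 2 ≤ 2700000000 * M ^ 6 * D₀ ∧ 4 ≤ τ ^ 2 := by
  have hsqY : Real.sqrt Y ^ 2 = Y := Real.sq_sqrt hY0
  have hsqY0 : 0 ≤ Real.sqrt Y := Real.sqrt_nonneg _
  constructor
  · have h1 : τ ^ 2 ≤ 2 * Y + 8 := by
      rw [hτ]
      nlinarith [sq_nonneg (Real.sqrt Y - 2)]
    have h3 : 1 ≤ M ^ 6 := one_le_pow₀ (by linarith)
    have h2 : (8 : ℝ) ≤ 100000000 * (M ^ 6 * D₀) := by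
      have h6 : M ^ 6 ≤ M ^ 6 * D₀ := le_mul_of_one_le_right (by positivity) hD1
      linarith
    have h4 : 1300000000 * M ^ 6 * D₀ = 1300000000 * (M ^ 6 * D₀) := by ring
    have h5 : 2700000000 * M ^ 6 * D₀ = 2700000000 * (M ^ 6 * D₀) := by ring
    rw [h5]
    rw [h4] at hYle
    linarith
  · rw [hτ]
    nlinarith

end Numeric

/-- The numerical parameters exist. -/
theorem exists_par (d : ℕ) (hd : 1 ≤ d) :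
    ∃ p : Par d, (p.τ - 1) ^ 2 + (5 * ((p.m : ℝ) + 7) + 2)
        ≤ 3000000000 * (d : ℝ) * ((p.m : ℝ) + 7) ^ 6 ∧ p.m = Nat.clog 2 d := by
  obtain ⟨m, hm⟩ : ∃ m : ℕ, m = Nat.clog 2 d := ⟨_, rfl⟩
  have hdm : d ≤ 2 ^ m := by rw [hm]; exact Nat.le_pow_clog (by norm_num) d
  obtain ⟨M, hM⟩ : ∃ M : ℝ, M = (m : ℝ) + 7 := ⟨_, rfl⟩
  have hm0 : (0 : ℝ) ≤ m := Nat.cast_nonneg _
  have hM7 : 7 ≤ M := by linarith
  obtain ⟨D₀, hD₀⟩ : ∃ D₀ : ℝ, D₀ = (d : ℝ) := ⟨_, rfl⟩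
  have hD1 : 1 ≤ D₀ := by rw [hD₀]; exact_mod_cast hd
  have hD0 : 0 ≤ D₀ := by linarith
  obtain ⟨K, hK⟩ : ∃ K : ℕ, K = 20 * (m + 7) := ⟨_, rfl⟩
  have hKr : (K : ℝ) = 20 * M := by
    rw [hK, hM]; push_cast; ring
  have hK0 : (0 : ℝ) ≤ K := Nat.cast_nonneg _
  obtain ⟨μ, hμ⟩ : ∃ μ : ℝ, μ = 2 ^ (K - 1) := ⟨_, rfl⟩
  obtain ⟨A, hA⟩ : ∃ A : ℝ, A = 10 * (D₀ + 1) := ⟨_, rfl⟩
  obtain ⟨Y, hY⟩ : ∃ Y : ℝ, Y = 60000000 * M ^ 5 * (((K : ℝ) + 1) * D₀)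
      + (33 + 32 * M ^ 2) * D₀ := ⟨_, rfl⟩
  have hY0 : 0 ≤ Y := by rw [hY]; positivity
  have hYle : Y ≤ 1300000000 * M ^ 6 * D₀ := by
    rw [hY]
    exact num_Y hM7 hD0 hKr
  obtain ⟨τ, hτ⟩ : ∃ τ : ℝ, τ = Real.sqrt Y + 2 := ⟨_, rfl⟩
  obtain ⟨hτ2, hτge⟩ := num_tau hM7 hD1 hY0 hYle hτ
  -- the scale
  obtain ⟨x, hx⟩ : ∃ x : ℝ, x = 2 ^ (m + 7) := ⟨_, rfl⟩
  have hx128 : 128 ≤ x := by
    have : (2 : ℝ) ^ 7 ≤ 2 ^ (m + 7) := pow_le_pow_right₀ (by norm_num) (by omega)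
    rw [hx]
    norm_num at this ⊢
    linarith
  have hDx : D₀ ≤ x := by
    have h1 : (d : ℝ) ≤ (2 : ℝ) ^ m := by exact_mod_cast hdm
    have h2 : (2 : ℝ) ^ m ≤ 2 ^ (m + 7) := pow_le_pow_right₀ (by norm_num) (by omega)
    rw [hD₀, hx]
    linarith
  have hMx : M ≤ x := by
    have h1 : m + 7 < 2 ^ (m + 7) := Nat.lt_two_pow_self
    have h2 : ((m + 7 : ℕ) : ℝ) ≤ ((2 ^ (m + 7) : ℕ) : ℝ) := by exact_mod_cast h1.le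
    push_cast at h2
    rw [hM, hx]
    exact h2
  have hKpos : K = (K - 1) + 1 := by rw [hK]; omega
  have hμ2 : 2 * μ = 2 ^ K := by
    rw [hμ]
    conv_rhs => rw [hKpos, pow_succ]
    ring
  have hμx : x ^ 20 = 2 * μ := by
    rw [hμ2, hx, ← pow_mul, hK, mul_comm]
  have hμx19 : x ^ 19 ≤ μ := by
    have h1 : x ^ 20 = x * x ^ 19 := by ring
    have h2 : 0 < x ^ 19 := by positivity
    have h3 : 128 * x ^ 19 ≤ x * x ^ 19 := mul_le_mul_of_nonneg_right hx128 h2.le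
    linarith
  have hμpos : 0 < μ := by rw [hμ]; positivity
  -- main inequality
  have hAle : A ≤ 20 * D₀ := by rw [hA]; linarith
  have hA0 : 0 < A := by rw [hA]; linarith
  have hmain := num_scale hD1 hM7 hAle hA0 hτ2 hx128 hDx hMx hμx19
  have hD2 : 1 ≤ D₀ ^ 2 := one_le_pow₀ hD1
  have hτ4 : 0 ≤ τ ^ 2 := sq_nonneg τ
  have hA1 : 20 ≤ A := by rw [hA]; linarith
  have hA20 : (20 : ℝ) ^ 2 ≤ A ^ 2 := pow_le_pow_left₀ (by norm_num) hA1 2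
  have hD0pos : 0 < D₀ := by linarith
  have hpos5 : 0 < 64 * A ^ 2 + 128 := by positivity
  have hpos6 : 0 ≤ (64 * A ^ 2 + 128) * τ ^ 2 := by positivity
  have hbase : (64 * A ^ 2 + 128) * τ ^ 2 ≤ 16 * D₀ ^ 2 * ((64 * A ^ 2 + 128) * τ ^ 2) := by
    have h1 : 1 ≤ 16 * D₀ ^ 2 := by linarith
    exact le_mul_of_one_le_left hpos6 h1
  have hμAτ : (64 * A ^ 2 + 128) * τ ^ 2 ≤ μ := hbase.trans hmain
  have hμA : 8 * A ^ 2 ≤ μ := by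
    have h1 : (64 * A ^ 2 + 128) * 4 ≤ (64 * A ^ 2 + 128) * τ ^ 2 :=
      mul_le_mul_of_nonneg_left hτge hpos5.le
    linarith
  have hμτ : 1024 * τ ^ 2 ≤ μ := by
    have h1 : (1024 : ℝ) * τ ^ 2 ≤ (64 * A ^ 2 + 128) * τ ^ 2 :=
      mul_le_mul_of_nonneg_right (by norm_num at hA20; linarith) hτ4
    linarith
  have hκμ : (64 * A ^ 2 + 128) * τ ^ 2 ≤ (1 / (4 * D₀)) ^ 2 * μ := by
    have h1 : (1 / (4 * D₀)) ^ 2 * μ = μ / (16 * D₀ ^ 2) := by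
      field_simp
      ring
    rw [h1, le_div_iff₀ (by positivity)]
    linarith
  have hκd : 1 / (4 * D₀) * (4 * D₀) ≤ 1 := by
    have : 1 / (4 * D₀) * (4 * D₀) = 1 := by field_simp
    linarith
  obtain ⟨hβA, hβB, hβC⟩ := num_beta hM7
  have hfinal := num_final hM7 hD1 hY0 hYle hτ
  subst hM hD₀ hA
  subst hY
  exact ⟨⟨m, K, _, μ, τ, 1 / (4 * (d : ℝ)), _, _, _, hd, hdm, rfl, hμA, hμτ, by rw [← hμ2], by positivity,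
    hκμ, hκd, by rw [hτ], le_rfl, le_rfl, hβA, hβB, hβC⟩, hfinal, hm⟩

end Vale.Agent.Lib.P262
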