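import Vale.Agent.Lib.P262.NodeRound

namespace Vale.Agent.Lib.P262

open Finset

section Pay

variable {ι D : Type} [DecidableEq ι] [Fintype D]

/-- The potential of a block. -/
noncomputable def Psi (z : ι → D → ℝ) (K : ℕ) (S : Finset D) (s : Finset ι) : ℝ :=
  ∑ a ∈ S, psi K (En z s a)

/-- The weight of an atom in a block. -/
noncomputable def wt (z : ι → D → ℝ) (K : ℕ) (S : Finset D) (s : Finset ι) (i : ι) : ℝ :=
  ∑ a ∈ S, z i a ^ 2 * dpsi K (En z s a)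

lemma wt_nonneg (z : ι → D → ℝ) (K : ℕ) (S : Finset D) (s : Finset ι) (i : ι) :
    0 ≤ wt z K S s i :=
  Finset.sum_nonneg (fun a _ => mul_nonneg (sq_nonneg _) (dpsi_nonneg K _))

lemma En_sdiff (z : ι → D → ℝ) {C s : Finset ι} (h : C ⊆ s) (a : D) :
    En z s a - En z C a = ∑ i ∈ s \ C, z i a ^ 2 := by
  simp only [En]
  rw [← Finset.sum_sdiff h]
  ring

lemma sum_wt (z : ι → D → ℝ) (K : ℕ) (S : Finset D) (s F : Finset ι) :
    ∑ i ∈ F, wt z K S s i = ∑ a ∈ S, En z F a * dpsi K (En z s a) := by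
  simp only [wt, En]
  rw [Finset.sum_comm]
  refine Finset.sum_congr rfl (fun a _ => ?_)
  rw [Finset.sum_mul]

/-- The potential grows by the weight of what was removed. -/
lemma Psi_pay (z : ι → D → ℝ) (K : ℕ) {S S' : Finset D} (hS : S ⊆ S') {C s : Finset ι}
    (h : C ⊆ s) :
    Psi z K S s + ∑ i ∈ s \ C, wt z K S s i ≤ Psi z K S' C := by
  have h1 : Psi z K S C ≤ Psi z K S' C :=
    Finset.sum_le_sum_of_subset_of_nonneg hS (fun a _ _ => psi_nonneg K (En_nonneg z C a))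
  refine le_trans ?_ h1
  rw [sum_wt]
  simp only [Psi]
  rw [← Finset.sum_add_distrib]
  refine Finset.sum_le_sum (fun a _ => ?_)
  have h2 : En z s a - En z C a = En z (s \ C) a := by
    simp only [En]
    rw [← Finset.sum_sdiff h]
    ring
  have h3 := psi_tangent K (e := En z s a) (y := En z (s \ C) a) (En_nonneg z _ a)
    (by rw [← h2]; linarith [En_nonneg z C a])
  rw [← h2] at h3 ⊢
  have h4 : En z s a - (En z s a - En z C a) = En z C a := by ring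
  rw [h4] at h3
  exact h3

lemma Psi_le (z : ι → D → ℝ) (K : ℕ) (S : Finset D) (s : Finset ι) :
    Psi z K S s ≤ ((K : ℝ) + 1) * S.card := by
  calc Psi z K S s ≤ ∑ _a ∈ S, ((K : ℝ) + 1) :=
        Finset.sum_le_sum (fun a _ => psi_le K (En_nonneg z s a))
    _ = ((K : ℝ) + 1) * S.card := by simp; ring

lemma Psi_nonneg (z : ι → D → ℝ) (K : ℕ) (S : Finset D) (s : Finset ι) : 0 ≤ Psi z K S s :=
  Finset.sum_nonneg (fun a _ => psi_nonneg K (En_nonneg z s a))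

/-- The capped mass of a sub-block is controlled by its weight. -/
lemma Xi_le_wt (z : ι → D → ℝ) (K : ℕ) (S : Finset D) {R s : Finset ι} (hRs : R ⊆ s)
    (h1 : ∀ a ∈ S, En z s a ≤ En z R a + 1) (h2 : ∀ a ∈ S, En z s a ≤ 2 ^ K) :
    Xi z S R ≤ 18 * ∑ i ∈ R, wt z K S s i := by
  rw [sum_wt, Finset.mul_sum]
  refine Finset.sum_le_sum (fun a ha => ?_)
  exact min_le_dpsi K (En_nonneg z R a) (En_mono z hRs a) (h1 a ha) (h2 a ha)

lemma Xi_mono (z : ι → D → ℝ) (S : Finset D) {R s : Finset ι} (hRs : R ⊆ s) :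
    Xi z S R ≤ Xi z S s :=
  Finset.sum_le_sum (fun a _ => min_le_min_left _ (En_mono z hRs a))

/-- A single atom on the thin coordinates is bounded by the capped mass. -/
lemma sum_z_le_Xi {z : ι → D → ℝ} (hz : ∀ i, ∑ a, z i a ^ 2 ≤ 1) (S : Finset D) {s : Finset ι}
    {i : ι} (hi : i ∈ s) : ∑ a ∈ S, z i a ^ 2 ≤ Xi z S s := by
  refine Finset.sum_le_sum (fun a _ => le_min ?_ ?_)
  · refine le_trans ?_ (hz i)
    exact Finset.single_le_sum (f := fun a => z i a ^ 2) (fun _ _ => sq_nonneg _) (Finset.mem_univ a)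
  · exact Finset.single_le_sum (f := fun i => z i a ^ 2) (fun _ _ => sq_nonneg _) hi

lemma wt_le (z : ι → D → ℝ) (K : ℕ) (S : Finset D) (s : Finset ι) (i : ι) :
    wt z K S s i ≤ 2 * ∑ a ∈ S, z i a ^ 2 := by
  rw [Finset.mul_sum]
  refine Finset.sum_le_sum (fun a _ => ?_)
  have := dpsi_le_two K (En_nonneg z s a)
  nlinarith [sq_nonneg (z i a)]

end Pay

section Budget

variable {D : Type} [Fintype D]

/-- The budget for the leak at depth `j`. -/
noncomputable def Lb (κ : ℝ) (Λ : D → ℝ) (μ : ℝ) (j : ℕ) : ℝ :=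
  κ * (4 * ∑ a, min 1 (Real.sqrt (μ / (2 * (rho j * Λ a)))))

lemma Lb_le {κ μ : ℝ} (hκ : 0 ≤ κ) (Λ : D → ℝ) (j : ℕ) :
    Lb κ Λ μ j ≤ κ * (4 * (Fintype.card D : ℝ)) := by
  refine mul_le_mul_of_nonneg_left ?_ hκ
  have : ∑ a, min 1 (Real.sqrt (μ / (2 * (rho j * Λ a)))) ≤ ∑ _a : D, (1 : ℝ) :=
    Finset.sum_le_sum (fun a _ => min_le_left _ _)
  simp only [Finset.sum_const, Finset.card_univ, nsmul_eq_mul, mul_one] at this
  linarith

lemma Lb_nonneg {κ μ : ℝ} (hκ : 0 ≤ κ) (Λ : D → ℝ) (j : ℕ) : 0 ≤ Lb κ Λ μ j := by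
  refine mul_nonneg hκ (mul_nonneg (by norm_num) (Finset.sum_nonneg (fun a _ => ?_)))
  exact le_min zero_le_one (Real.sqrt_nonneg _)

lemma term_mono {Λ : D → ℝ} (hΛ : ∀ a, 0 ≤ Λ a) {μ : ℝ} (hμ : 0 ≤ μ) (j : ℕ) (a : D) :
    min 1 (Real.sqrt (μ / (2 * (rho j * Λ a))))
      ≤ min 1 (Real.sqrt (μ / (2 * (rho (j + 1) * Λ a)))) := by
  refine min_le_min_left _ (Real.sqrt_le_sqrt ?_)
  rw [rho_succ]
  by_cases h : Λ a = 0
  · simp [h]
  · have hpos : 0 < Λ a := lt_of_le_of_ne (hΛ a) (Ne.symm h)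
    have hr := rho_pos j
    refine div_le_div_of_nonneg_left hμ (by positivity) ?_
    nlinarith [mul_pos hr hpos]

lemma Lb_mono {κ μ : ℝ} (hκ : 0 ≤ κ) {Λ : D → ℝ} (hΛ : ∀ a, 0 ≤ Λ a) (hμ : 0 ≤ μ) (j : ℕ) :
    Lb κ Λ μ j ≤ Lb κ Λ μ (j + 1) := by
  refine mul_le_mul_of_nonneg_left ?_ hκ
  refine mul_le_mul_of_nonneg_left ?_ (by norm_num)
  exact Finset.sum_le_sum (fun a _ => term_mono hΛ hμ j a)

/-- The increment of the budget pays the leak at a thick coordinate. -/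
lemma Lb_step [DecidableEq D] {κ μ : ℝ} (hκ : 0 ≤ κ) {Λ : D → ℝ} (hΛ : ∀ a, 0 ≤ Λ a) (hμ : 0 < μ)
    (j : ℕ) {a : D} (ha : a ∈ Vv Λ μ j) :
    κ * Real.sqrt (μ / (rho j * Λ a)) ≤ Lb κ Λ μ (j + 1) - Lb κ Λ μ j := by
  have hx : μ < rho j * Λ a := (Finset.mem_filter.mp ha).2
  set x := rho j * Λ a with hxdef
  have hx0 : 0 < x := hμ.trans hx
  have hLa : 0 < Λ a := by
    have hr := rho_pos j
    by_contra hcon
    have : Λ a = 0 := le_antisymm (not_lt.mp hcon) (hΛ a)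
    rw [hxdef, this, mul_zero] at hx0
    exact lt_irrefl _ hx0
  set q := Real.sqrt (μ / x) with hq
  have hq0 : 0 ≤ q := Real.sqrt_nonneg _
  have hq1 : q ≤ 1 := by
    rw [hq]
    refine Real.sqrt_le_one.mpr ?_
    rw [div_le_one hx0]
    exact hx.le
  have h1 : Real.sqrt (μ / (2 * x)) ≤ q * (3 / 4) := by
    refine Real.sqrt_le_iff.mpr ⟨by positivity, ?_⟩
    rw [mul_pow, hq, Real.sq_sqrt (by positivity)]
    have : μ / (2 * x) = (μ / x) * (1 / 2) := by field_simp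
    rw [this]
    have h3 : 0 ≤ μ / x := by positivity
    nlinarith
  have h2 : Real.sqrt (μ / (2 * (rho (j + 1) * Λ a))) = q := by
    rw [rho_succ, hq]
    congr 1
    have : 2 * (rho j / 2 * Λ a) = x := by rw [hxdef]; ring
    rw [this]
  have hdiff : 4 * ∑ b, (min 1 (Real.sqrt (μ / (2 * (rho (j + 1) * Λ b))))
      - min 1 (Real.sqrt (μ / (2 * (rho j * Λ b))))) ≥ q := by
    have hone : min 1 (Real.sqrt (μ / (2 * (rho (j + 1) * Λ a))))
        - min 1 (Real.sqrt (μ / (2 * (rho j * Λ a)))) ≥ q / 4 := by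
      rw [h2, min_eq_right hq1]
      have h4 : min 1 (Real.sqrt (μ / (2 * (rho j * Λ a)))) ≤ q * (3 / 4) :=
        (min_le_right _ _).trans h1
      linarith
    have hsum := Finset.single_le_sum
      (f := fun b => min 1 (Real.sqrt (μ / (2 * (rho (j + 1) * Λ b))))
        - min 1 (Real.sqrt (μ / (2 * (rho j * Λ b)))))
      (fun b _ => sub_nonneg.mpr (term_mono hΛ hμ.le j b)) (Finset.mem_univ a)
    linarith
  have hLb : Lb κ Λ μ (j + 1) - Lb κ Λ μ j
      = κ * (4 * ∑ b, (min 1 (Real.sqrt (μ / (2 * (rho (j + 1) * Λ b))))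
        - min 1 (Real.sqrt (μ / (2 * (rho j * Λ b)))))) := by
    simp only [Lb]
    rw [Finset.sum_sub_distrib]
    ring
  rw [hLb]
  exact mul_le_mul_of_nonneg_left hdiff hκ

end Budget

end Vale.Agent.Lib.P262
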