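import Vale.Agent.Lib.P262.Defs

namespace Vale.Agent.Lib.P262

open Finset

section ChainSets

variable {D : Type} [DecidableEq D]

/-- The decreasing chain of exact coordinate blocks. -/
noncomputable def chainX (hi V : Finset D) (Λ : D → ℝ) (m t : ℕ) : Finset D :=
  if t ≤ m then hi ∪ flagSet V Λ (m - t) else if t = m + 1 then hi else ∅

lemma chainX_anti (hi V : Finset D) (Λ : D → ℝ) (m t : ℕ) :
    chainX hi V Λ m (t + 1) ⊆ chainX hi V Λ m t := by
  unfold chainX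
  by_cases h1 : t + 1 ≤ m
  · have h2 : t ≤ m := by omega
    simp only [h1, h2, if_true]
    refine Finset.union_subset_union_right ?_
    have : m - t = (m - (t + 1)) + 1 := by omega
    rw [this]
    exact flagSet_mono V Λ _
  · by_cases h2 : t = m
    · subst h2
      have e1 : (if t + 1 = t + 1 then hi else ∅) = hi := by simp
      rw [if_neg h1, e1]
      simp
    · have h3 : ¬ (t + 1 = m + 1) := by omega
      rw [if_neg h1, if_neg h3]
      exact Finset.empty_subset _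

/-- Sizes along the chain. -/
noncomputable def chainN (hi V : Finset D) (Λ : D → ℝ) (m t : ℕ) : ℕ :=
  2 * ((chainX hi V Λ m t).card + t + 5)

lemma chainN_le (hi V : Finset D) (Λ : D → ℝ) (m t : ℕ) (ht : t ≤ m) :
    (chainN hi V Λ m t : ℝ) ≤ 2 * ((hi.card : ℝ) + ((m : ℝ) + 7)) + 2 * 2 ^ (m - t) := by
  have h1 : (chainX hi V Λ m t).card ≤ hi.card + 2 ^ (m - t) := by
    unfold chainX
    simp only [ht, if_true]
    exact (Finset.card_union_le _ _).trans (Nat.add_le_add_left (flagSet_card V Λ _) _)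
  have h2 : ((chainX hi V Λ m t).card : ℝ) ≤ hi.card + 2 ^ (m - t) := by exact_mod_cast h1
  have h3 : (t : ℝ) ≤ m := by exact_mod_cast ht
  simp only [chainN]
  push_cast
  linarith

lemma chainN_succ (hi V : Finset D) (Λ : D → ℝ) (m : ℕ) :
    (chainN hi V Λ m (m + 1) : ℝ) = 2 * ((hi.card : ℝ) + ((m : ℝ) + 6)) := by
  have h1 : chainX hi V Λ m (m + 1) = hi := by simp [chainX]
  simp only [chainN, h1]
  push_cast
  ring

lemma chainN_top (hi V : Finset D) (Λ : D → ℝ) (m : ℕ) :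
    (chainN hi V Λ m (m + 2) : ℝ) = 2 * ((m : ℝ) + 7) := by
  have h1 : chainX hi V Λ m (m + 2) = ∅ := by
    unfold chainX
    have h2 : ¬ (m + 2 ≤ m) := by omega
    have h3 : ¬ (m + 2 = m + 1) := by omega
    simp [h2, h3]
  simp only [chainN, h1]
  push_cast
  simp
  ring

lemma sum_geo (m n : ℕ) (h : n ≤ m) :
    ∑ τ ∈ Finset.Ico (m - n) (m + 1), (2 : ℝ) ^ (m - τ) ≤ 2 ^ (n + 1) := by
  induction n with
  | zero =>
    simp
  | succ n ih =>
    have h1 : m - (n + 1) < m + 1 := by omega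
    rw [Finset.sum_eq_sum_Ico_succ_bot h1]
    have h2 : m - (n + 1) + 1 = m - n := by omega
    rw [h2]
    have h3 : m - (m - (n + 1)) = n + 1 := by omega
    rw [h3]
    have := ih (by omega)
    rw [pow_succ (2:ℝ) (n + 1)]
    linarith

lemma sum_chainN_le (hi V : Finset D) (Λ : D → ℝ) (m i : ℕ) (hi' : i ≤ m) :
    ∑ τ ∈ Finset.Ico (m - i) (m + 2), (chainN hi V Λ m τ : ℝ)
      ≤ 2 * ((m : ℝ) + 2) * ((hi.card : ℝ) + ((m : ℝ) + 7)) + 4 * 2 ^ i := by
  have hle : m - i ≤ m + 1 := by omega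
  rw [Finset.sum_Ico_succ_top hle, chainN_succ]
  have hB : (0 : ℝ) ≤ (hi.card : ℝ) + ((m : ℝ) + 7) := by positivity
  have h1 : ∑ τ ∈ Finset.Ico (m - i) (m + 1), (chainN hi V Λ m τ : ℝ)
      ≤ ∑ τ ∈ Finset.Ico (m - i) (m + 1),
        (2 * ((hi.card : ℝ) + ((m : ℝ) + 7)) + 2 * 2 ^ (m - τ)) := by
    refine Finset.sum_le_sum (fun τ hτ => ?_)
    have : τ ≤ m := by
      have := (Finset.mem_Ico.mp hτ).2
      omega
    exact chainN_le hi V Λ m τ this
  have h2 : ∑ τ ∈ Finset.Ico (m - i) (m + 1),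
        (2 * ((hi.card : ℝ) + ((m : ℝ) + 7)) + 2 * 2 ^ (m - τ))
      = ((m + 1 - (m - i) : ℕ) : ℝ) * (2 * ((hi.card : ℝ) + ((m : ℝ) + 7)))
        + 2 * ∑ τ ∈ Finset.Ico (m - i) (m + 1), (2 : ℝ) ^ (m - τ) := by
    rw [Finset.sum_add_distrib, Finset.sum_const, Nat.card_Ico, nsmul_eq_mul, Finset.mul_sum]
  have h3 := sum_geo m i hi'
  have h4 : ((m + 1 - (m - i) : ℕ) : ℝ) ≤ (m : ℝ) + 1 := by
    have : m + 1 - (m - i) ≤ m + 1 := by omega
    exact_mod_cast this
  have h5 := mul_le_mul_of_nonneg_right h4 (by positivity :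
    (0:ℝ) ≤ 2 * ((hi.card : ℝ) + ((m : ℝ) + 7)))
  rw [pow_succ] at h3
  have h6 : (0 : ℝ) ≤ m := Nat.cast_nonneg _
  have h7 : (0 : ℝ) ≤ (hi.card : ℝ) := Nat.cast_nonneg _
  nlinarith

end ChainSets

section RoundRest

variable {ι D : Type} [DecidableEq ι] [Fintype D] [DecidableEq D]

/-- Mass of the thin coordinates, capped at one per coordinate. -/
noncomputable def Xi (z : ι → D → ℝ) (S : Finset D) (R : Finset ι) : ℝ :=
  ∑ a ∈ S, min 1 (En z R a)

lemma Xi_nonneg (z : ι → D → ℝ) (S : Finset D) (R : Finset ι) : 0 ≤ Xi z S R :=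
  Finset.sum_nonneg (fun a _ => le_min zero_le_one (En_nonneg z R a))

/-- Rounding of the rest after the first phase. -/
theorem round_rest (z : ι → D → ℝ) (R : Finset ι) (hz : ∀ i ∈ R, ∑ a, z i a ^ 2 ≤ 1)
    (c₁ : ι → ℝ) (hc₁ : ∀ i ∈ R, 0 ≤ c₁ i ∧ c₁ i ≤ 1) (N₀ : ℕ) (hN₀ : 0 < N₀)
    (halive : (frac R c₁).card ≤ N₀) (S V : Finset D) (hSV : Disjoint S V) (Λ : D → ℝ) (m : ℕ)
    (w : ι → ℝ) (wm : ℝ) (hwm0 : 0 ≤ wm) (hw : ∀ i ∈ R, 0 ≤ w i ∧ w i ≤ wm) (y₀ : D → ℝ) :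
    ∃ χ : ι → ℝ, (∀ i ∈ R, χ i = 0 ∨ χ i = 1) ∧ (∀ i ∈ R, i ∉ frac R c₁ → χ i = c₁ i) ∧
      |∑ i ∈ R, (χ i - c₁ i)| ≤ 2 * ((m : ℝ) + 7) ∧
      |∑ i ∈ R, (χ i - c₁ i) * w i| ≤ 2 * ((m : ℝ) + 7) * wm ∧
      ∑ a ∈ S, y₀ a * Er z R c₁ χ a ≤ 0 ∧
      ∑ a ∈ S, Er z R c₁ χ a ^ 2 ≤ 16 * ((m : ℝ) + 7) ^ 2 * Xi z S R ∧
      ∀ i ≤ m, ∑ a ∈ flagSet V Λ i, Er z R c₁ χ a ^ 2
        ≤ 8 * 2 ^ i + 16 * ((m : ℝ) + 7) ^ 2 * (Xi z S R + 1) := by
  set hi := S.filter (fun a => 1 ≤ En z R a) with hhi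
  set lo := S.filter (fun a => ¬ 1 ≤ En z R a) with hlo
  set M : ℝ := (m : ℝ) + 7 with hM
  have hM7 : 7 ≤ M := by
    have : (0 : ℝ) ≤ m := Nat.cast_nonneg _
    linarith
  set E := ∑ i ∈ R, ∑ a ∈ lo, z i a ^ 2 with hE
  have hE0 : 0 ≤ E := Finset.sum_nonneg (fun i _ => Finset.sum_nonneg (fun a _ => sq_nonneg _))
  have hXi : Xi z S R = (hi.card : ℝ) + E := by
    have h1 : Xi z S R = ∑ a ∈ hi, min 1 (En z R a) + ∑ a ∈ lo, min 1 (En z R a) := by
      simp only [Xi]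
      rw [hhi, hlo, Finset.sum_filter_add_sum_filter_not]
    have h2 : ∑ a ∈ hi, min 1 (En z R a) = (hi.card : ℝ) := by
      rw [Finset.sum_congr rfl (fun a ha => min_eq_left (Finset.mem_filter.mp ha).2),
        Finset.sum_const, nsmul_eq_mul, mul_one]
    have h3 : ∑ a ∈ lo, min 1 (En z R a) = E := by
      rw [Finset.sum_congr rfl (fun a ha =>
        min_eq_right (le_of_lt (not_le.mp (Finset.mem_filter.mp ha).2)))]
      rw [hE, Finset.sum_comm]
      rfl
    rw [h1, h2, h3]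
  have hB0 : (0 : ℝ) ≤ hi.card := Nat.cast_nonneg _
  have hBXi : (hi.card : ℝ) ≤ Xi z S R := by rw [hXi]; linarith
  set X := chainX hi V Λ m with hX
  set N := chainN hi V Λ m with hN
  have hdisjlo : Disjoint (X 0) lo := by
    rw [Finset.disjoint_left]
    intro a ha hal
    have haS := (Finset.mem_filter.mp hal).1
    have hnot := (Finset.mem_filter.mp hal).2
    simp only [hX, chainX, Nat.zero_le, if_true, Finset.mem_union] at ha
    rcases ha with h | h
    · exact hnot (Finset.mem_filter.mp h).2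
    · exact Finset.disjoint_left.mp hSV haS (flagSet_subset V Λ _ h)
  have hNpos : ∀ t, 0 < N t := fun t => by simp only [hN, chainN]; omega
  obtain ⟨χ, h01, hfix, hcount, hweight, hcross, hXbd, hlobd⟩ := chain_round z R hz c₁ hc₁ N₀ hN₀
    halive lo w wm hwm0 hw (fun a => if a ∈ S then y₀ a else 0) X (chainX_anti hi V Λ m) hdisjlo N
    hNpos (fun t => le_of_eq rfl) (m + 2)
  have hNL : (N (m + 2) : ℝ) = 2 * M := by
    simp only [hN]; rw [chainN_top]
  rw [hNL] at hcount hweight hXbd hlobd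
  refine ⟨χ, h01, hfix, hcount, hweight, ?_, ?_, ?_⟩
  · -- the cross term
    refine le_trans (le_of_eq ?_) hcross
    have h1 : ∑ i ∈ R, (χ i - c₁ i) * ∑ a, (if a ∈ S then y₀ a else 0) * z i a
        = ∑ a, (if a ∈ S then y₀ a else 0) * Er z R c₁ χ a := by
      simp only [Er, Finset.mul_sum]
      rw [Finset.sum_comm]
      refine Finset.sum_congr rfl (fun a _ => Finset.sum_congr rfl (fun i _ => ?_))
      ring
    rw [h1]
    have h2 : ∑ a, (if a ∈ S then y₀ a else 0) * Er z R c₁ χ a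
        = ∑ a ∈ S, (if a ∈ S then y₀ a else 0) * Er z R c₁ χ a := by
      refine (Finset.sum_subset (Finset.subset_univ S) (fun a _ ha => ?_)).symm
      simp [ha]
    rw [h2]
    exact Finset.sum_congr rfl (fun a ha => by simp [ha])
  · -- thin coordinates
    have hsplit : ∑ a ∈ S, Er z R c₁ χ a ^ 2
        = ∑ a ∈ hi, Er z R c₁ χ a ^ 2 + ∑ a ∈ lo, Er z R c₁ χ a ^ 2 := by
      rw [hhi, hlo, Finset.sum_filter_add_sum_filter_not]
    have hhibd : ∑ a ∈ hi, Er z R c₁ χ a ^ 2 ≤ 16 * M ^ 2 * (hi.card : ℝ) := by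
      by_cases hempty : hi = ∅
      · rw [hempty]; simp
      · have hB1 : (1 : ℝ) ≤ hi.card := by
          have : 0 < hi.card := Finset.card_pos.mpr (Finset.nonempty_iff_ne_empty.mpr hempty)
          exact_mod_cast this
        have h1 := hXbd (m + 1) (by omega)
        have h2 : X (m + 1) = hi := by simp [hX, chainX]
        rw [h2] at h1
        have h3 : ∑ τ ∈ Finset.Ico (m + 1) (m + 2), (N τ : ℝ) = 2 * ((hi.card : ℝ) + ((m : ℝ) + 6)) := by
          have : Finset.Ico (m + 1) (m + 2) = {m + 1} := by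
            ext x; simp
          rw [this, Finset.sum_singleton]
          simp only [hN]
          exact chainN_succ hi V Λ m
        rw [h3] at h1
        refine h1.trans ?_
        have h4 : (m : ℝ) + 6 ≤ M := by linarith
        have h5 : M ^ 2 * (hi.card : ℝ) ≥ M ^ 2 := by nlinarith [sq_nonneg M]
        have hM2 : 1 ≤ M ^ 2 := by nlinarith
        have h6 : M ^ 2 * (hi.card : ℝ) ≥ (hi.card : ℝ) := by
          have := mul_le_mul_of_nonneg_right hM2 hB0
          linarith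
        have h7 : M ^ 2 ≥ M := by nlinarith
        have h8 : 2 * (2 * ((hi.card : ℝ) + ((m : ℝ) + 6))) + 2 * (2 * M) ^ 2
            ≤ 4 * (hi.card : ℝ) + 4 * M + 8 * M ^ 2 := by nlinarith
        nlinarith
    have hlobd' : ∑ a ∈ lo, Er z R c₁ χ a ^ 2 ≤ 16 * M ^ 2 * E := by
      refine hlobd.trans ?_
      refine mul_le_mul_of_nonneg_right ?_ hE0
      push_cast
      nlinarith
    rw [hsplit, hXi, mul_add]
    linarith
  · -- flags
    intro i hi'
    have hmi : m - i ≤ m + 2 := by omega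
    have h1 := hXbd (m - i) hmi
    have h2 : X (m - i) = hi ∪ flagSet V Λ i := by
      simp only [hX, chainX]
      have h3 : m - i ≤ m := by omega
      have h4 : m - (m - i) = i := by omega
      simp [h3, h4]
    rw [h2] at h1
    have h3 : ∑ a ∈ flagSet V Λ i, Er z R c₁ χ a ^ 2 ≤ ∑ a ∈ hi ∪ flagSet V Λ i, Er z R c₁ χ a ^ 2 :=
      Finset.sum_le_sum_of_subset_of_nonneg Finset.subset_union_right (fun a _ _ => sq_nonneg _)
    have h4 := sum_chainN_le hi V Λ m i hi'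
    have h5 : (m : ℝ) + 2 ≤ M := by linarith
    have h6 : 0 ≤ (m : ℝ) + 2 := by positivity
    have h7 : 2 * ((m : ℝ) + 2) * ((hi.card : ℝ) + ((m : ℝ) + 7))
        ≤ 2 * M * ((hi.card : ℝ) + M) := by
      rw [← hM]
      have : 0 ≤ (hi.card : ℝ) + M := by linarith
      nlinarith
    have h8 : ∑ τ ∈ Finset.Ico (m - i) (m + 2), (N τ : ℝ)
        ≤ 2 * M * ((hi.card : ℝ) + M) + 4 * 2 ^ i := h4.trans (by linarith)
    have h9 : 2 * (2 * M * ((hi.card : ℝ) + M)) + 2 * (2 * M) ^ 2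
        ≤ 16 * M ^ 2 * ((hi.card : ℝ) + 1) := by
      have : M * (hi.card : ℝ) ≤ M ^ 2 * (hi.card : ℝ) :=
        mul_le_mul_of_nonneg_right (by nlinarith) hB0
      nlinarith
    have h10 : 16 * M ^ 2 * ((hi.card : ℝ) + 1) ≤ 16 * M ^ 2 * (Xi z S R + 1) :=
      mul_le_mul_of_nonneg_left (by linarith) (by positivity)
    linarith

end RoundRest

end Vale.Agent.Lib.P262
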