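import Mathlib

/-!
Rounding lemma: a fractional combination of vectors in the unit ball of a `k`-dimensional
Euclidean space can be rounded to a subset sum with squared error at most `k / 4`.
-/

namespace Vale.Agent.Lib.P262

open Module

variable {ι : Type} {E : Type} [NormedAddCommGroup E] [InnerProductSpace ℝ E]

/-- One-coordinate rounding of a set of fractional coordinates: the error is at most
the variance. -/
lemma exists_round_aux [DecidableEq ι] (g : ι → E) (c : ι → ℝ) (F : Finset ι)
    (hc : ∀ i ∈ F, 0 ≤ c i ∧ c i ≤ 1) :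
    ∃ S ⊆ F, ‖∑ i ∈ F, c i • g i - ∑ i ∈ S, g i‖ ^ 2 ≤ ∑ i ∈ F, c i * (1 - c i) * ‖g i‖ ^ 2 := by
  induction F using Finset.induction_on with
  | empty => exact ⟨∅, subset_rfl, by simp⟩
  | insert a F ha ih =>
    obtain ⟨S, hSF, hS⟩ := ih (fun i hi => hc i (Finset.mem_insert_of_mem hi))
    have hca := hc a (Finset.mem_insert_self a F)
    set X := ∑ i ∈ F, c i • g i - ∑ i ∈ S, g i with hX
    have haS : a ∉ S := fun h => ha (hSF h)
    -- the weighted identity
    have key : c a * ‖X + (c a - 1) • g a‖ ^ 2 + (1 - c a) * ‖X + c a • g a‖ ^ 2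
        = ‖X‖ ^ 2 + c a * (1 - c a) * ‖g a‖ ^ 2 := by
      have h1 : ‖X + (c a - 1) • g a‖ ^ 2
          = ‖X‖ ^ 2 + 2 * (c a - 1) * inner ℝ X (g a) + (c a - 1) ^ 2 * ‖g a‖ ^ 2 := by
        rw [norm_add_sq_real, real_inner_smul_right, norm_smul, mul_pow, Real.norm_eq_abs, sq_abs]
        ring
      have h2 : ‖X + c a • g a‖ ^ 2
          = ‖X‖ ^ 2 + 2 * c a * inner ℝ X (g a) + c a ^ 2 * ‖g a‖ ^ 2 := by
        rw [norm_add_sq_real, real_inner_smul_right, norm_smul, mul_pow, Real.norm_eq_abs, sq_abs]
        ring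
      rw [h1, h2]; ring
    have hsum : ∑ i ∈ insert a F, c i * (1 - c i) * ‖g i‖ ^ 2
        = c a * (1 - c a) * ‖g a‖ ^ 2 + ∑ i ∈ F, c i * (1 - c i) * ‖g i‖ ^ 2 :=
      Finset.sum_insert ha
    have hsum2 : ∑ i ∈ insert a F, c i • g i = c a • g a + ∑ i ∈ F, c i • g i :=
      Finset.sum_insert ha
    by_cases hchoice : ‖X + (c a - 1) • g a‖ ^ 2 ≤ ‖X + c a • g a‖ ^ 2
    · -- include `a`
      refine ⟨insert a S, Finset.insert_subset_insert a hSF, ?_⟩
      have e1 : ∑ i ∈ insert a F, c i • g i - ∑ i ∈ insert a S, g i = X + (c a - 1) • g a := by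
        rw [hsum2, Finset.sum_insert haS, hX, sub_smul, one_smul]; abel
      rw [e1, hsum]
      have : ‖X + (c a - 1) • g a‖ ^ 2 ≤ ‖X‖ ^ 2 + c a * (1 - c a) * ‖g a‖ ^ 2 := by
        rw [← key]
        nlinarith [hca.1, hca.2, sq_nonneg ‖X + (c a - 1) • g a‖]
      linarith
    · -- exclude `a`
      refine ⟨S, fun i hi => Finset.mem_insert_of_mem (hSF hi), ?_⟩
      have e1 : ∑ i ∈ insert a F, c i • g i - ∑ i ∈ S, g i = X + c a • g a := by
        rw [hsum2, hX]; abel
      rw [e1, hsum]
      have : ‖X + c a • g a‖ ^ 2 ≤ ‖X‖ ^ 2 + c a * (1 - c a) * ‖g a‖ ^ 2 := by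
        rw [← key]
        push Not at hchoice
        nlinarith [hca.1, hca.2, sq_nonneg ‖X + c a • g a‖]
      linarith

/-- Reduction of the number of fractional coordinates down to the dimension. -/
lemma exists_few_fractional [FiniteDimensional ℝ E] [DecidableEq ι] (g : ι → E) (s : Finset ι)
    (n : ℕ) : ∀ c : ι → ℝ, (∀ i ∈ s, 0 ≤ c i ∧ c i ≤ 1) →
    (s.filter (fun i => 0 < c i ∧ c i < 1)).card = n →
    ∃ c' : ι → ℝ, (∀ i ∈ s, 0 ≤ c' i ∧ c' i ≤ 1) ∧
      ∑ i ∈ s, c' i • g i = ∑ i ∈ s, c i • g i ∧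
      (s.filter (fun i => 0 < c' i ∧ c' i < 1)).card ≤ finrank ℝ E := by
  induction n using Nat.strong_induction_on with
  | _ n ih =>
    intro c hc hn
    by_cases hcard : n ≤ finrank ℝ E
    · exact ⟨c, hc, rfl, by omega⟩
    push Not at hcard
    set F := s.filter (fun i => 0 < c i ∧ c i < 1) with hF
    -- a linear dependency among the fractional vectors
    have hdep : ¬ LinearIndependent ℝ (fun i : F => g i) := by
      intro hli
      have := hli.fintype_card_le_finrank
      rw [Fintype.card_coe] at this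
      omega
    rw [Fintype.not_linearIndependent_iff] at hdep
    obtain ⟨y0, hy0, ⟨j0, hj0⟩⟩ := hdep
    -- extend by zero
    let y : ι → ℝ := fun i => if h : i ∈ F then y0 ⟨i, h⟩ else 0
    have hyF : ∑ i ∈ F, y i • g i = 0 := by
      rw [← hy0, ← Finset.sum_coe_sort F]
      refine Finset.sum_congr rfl (fun i _ => ?_)
      simp [y]
    have hyout : ∀ i, i ∉ F → y i = 0 := fun i hi => by simp [y, hi]
    have hj0F : (j0 : ι) ∈ F := j0.2
    have hyj0 : y j0 ≠ 0 := by simpa [y] using hj0
    -- the step size to the first coordinate hitting the boundary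
    let t : ι → ℝ := fun i => if 0 < y i then (1 - c i) / y i else c i / (- y i)
    let N := F.filter (fun i => y i ≠ 0)
    have hNne : N.Nonempty := ⟨j0, by simp [N, hj0F, hyj0]⟩
    obtain ⟨i0, hi0N, hi0min⟩ := Finset.exists_min_image N t hNne
    have hi0F : i0 ∈ F := (Finset.mem_filter.mp hi0N).1
    have hyi0 : y i0 ≠ 0 := (Finset.mem_filter.mp hi0N).2
    set ε := t i0 with hε
    have hfrac : ∀ i ∈ F, 0 < c i ∧ c i < 1 := fun i hi => (Finset.mem_filter.mp hi).2
    have htpos : ∀ i ∈ N, 0 < t i := by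
      intro i hi
      have hiF := (Finset.mem_filter.mp hi).1
      have hyi := (Finset.mem_filter.mp hi).2
      have hf := hfrac i hiF
      by_cases hp : 0 < y i
      · simp only [t, hp, if_true]
        exact div_pos (by linarith [hf.2]) hp
      · simp only [t, hp, if_false]
        have : y i < 0 := lt_of_le_of_ne (not_lt.mp hp) hyi
        exact div_pos hf.1 (by linarith)
    have hεpos : 0 < ε := htpos i0 hi0N
    let c' : ι → ℝ := fun i => c i + ε * y i
    have hc'range : ∀ i ∈ s, 0 ≤ c' i ∧ c' i ≤ 1 := by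
      intro i hi
      by_cases hiF : i ∈ F
      · by_cases hyi : y i = 0
        · have := hc i hi
          simpa [c', hyi] using this
        · have hiN : i ∈ N := Finset.mem_filter.mpr ⟨hiF, hyi⟩
          have hle := hi0min i hiN
          have hf := hfrac i hiF
          by_cases hp : 0 < y i
          · have hti : t i = (1 - c i) / y i := by simp [t, hp]
            have : ε * y i ≤ 1 - c i := by
              rw [hti] at hle
              have := mul_le_mul_of_nonneg_right hle hp.le
              rwa [div_mul_cancel₀ _ hp.ne'] at this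
            constructor
            · simp only [c']; nlinarith [hf.1]
            · simp only [c']; linarith
          · have hn : y i < 0 := lt_of_le_of_ne (not_lt.mp hp) hyi
            have hti : t i = c i / (- y i) := by simp [t, hp]
            have hny : 0 < - y i := by linarith
            have : ε * (- y i) ≤ c i := by
              rw [hti] at hle
              have := mul_le_mul_of_nonneg_right hle hny.le
              rwa [div_mul_cancel₀ _ hny.ne'] at this
            constructor
            · simp only [c']; linarith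
            · simp only [c']; nlinarith [hf.2]
      · have := hc i hi
        simpa [c', hyout i hiF] using this
    have hc'sum : ∑ i ∈ s, c' i • g i = ∑ i ∈ s, c i • g i := by
      have hsplit : ∑ i ∈ s, c' i • g i = ∑ i ∈ s, c i • g i + ε • ∑ i ∈ s, y i • g i := by
        simp only [c', add_smul, Finset.sum_add_distrib, Finset.smul_sum, mul_smul]
      have hzero : ∑ i ∈ s, y i • g i = 0 := by
        have hsub : F ⊆ s := Finset.filter_subset _ _
        rw [← Finset.sum_subset hsub (fun i _ hi => by simp [hyout i hi])]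
        exact hyF
      rw [hsplit, hzero, smul_zero, add_zero]
    -- the fractional set strictly shrinks
    have hsub : s.filter (fun i => 0 < c' i ∧ c' i < 1) ⊂ F := by
      refine Finset.ssubset_iff_subset_ne.mpr ⟨?_, ?_⟩
      · intro i hi
        obtain ⟨his, hi1, hi2⟩ := Finset.mem_filter.mp hi
        by_contra hiF
        have : c' i = c i := by simp [c', hyout i hiF]
        rw [this] at hi1 hi2
        exact hiF (Finset.mem_filter.mpr ⟨his, hi1, hi2⟩)
      · intro heq
        have hmem : i0 ∈ s.filter (fun i => 0 < c' i ∧ c' i < 1) := by rw [heq]; exact hi0F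
        obtain ⟨_, h1, h2⟩ := Finset.mem_filter.mp hmem
        by_cases hp : 0 < y i0
        · have hti : ε = (1 - c i0) / y i0 := by simp [hε, t, hp]
          have : c' i0 = 1 := by
            simp only [c']; rw [hti]; field_simp; ring
          linarith
        · have hn : y i0 < 0 := lt_of_le_of_ne (not_lt.mp hp) hyi0
          have hti : ε = c i0 / (- y i0) := by simp [hε, t, hp]
          have hny : - y i0 ≠ 0 := by linarith
          have : c' i0 = 0 := by
            simp only [c']; rw [hti]; field_simp; ring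
          linarith
    have hlt := Finset.card_lt_card hsub
    obtain ⟨c'', h1, h2, h3⟩ := ih _ (by rw [← hn]; exact hlt) c' hc'range rfl
    exact ⟨c'', h1, h2.trans hc'sum, h3⟩

/-- **Rounding lemma.** -/
theorem exists_round [FiniteDimensional ℝ E] [DecidableEq ι] (g : ι → E) (hg : ∀ i, ‖g i‖ ≤ 1)
    (s : Finset ι) (c : ι → ℝ) (hc : ∀ i ∈ s, 0 ≤ c i ∧ c i ≤ 1) :
    ∃ S ⊆ s, ‖∑ i ∈ s, c i • g i - ∑ i ∈ S, g i‖ ^ 2 ≤ (finrank ℝ E : ℝ) / 4 := by
  obtain ⟨c', hc', hsum, hcard⟩ := exists_few_fractional g s _ c hc rfl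
  set F := s.filter (fun i => 0 < c' i ∧ c' i < 1) with hF
  set O := s.filter (fun i => c' i = 1) with hO
  have hFs : F ⊆ s := Finset.filter_subset _ _
  have hOs : O ⊆ s := Finset.filter_subset _ _
  obtain ⟨S, hSF, hS⟩ := exists_round_aux g c' F (fun i hi => hc' i (hFs hi))
  have hdisj : Disjoint O F := by
    rw [Finset.disjoint_left]
    intro i hi hi'
    have h1 := (Finset.mem_filter.mp hi).2
    have h2 := (Finset.mem_filter.mp hi').2.2
    linarith
  refine ⟨O ∪ S, Finset.union_subset hOs (hSF.trans hFs), ?_⟩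
  -- decomposition of the fractional sum
  have hdecomp : ∑ i ∈ s, c' i • g i = ∑ i ∈ O, g i + ∑ i ∈ F, c' i • g i := by
    have hOF : O ∪ F ⊆ s := Finset.union_subset hOs hFs
    rw [← Finset.sum_subset hOF, Finset.sum_union hdisj]
    · congr 1
      refine Finset.sum_congr rfl (fun i hi => ?_)
      rw [(Finset.mem_filter.mp hi).2, one_smul]
    · intro i his hi
      have h0 := hc' i his
      have hnO : ¬ c' i = 1 := fun h =>
        hi (Finset.mem_union_left _ (Finset.mem_filter.mpr ⟨his, h⟩))
      have hnF : ¬ (0 < c' i ∧ c' i < 1) := fun h =>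
        hi (Finset.mem_union_right _ (Finset.mem_filter.mpr ⟨his, h⟩))
      have : c' i = 0 := by
        by_contra hne
        have h1 : 0 < c' i := lt_of_le_of_ne h0.1 (Ne.symm hne)
        have h2 : c' i < 1 := lt_of_le_of_ne h0.2 hnO
        exact hnF ⟨h1, h2⟩
      rw [this, zero_smul]
  have hdisj2 : Disjoint O S := hdisj.mono_right hSF
  have herr : ∑ i ∈ s, c i • g i - ∑ i ∈ O ∪ S, g i = ∑ i ∈ F, c' i • g i - ∑ i ∈ S, g i := by
    rw [← hsum, hdecomp, Finset.sum_union hdisj2]; abel
  rw [herr]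
  refine hS.trans ?_
  have hbound : ∑ i ∈ F, c' i * (1 - c' i) * ‖g i‖ ^ 2 ≤ ∑ _i ∈ F, (1 : ℝ) / 4 := by
    refine Finset.sum_le_sum (fun i hi => ?_)
    have h0 := hc' i (hFs hi)
    have h1 : ‖g i‖ ^ 2 ≤ 1 := by
      have := hg i
      nlinarith [norm_nonneg (g i)]
    have h2 : c' i * (1 - c' i) ≤ 1 / 4 := by nlinarith [sq_nonneg (c' i - 1 / 2)]
    have h3 : 0 ≤ c' i * (1 - c' i) := mul_nonneg h0.1 (by linarith [h0.2])
    calc c' i * (1 - c' i) * ‖g i‖ ^ 2 ≤ c' i * (1 - c' i) * 1 :=
          mul_le_mul_of_nonneg_left h1 h3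
      _ ≤ 1 / 4 := by linarith
  refine hbound.trans ?_
  rw [Finset.sum_const, nsmul_eq_mul]
  have hc2 : (F.card : ℝ) ≤ finrank ℝ E := by exact_mod_cast hcard
  linarith

end Vale.Agent.Lib.P262
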