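import Vale.Agent.Lib.P262.Round

/-!
Selection lemmas: pointed subfamilies (from minimal support) and nearest points of zonotopes.
-/

namespace Vale.Agent.Lib.P262

open Module

variable {ι : Type} {E : Type} [NormedAddCommGroup E] [InnerProductSpace ℝ E]

/-- A finite family with no nonnegative linear relation lies in an open half-space. -/
lemma exists_pointed [FiniteDimensional ℝ E] [DecidableEq ι] (f : ι → E) (T : Finset ι)
    (hne : T.Nonempty)
    (hrel : ∀ y : ι → ℝ, (∀ i ∈ T, 0 ≤ y i) → ∑ i ∈ T, y i • f i = 0 → ∀ i ∈ T, y i = 0) :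
    ∃ w : E, ‖w‖ = 1 ∧ ∀ i ∈ T, 0 < inner ℝ w (f i) := by
  classical
  -- the convex set of convex combinations
  let L : (T → ℝ) →ₗ[ℝ] E := Fintype.linearCombination ℝ (fun i : T => f i)
  have hL : ∀ y, L y = ∑ i : T, y i • f i := fun y => by
    simp [L, Fintype.linearCombination_apply]
  let K : Set E := L '' stdSimplex ℝ T
  have hKconv : Convex ℝ K := (convex_stdSimplex ℝ T).linear_image L
  have hKcomp : IsCompact K :=
    (isCompact_stdSimplex ℝ T).image L.continuous_of_finiteDimensional
  obtain ⟨j0, hj0⟩ := hne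
  have hKne : K.Nonempty :=
    ⟨L (Pi.single (⟨j0, hj0⟩ : T) 1), _, single_mem_stdSimplex ℝ _, rfl⟩
  obtain ⟨v, hvK, hv⟩ := exists_norm_eq_iInf_of_complete_convex hKne hKcomp.isComplete hKconv (0 : E)
  have hineq := (norm_eq_iInf_iff_real_inner_le_zero hKconv hvK).mp hv
  -- values of the family belong to `K`
  have hfK : ∀ i ∈ T, f i ∈ K := by
    intro i hi
    refine ⟨Pi.single (⟨i, hi⟩ : T) 1, ?_, ?_⟩
    · exact single_mem_stdSimplex ℝ _
    · rw [hL]
      rw [Finset.sum_eq_single (⟨i, hi⟩ : T)]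
      · simp
      · intro b _ hb; simp [Pi.single_eq_of_ne hb]
      · simp
  by_cases hv0 : v = 0
  · -- a nonnegative relation, contradiction
    exfalso
    obtain ⟨y, hy, hyv⟩ := hvK
    let y' : ι → ℝ := fun i => if h : i ∈ T then y ⟨i, h⟩ else 0
    have hy'nn : ∀ i ∈ T, 0 ≤ y' i := fun i hi => by simp [y', hi, hy.1]
    have hy'sum : ∑ i ∈ T, y' i • f i = 0 := by
      rw [← Finset.sum_coe_sort T]
      have : ∑ i : T, y' i • f i = L y := by
        rw [hL]; refine Finset.sum_congr rfl (fun i _ => ?_); simp [y']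
      rw [this, hyv, hv0]
    have hzero := hrel y' hy'nn hy'sum
    have hone : ∑ i : T, y i = 1 := hy.2
    have hallzero : ∀ i : T, y i = 0 := fun i => by
      have := hzero i i.2
      simpa [y'] using this
    simp [hallzero] at hone
  · refine ⟨(‖v‖⁻¹) • v, ?_, ?_⟩
    · rw [norm_smul, norm_inv, norm_norm]; exact inv_mul_cancel₀ (norm_ne_zero_iff.mpr hv0)
    · intro i hi
      have h1 := hineq (f i) (hfK i hi)
      have h2 : inner ℝ v (f i) ≥ ‖v‖ ^ 2 := by
        have : inner ℝ (0 - v) (f i - v) = - inner ℝ v (f i) + ‖v‖ ^ 2 := by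
          rw [zero_sub, inner_neg_left, inner_sub_right, real_inner_self_eq_norm_sq]; ring
        rw [this] at h1; linarith
      have hvpos : 0 < ‖v‖ := norm_pos_iff.mpr hv0
      rw [real_inner_smul_left]
      have : 0 < ‖v‖ ^ 2 := by positivity
      have h3 : 0 < inner ℝ v (f i) := by linarith
      positivity

/-- Minimal support solution of the zero-target problem gives a pointed support. -/
lemma exists_pointed_solution [FiniteDimensional ℝ E] [DecidableEq ι] (f : ι → E) (s : Finset ι)
    (P : E) (c0 : ι → ℝ) (hc0 : ∀ i ∈ s, 0 ≤ c0 i ∧ c0 i ≤ 1)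
    (hc0P : P + ∑ i ∈ s, c0 i • f i = 0) :
    ∃ c : ι → ℝ, (∀ i ∈ s, 0 ≤ c i ∧ c i ≤ 1) ∧ P + ∑ i ∈ s, c i • f i = 0 ∧
      ∀ y : ι → ℝ, (∀ i ∈ s.filter (fun i => c i ≠ 0), 0 ≤ y i) →
        ∑ i ∈ s.filter (fun i => c i ≠ 0), y i • f i = 0 →
        ∀ i ∈ s.filter (fun i => c i ≠ 0), y i = 0 := by
  classical
  -- minimal support size
  let Q : ℕ → Prop := fun n => ∃ c : ι → ℝ, (∀ i ∈ s, 0 ≤ c i ∧ c i ≤ 1) ∧
    P + ∑ i ∈ s, c i • f i = 0 ∧ (s.filter (fun i => c i ≠ 0)).card = n
  have hQ : ∃ n, Q n := ⟨_, c0, hc0, hc0P, rfl⟩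
  obtain ⟨c, hc, hcP, hcard⟩ := Nat.find_spec hQ
  refine ⟨c, hc, hcP, ?_⟩
  intro y hy hyrel i hi
  by_contra hyi
  set T := s.filter (fun i => c i ≠ 0) with hT
  have hTs : T ⊆ s := Finset.filter_subset _ _
  -- indices with positive `y`
  let N := T.filter (fun i => y i ≠ 0)
  have hNne : N.Nonempty := ⟨i, Finset.mem_filter.mpr ⟨hi, hyi⟩⟩
  let t : ι → ℝ := fun i => c i / y i
  obtain ⟨i0, hi0N, hi0min⟩ := Finset.exists_min_image N t hNne
  have hi0T : i0 ∈ T := (Finset.mem_filter.mp hi0N).1
  have hypos : ∀ j ∈ N, 0 < y j := fun j hj =>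
    lt_of_le_of_ne (hy j (Finset.mem_filter.mp hj).1) (Ne.symm (Finset.mem_filter.mp hj).2)
  have hcpos : ∀ j ∈ T, 0 < c j := fun j hj =>
    lt_of_le_of_ne (hc j (hTs hj)).1 (Ne.symm (Finset.mem_filter.mp hj).2)
  set ε := t i0 with hε
  have hεpos : 0 < ε := div_pos (hcpos i0 hi0T) (hypos i0 hi0N)
  -- the new solution
  let c' : ι → ℝ := fun j => if j ∈ T then c j - ε * y j else c j
  have hc'range : ∀ j ∈ s, 0 ≤ c' j ∧ c' j ≤ 1 := by
    intro j hj
    by_cases hjT : j ∈ T
    · simp only [c', hjT, if_true]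
      have hyj := hy j hjT
      constructor
      · by_cases hy0 : y j = 0
        · simp [hy0, (hc j hj).1]
        · have hjN : j ∈ N := Finset.mem_filter.mpr ⟨hjT, hy0⟩
          have hle := hi0min j hjN
          have hyjp := hypos j hjN
          have : ε * y j ≤ c j := by
            have h1 := mul_le_mul_of_nonneg_right hle hyjp.le
            simpa [t, div_mul_cancel₀ _ hyjp.ne'] using h1
          linarith
      · nlinarith [(hc j hj).2, hεpos.le]
    · simp only [c', hjT, if_false]; exact hc j hj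
  have hc'P : P + ∑ j ∈ s, c' j • f j = 0 := by
    have h1 : ∑ j ∈ s, c' j • f j = ∑ j ∈ s, c j • f j - ε • ∑ j ∈ T, y j • f j := by
      have h2 : ∑ j ∈ s, c' j • f j
          = ∑ j ∈ s, (c j • f j - (if j ∈ T then (ε * y j) • f j else 0)) := by
        refine Finset.sum_congr rfl (fun j _ => ?_)
        by_cases hjT : j ∈ T
        · simp [c', hjT, sub_smul]
        · simp [c', hjT]
      rw [h2, Finset.sum_sub_distrib]
      congr 1
      rw [Finset.sum_ite_mem, Finset.inter_eq_right.mpr hTs, Finset.smul_sum]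
      exact Finset.sum_congr rfl (fun j _ => mul_smul _ _ _)
    rw [h1, hyrel, smul_zero, sub_zero, hcP]
  -- strictly smaller support
  have hsub : s.filter (fun j => c' j ≠ 0) ⊂ T := by
    refine Finset.ssubset_iff_subset_ne.mpr ⟨?_, ?_⟩
    · intro j hj
      obtain ⟨hjs, hj0⟩ := Finset.mem_filter.mp hj
      by_contra hjT
      apply hjT
      refine Finset.mem_filter.mpr ⟨hjs, ?_⟩
      simpa [c', hjT] using hj0
    · intro heq
      have hmem : i0 ∈ s.filter (fun j => c' j ≠ 0) := by rw [heq]; exact hi0T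
      have hne : c' i0 ≠ 0 := (Finset.mem_filter.mp hmem).2
      apply hne
      have hyp := hypos i0 hi0N
      simp only [c', hi0T, if_true, hε, t]
      field_simp
      ring
  have hlt := Finset.card_lt_card hsub
  have hcardT : T.card = Nat.find hQ := hcard
  have hmin := Nat.find_min hQ (m := (s.filter (fun j => c' j ≠ 0)).card) (by omega)
  exact hmin ⟨c', hc'range, hc'P, rfl⟩

/-- Nearest point of a zonotope, with its first-order conditions. -/
lemma exists_nearest [FiniteDimensional ℝ E] {I : Type} [Fintype I] [DecidableEq I] (f : I → E)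
    (P : E) : ∃ c : I → ℝ, (∀ i, 0 ≤ c i ∧ c i ≤ 1) ∧
      (∀ i, 0 < c i → inner ℝ (P + ∑ j, c j • f j) (f i) ≤ 0) ∧
      (∀ i, c i < 1 → 0 ≤ inner ℝ (P + ∑ j, c j • f j) (f i)) := by
  let L : (I → ℝ) →ₗ[ℝ] E := Fintype.linearCombination ℝ f
  have hL : ∀ y, L y = ∑ i, y i • f i := fun y => by
    simp [L, Fintype.linearCombination_apply]
  let cube : Set (I → ℝ) := Set.pi Set.univ (fun _ => Set.Icc (0 : ℝ) 1)
  have hcubec : IsCompact cube := isCompact_univ_pi (fun _ => isCompact_Icc)
  have hcubeconv : Convex ℝ cube := convex_pi (fun _ _ => convex_Icc 0 1)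
  let T : (I → ℝ) → E := fun y => P + L y
  let K : Set E := (fun x => P + x) '' (L '' cube)
  have hKconv : Convex ℝ K := ((hcubeconv.linear_image L).translate P)
  have hKcomp : IsCompact K :=
    ((hcubec.image L.continuous_of_finiteDimensional).image (continuous_const.add continuous_id))
  have hKne : K.Nonempty :=
    ⟨P + L 0, L 0, ⟨0, fun i _ => by simp, rfl⟩, rfl⟩
  obtain ⟨v, hvK, hv⟩ := exists_norm_eq_iInf_of_complete_convex hKne hKcomp.isComplete hKconv (0 : E)
  have hineq := (norm_eq_iInf_iff_real_inner_le_zero hKconv hvK).mp hv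
  obtain ⟨_, ⟨c, hc, rfl⟩, rfl⟩ := hvK
  have hcr : ∀ i, 0 ≤ c i ∧ c i ≤ 1 := fun i => by
    have := hc i (Set.mem_univ i); simpa using this
  refine ⟨c, hcr, ?_, ?_⟩
  all_goals rw [← hL]
  · intro i hi
    -- move coordinate `i` down to zero
    let c' : I → ℝ := Function.update c i 0
    have hc' : c' ∈ cube := by
      intro j _
      by_cases hj : j = i
      · subst hj; simp [c']
      · simp only [c', Function.update_of_ne hj]; exact hc j (Set.mem_univ j)
    have hdiff : L c' = L c - c i • f i := by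
      simp only [hL]
      rw [← Finset.add_sum_erase _ _ (Finset.mem_univ i), ← Finset.add_sum_erase (a := i) _ (fun j => c j • f j) (Finset.mem_univ i)]
      have : ∑ x ∈ Finset.univ.erase i, c' x • f x = ∑ x ∈ Finset.univ.erase i, c x • f x := by
        refine Finset.sum_congr rfl (fun j hj => ?_)
        simp [c', Function.update_of_ne (Finset.ne_of_mem_erase hj)]
      rw [this]
      simp [c']
    have h1 := hineq (P + L c') ⟨L c', ⟨c', hc', rfl⟩, rfl⟩
    have h2 : (P + L c') - (P + L c) = - (c i • f i) := by rw [hdiff]; abel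
    rw [h2, zero_sub, inner_neg_neg, real_inner_smul_right] at h1
    by_contra hcon
    push Not at hcon
    have := mul_pos hi hcon
    linarith
  · intro i hi
    let c' : I → ℝ := Function.update c i 1
    have hc' : c' ∈ cube := by
      intro j _
      by_cases hj : j = i
      · subst hj; simp [c']
      · simp only [c', Function.update_of_ne hj]; exact hc j (Set.mem_univ j)
    have hdiff : L c' = L c + (1 - c i) • f i := by
      simp only [hL]
      rw [← Finset.add_sum_erase _ _ (Finset.mem_univ i), ← Finset.add_sum_erase (a := i) _ (fun j => c j • f j) (Finset.mem_univ i)]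
      have : ∑ x ∈ Finset.univ.erase i, c' x • f x = ∑ x ∈ Finset.univ.erase i, c x • f x := by
        refine Finset.sum_congr rfl (fun j hj => ?_)
        simp [c', Function.update_of_ne (Finset.ne_of_mem_erase hj)]
      rw [this]
      simp only [c', Function.update_self, sub_smul, one_smul]
      abel
    have h1 := hineq (P + L c') ⟨L c', ⟨c', hc', rfl⟩, rfl⟩
    have h2 : (P + L c') - (P + L c) = (1 - c i) • f i := by rw [hdiff]; abel
    rw [h2, zero_sub, inner_neg_left, real_inner_smul_right] at h1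
    have hpos : 0 < 1 - c i := by linarith
    by_contra hcon
    push Not at hcon
    have := mul_neg_of_pos_of_neg hpos hcon
    linarith

end Vale.Agent.Lib.P262
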