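import Vale.Agent.Lib.P262.Facts

namespace Vale.Agent.Lib.P262

open Finset

section Split

variable {ι D : Type} [DecidableEq ι] [Fintype D] [DecidableEq D]

/-- Closing the norm invariant for a child. -/
lemma T_close2 {z : ι → D → ℝ} {Λ : D → ℝ} (hΛ : ∀ a, 0 ≤ Λ a) (p : Par (Fintype.card D))
    {j : ℕ} {s C : Finset ι} (hC : C ⊆ s) {P P' M l : D → ℝ}
    (hP : TT z Λ p.μ p.K p.β₁ p.β₂ p.κ j s P) (hP' : TT z Λ p.μ p.K p.β₁ p.β₂ p.κ j s P')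
    {pay : ℝ} (hpay0 : 0 ≤ pay)
    (hpay : pay ≤ ∑ i ∈ s \ C, wt z p.K (Th Λ p.μ j) s i)
    (hQ : ∀ k, j + 1 ≤ k → ∑ a ∈ Th Λ p.μ j, (M a - l a) ^ 2
        + ∑ a ∈ Th Λ p.μ k \ Th Λ p.μ j, M a ^ 2
      ≤ ∑ a ∈ Th Λ p.μ j, ((P a + P' a) / 2) ^ 2 + (p.β₁ * pay
        + p.β₂ * ((Th Λ p.μ k \ Th Λ p.μ j).card : ℝ)))
    (hleak : ∑ a ∈ Th Λ p.μ j, l a ^ 2 ≤ (Lb p.κ Λ p.μ (j + 1) - Lb p.κ Λ p.μ j) ^ 2) :
    TT z Λ p.μ p.K p.β₁ p.β₂ p.κ (j + 1) C M := by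
  intro k hk
  have hβ₁ := p.β₁_pos
  have hβ₂ := p.β₂_pos
  have hcard0 : (0 : ℝ) ≤ ((Th Λ p.μ k \ Th Λ p.μ j).card : ℝ) := Nat.cast_nonneg _
  have hPsi0 := Psi_nonneg z p.K (Th Λ p.μ j) s
  refine T_close hΛ p.μ_pos.le p.hκ0 hk ?_ hP hP' ?_ (hQ k hk) ?_ hleak
  · have : (0 : ℝ) ≤ ((Th Λ p.μ j).card : ℝ) := Nat.cast_nonneg _
    positivity
  · positivity
  · have h1 := Psi_pay z p.K (Th_mono hΛ p.μ (Nat.le_succ j)) hC
    have h2 : ((Th Λ p.μ k).card : ℝ)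
        = ((Th Λ p.μ j).card : ℝ) + ((Th Λ p.μ k \ Th Λ p.μ j).card : ℝ) := by
      have hsub : Th Λ p.μ j ⊆ Th Λ p.μ k := Th_mono hΛ p.μ (by omega)
      rw [← Finset.card_sdiff_add_card_eq_card hsub]
      push_cast
      ring
    rw [h2]
    have h3 : Psi z p.K (Th Λ p.μ j) s + pay ≤ Psi z p.K (Th Λ p.μ (j + 1)) C := by linarith
    have h4 := mul_le_mul_of_nonneg_left h3 hβ₁.le
    nlinarith

/-- Bound on the matrix step. -/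
lemma OO_child' {z : ι → D → ℝ} (hz : ∀ i, ∑ a, z i a ^ 2 ≤ 1) {Λ : D → ℝ} (hΛ : ∀ a, 0 ≤ Λ a)
    (p : Par (Fintype.card D)) {j : ℕ} {s C : Finset ι} (hO : OO z Λ p.A p.A j s)
    {F₀ : D × D → ℝ} {σ : ℝ} (hσ : σ = 1 ∨ σ = -1) {X Y : Finset ι} (hXY : X.card + Y.card ≤ 2)
    (hF₀ : ∑ q : D × D, (sw (gg Λ p.A j) q * F₀ q) ^ 2
      ≤ (9 / 8 * ((Fintype.card D : ℝ) + 1) + 1) ^ 2)
    (hC : ∀ q, Gm z C q - (1 / 2) * Gm z s q = σ * F₀ q + (1 / 2) * Gm z X q - (1 / 2) * Gm z Y q) :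
    OO z Λ p.A p.A (j + 1) C := by
  have hApos := p.A_pos
  have hd := p.d_ge
  have hAeq := p.hA
  have hB₀ : 0 ≤ 9 / 8 * ((Fintype.card D : ℝ) + 1) + 1 := by positivity
  have h1 := hs_child hz (gg_pos hΛ hApos j) hApos (gg_ge hΛ hApos j) hB₀ hσ X Y hXY hF₀
  refine OO_child hΛ hApos hO _ (b := 9 / 8 * ((Fintype.card D : ℝ) + 1) + 1 + 1 / p.A)
    (by positivity) ?_ hC h1
  have h2 : 1 / p.A ≤ 1 / 20 := one_div_le_one_div_of_le (by norm_num) p.A_ge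
  rw [hAeq] at h2 ⊢
  nlinarith

/-- One split of a node: the conclusion holds under the stated pay conditions. -/
theorem split_step {z : ι → D → ℝ} (hz : ∀ i, ∑ a, z i a ^ 2 ≤ 1) {Λ : D → ℝ}
    (hΛ : ∀ a, 0 ≤ Λ a) (p : Par (Fintype.card D)) {j : ℕ} {s R X Y : Finset ι} {P : D → ℝ}
    (hInv : Inv z Λ p j s P) (hRs : R ⊆ s) (hXY : Disjoint X Y) (hU : X ∪ Y = s \ R)
    (hcard : X.card + Y.card ≤ 2) (w : ι → ℝ) (wm : ℝ) (hwm0 : 0 ≤ wm)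
    (hw : ∀ i ∈ R, 0 ≤ w i ∧ w i ≤ wm) :
    ∃ Ar Br : Finset ι, Ar ⊆ R ∧ Br = R \ Ar ∧
      7 / 16 * (R.card : ℝ) - 2 * ((p.m : ℝ) + 7) ≤ (Ar.card : ℝ) ∧
      7 / 16 * (R.card : ℝ) - 2 * ((p.m : ℝ) + 7) ≤ (Br.card : ℝ) ∧
      7 / 16 * ∑ i ∈ R, w i - 2 * ((p.m : ℝ) + 7) * wm ≤ ∑ i ∈ Ar, w i ∧
      7 / 16 * ∑ i ∈ R, w i - 2 * ((p.m : ℝ) + 7) * wm ≤ ∑ i ∈ Br, w i ∧
      ((∑ a ∈ Th Λ p.μ j, ((P a + (P a + ∑ i ∈ s, z i a)) / 2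
            + ((1 / 2) * ∑ i ∈ X, z i a - (1 / 2) * ∑ i ∈ Y, z i a)) ^ 2
          + 32 * ((p.m : ℝ) + 7) ^ 2 * Xi z (Th Λ p.μ j) R
          ≤ ∑ a ∈ Th Λ p.μ j, ((P a + (P a + ∑ i ∈ s, z i a)) / 2) ^ 2
            + p.β₁ * ∑ i ∈ s \ (Ar ∪ X), wt z p.K (Th Λ p.μ j) s i) →
       (∑ a ∈ Th Λ p.μ j, ((P a + (P a + ∑ i ∈ s, z i a)) / 2
            + ((1 / 2) * ∑ i ∈ X, z i a - (1 / 2) * ∑ i ∈ Y, z i a)) ^ 2
          + 32 * ((p.m : ℝ) + 7) ^ 2 * Xi z (Th Λ p.μ j) R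
          ≤ ∑ a ∈ Th Λ p.μ j, ((P a + (P a + ∑ i ∈ s, z i a)) / 2) ^ 2
            + p.β₁ * ∑ i ∈ s \ (Br ∪ Y), wt z p.K (Th Λ p.μ j) s i) →
       Inv z Λ p (j + 1) (Ar ∪ X) P ∧
       Inv z Λ p (j + 1) (Br ∪ Y) (fun a => P a + ∑ i ∈ Ar ∪ X, z i a)) := by
  obtain ⟨hO, hTP, hTP'⟩ := hInv
  set P' : D → ℝ := fun a => P a + ∑ i ∈ s, z i a with hP'
  set c : D → ℝ := fun a => (P a + P' a) / 2 with hc
  set u : D → ℝ := fun a => (1 / 2) * ∑ i ∈ X, z i a - (1 / 2) * ∑ i ∈ Y, z i a with hu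
  set y : D → ℝ := fun a => c a + u a with hy
  have hXsub : X ⊆ s \ R := by rw [← hU]; exact Finset.subset_union_left
  have hYsub : Y ⊆ s \ R := by rw [← hU]; exact Finset.subset_union_right
  have hsR : s = R ∪ (X ∪ Y) := by
    rw [hU, Finset.union_sdiff_of_subset hRs]
  have hdRXY : Disjoint R (X ∪ Y) := by
    rw [hU]; exact Finset.disjoint_sdiff
  have hdRX : Disjoint R X := Finset.disjoint_of_subset_right Finset.subset_union_left hdRXY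
  have hdRY : Disjoint R Y := Finset.disjoint_of_subset_right Finset.subset_union_right hdRXY
  have hsum_s : ∀ g : ι → ℝ, ∑ i ∈ s, g i = ∑ i ∈ R, g i + ∑ i ∈ X, g i + ∑ i ∈ Y, g i := by
    intro g
    rw [hsR, Finset.sum_union hdRXY, Finset.sum_union hXY]
    ring
  have hcardH : (s \ R).card ≤ 2 := by
    rw [← hU]
    exact (Finset.card_union_le _ _).trans hcard
  -- size of the target
  have hnmz : ∀ T : Finset ι, nm univ (fun a => ∑ i ∈ T, z i a) ≤ (T.card : ℝ) := by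
    intro T
    refine (nm_sum_le univ T z).trans ?_
    have h1 : ∀ i ∈ T, nm univ (z i) ≤ 1 := fun i _ =>
      nm_le_of_sq zero_le_one (by simpa using hz i)
    have := Finset.sum_le_card_nsmul T _ _ h1
    simpa using this
  have hnmu : nm univ u ≤ 1 := by
    have e1 : u = fun a => (1 / 2 : ℝ) * (∑ i ∈ X, z i a) + (-(1 / 2) : ℝ) * (∑ i ∈ Y, z i a) := by
      funext a; simp only [hu]; ring
    rw [e1]
    refine (nm_add_le univ _ _).trans ?_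
    rw [nm_smul, nm_smul]
    have h4 : |(1 / 2 : ℝ)| = 1 / 2 := abs_of_pos (by norm_num)
    have h5 : |(-(1 / 2) : ℝ)| = 1 / 2 := by rw [abs_neg, h4]
    rw [h4, h5]
    have h6 := hnmz X
    have h7 := hnmz Y
    have h8 : (X.card : ℝ) + (Y.card : ℝ) ≤ 2 := by exact_mod_cast hcard
    linarith
  have hnmc : nm univ c ≤ p.τ - 1 := by
    have e1 : c = fun a => (1 / 2 : ℝ) * (fun a => P a + P' a) a := by
      funext a; simp only [hc]; ring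
    rw [e1, nm_smul]
    have h3 := nm_add_le univ P P'
    have h4 : |(1 / 2 : ℝ)| = 1 / 2 := abs_of_pos (by norm_num)
    rw [h4]
    have h5 := p.norm_endpoint hΛ hTP
    have h6 := p.norm_endpoint hΛ hTP'
    linarith
  have hnmy : nm univ y ≤ p.τ := (nm_add_le univ c u).trans (by linarith)
  obtain ⟨Ar, Br, f, l, hAr, hBr, hdec, hcross, hSf, hlV, hleak, hflag, hHS, hc1, hc2, hw1, hw2⟩ :=
    round_facts hz hΛ p hO hRs hcardH y hnmy w wm hwm0 hw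
  refine ⟨Ar, Br, hAr, hBr, hc1, hc2, hw1, hw2, ?_⟩
  intro hcA hcB
  set S := Th Λ p.μ j with hS
  set M0 : ℝ := (p.m : ℝ) + 7 with hM0
  have hdArX : Disjoint Ar X := Finset.disjoint_of_subset_left hAr hdRX
  have hdBr : Disjoint Ar Br := by
    rw [hBr]; exact Finset.disjoint_sdiff
  have hBrR : Br ⊆ R := by rw [hBr]; exact Finset.sdiff_subset
  have hdBrY : Disjoint Br Y := Finset.disjoint_of_subset_left hBrR hdRY
  have hsumR : ∀ g : ι → ℝ, ∑ i ∈ R, g i = ∑ i ∈ Ar, g i + ∑ i ∈ Br, g i := by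
    intro g
    rw [hBr, add_comm, Finset.sum_sdiff hAr]
  set M : D → ℝ := fun a => P a + ∑ i ∈ Ar ∪ X, z i a with hM
  have hMdec : ∀ a, M a = y a + f a + l a := by
    intro a
    have h1 := hdec a
    have h2 := hsum_s (fun i => z i a)
    simp only [hM, hy, hc, hu, hP']
    rw [Finset.sum_union hdArX]
    linarith
  have hQ : ∀ (pay : ℝ), (∑ a ∈ S, y a ^ 2 + 32 * M0 ^ 2 * Xi z S R
        ≤ ∑ a ∈ S, c a ^ 2 + p.β₁ * pay) →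
      ∀ k, j + 1 ≤ k → ∑ a ∈ S, (M a - l a) ^ 2 + ∑ a ∈ Th Λ p.μ k \ S, M a ^ 2
        ≤ ∑ a ∈ S, ((P a + P' a) / 2) ^ 2
          + (p.β₁ * pay + p.β₂ * ((Th Λ p.μ k \ S).card : ℝ)) := by
    intro pay hpay k hk
    have h1 : ∑ a ∈ S, (M a - l a) ^ 2 ≤ ∑ a ∈ S, y a ^ 2 + ∑ a ∈ S, f a ^ 2 := by
      have e1 : ∀ a, (M a - l a) ^ 2 = y a ^ 2 + 2 * (y a * f a) + f a ^ 2 := by
        intro a; rw [hMdec a]; ring
      simp_rw [e1]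
      rw [Finset.sum_add_distrib, Finset.sum_add_distrib, ← Finset.mul_sum]
      linarith
    have h2 : ∑ a ∈ Th Λ p.μ k \ S, M a ^ 2 = ∑ a ∈ Th Λ p.μ k \ S, f a ^ 2 := by
      refine Finset.sum_congr rfl (fun a ha => ?_)
      have hnot : a ∉ S := (Finset.mem_sdiff.mp ha).2
      have hV : a ∈ Vv Λ p.μ j := mem_Vv_of_not_Th hnot
      rw [hMdec a, hlV a hV]
      ring
    have h3 := hflag k
    have h4 : (0 : ℝ) ≤ ((Th Λ p.μ k \ S).card : ℝ) := Nat.cast_nonneg _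
    have h5 : 16 + 16 * M0 ^ 2 ≤ p.β₂ := by
      have := p.hβ₂
      nlinarith [sq_nonneg M0]
    have h6 := mul_le_mul_of_nonneg_right h5 h4
    rw [h2]
    have h7 : ∑ a ∈ S, ((P a + P' a) / 2) ^ 2 = ∑ a ∈ S, c a ^ 2 := rfl
    rw [h7]
    nlinarith
  -- matrix
  have hXYc : X.card + Y.card ≤ 2 := hcard
  have hYXc : Y.card + X.card ≤ 2 := by omega
  have hGmU : ∀ (U V : Finset ι), Disjoint U V → ∀ q, Gm z (U ∪ V) q = Gm z U q + Gm z V q := by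
    intro U V h q
    simp only [Gm]
    exact Finset.sum_union h
  have hGms : ∀ q, Gm z s q = Gm z R q + Gm z X q + Gm z Y q := by
    intro q
    simp only [Gm]
    exact hsum_s (fun i => z i q.1 * z i q.2)
  have hGmR : ∀ q, Gm z R q = Gm z Ar q + Gm z Br q := by
    intro q
    simp only [Gm]
    exact hsumR (fun i => z i q.1 * z i q.2)
  have hOA : OO z Λ p.A p.A (j + 1) (Ar ∪ X) := by
    refine OO_child' hz hΛ p hO (F₀ := fun q => Gm z Ar q - (1 / 2) * Gm z R q) (σ := 1)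
      (Or.inl rfl) hXYc hHS ?_
    intro q
    rw [hGmU Ar X hdArX, hGms]
    ring
  have hOB : OO z Λ p.A p.A (j + 1) (Br ∪ Y) := by
    refine OO_child' hz hΛ p hO (F₀ := fun q => Gm z Ar q - (1 / 2) * Gm z R q) (σ := -1)
      (Or.inr rfl) hYXc hHS ?_
    intro q
    rw [hGmU Br Y hdBrY, hGms, hGmR]
    ring
  have hAs : Ar ∪ X ⊆ s := by
    refine Finset.union_subset (hAr.trans hRs) (hXsub.trans Finset.sdiff_subset)
  have hBs : Br ∪ Y ⊆ s := by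
    refine Finset.union_subset (hBrR.trans hRs) (hYsub.trans Finset.sdiff_subset)
  have hμ0 := p.μ_pos.le
  have hβ₁ := p.β₁_pos.le
  have hκ := p.hκ0
  have hwt0 : ∀ T : Finset ι, 0 ≤ ∑ i ∈ T, wt z p.K S s i :=
    fun T => Finset.sum_nonneg (fun i _ => wt_nonneg z p.K S s i)
  have hT_A : TT z Λ p.μ p.K p.β₁ p.β₂ p.κ (j + 1) (Ar ∪ X) M :=
    T_close2 hΛ p hAs hTP hTP' (hwt0 _) le_rfl (hQ _ hcA) hleak
  have hT_B : TT z Λ p.μ p.K p.β₁ p.β₂ p.κ (j + 1) (Br ∪ Y) M :=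
    T_close2 hΛ p hBs hTP hTP' (hwt0 _) le_rfl (hQ _ hcB) hleak
  refine ⟨⟨hOA, TT_mono hΛ hμ0 hβ₁ hκ hAs hTP, hT_A⟩, ⟨hOB, hT_B, ?_⟩⟩
  have e1 : (fun a => M a + ∑ i ∈ Br ∪ Y, z i a) = P' := by
    funext a
    have h1 := hsum_s (fun i => z i a)
    have h2 := hsumR (fun i => z i a)
    simp only [hM, hP']
    rw [Finset.sum_union hdArX, Finset.sum_union hdBrY, h1, h2]
    ring
  have e2 : TT z Λ p.μ p.K p.β₁ p.β₂ p.κ (j + 1) (Br ∪ Y) P' :=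
    TT_mono hΛ hμ0 hβ₁ hκ hBs hTP'
  show TT z Λ p.μ p.K p.β₁ p.β₂ p.κ (j + 1) (Br ∪ Y) (fun a => M a + ∑ i ∈ Br ∪ Y, z i a)
  rw [e1]
  exact e2

omit [Fintype D] [DecidableEq D] in
/-- The quadratic estimate for the two midpoints of an insertion. -/
lemma insert_Q {S K : Finset D} {c f l M zz : D → ℝ} {ε : ℝ} (hε : ε = 1 / 2 ∨ ε = -(1 / 2))
    (hM : ∀ a, M a = c a + ε * zz a + f a + l a) (hcross : ∑ a ∈ S, c a * f a ≤ 0)
    (hcross2 : |∑ a ∈ S, c a * zz a| ≤ (1 / 2) * ∑ a ∈ S, zz a ^ 2) (hz1 : ∀ a, zz a ^ 2 ≤ 1)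
    (hlV : ∀ a ∈ K, l a = - c a) :
    ∑ a ∈ S, (M a - l a) ^ 2 + ∑ a ∈ K, M a ^ 2
      ≤ ∑ a ∈ S, c a ^ 2 + (3 / 2) * ∑ a ∈ S, f a ^ 2 + (5 / 4) * ∑ a ∈ S, zz a ^ 2
        + 2 * ∑ a ∈ K, f a ^ 2 + (1 / 2) * (K.card : ℝ) := by
  set ζ2 := ∑ a ∈ S, zz a ^ 2 with hζ2
  have hε2 : ε ^ 2 = 1 / 4 := by
    rcases hε with h | h <;> rw [h] <;> norm_num
  have h1 : ∑ a ∈ S, (M a - l a) ^ 2
      = ∑ a ∈ S, c a ^ 2 + 2 * ∑ a ∈ S, c a * f a + ∑ a ∈ S, f a ^ 2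
        + 2 * ε * ∑ a ∈ S, c a * zz a + 2 * ε * ∑ a ∈ S, f a * zz a
        + (1 / 4) * ζ2 := by
    have e1 : ∀ a, (M a - l a) ^ 2 = c a ^ 2 + 2 * (c a * f a) + f a ^ 2
        + 2 * ε * (c a * zz a) + 2 * ε * (f a * zz a) + (1 / 4) * zz a ^ 2 := by
      intro a
      rw [hM a]
      have : (c a + ε * zz a + f a + l a - l a) ^ 2 = c a ^ 2 + 2 * (c a * f a) + f a ^ 2
          + 2 * ε * (c a * zz a) + 2 * ε * (f a * zz a) + ε ^ 2 * zz a ^ 2 := by ring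
      rw [this, hε2]
    simp_rw [e1]
    simp only [Finset.sum_add_distrib, ← Finset.mul_sum]
    rw [hζ2]
  have h2 : 2 * ε * ∑ a ∈ S, c a * zz a ≤ (1 / 2) * ζ2 := by
    have h3 := abs_le.mp hcross2
    rcases hε with h | h <;> rw [h]
    · have : ∑ a ∈ S, c a * zz a ≤ (1 / 2) * ζ2 := h3.2
      linarith
    · have : - ((1 / 2) * ζ2) ≤ ∑ a ∈ S, c a * zz a := h3.1
      linarith
  have h4 : 2 * ε * ∑ a ∈ S, f a * zz a ≤ (1 / 2) * (∑ a ∈ S, f a ^ 2 + ζ2) := by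
    have h5 : 2 * ε * ∑ a ∈ S, f a * zz a
        = ∑ a ∈ S, (2 * ε) * (f a * zz a) := by rw [Finset.mul_sum]
    rw [h5, hζ2, ← Finset.sum_add_distrib, Finset.mul_sum]
    refine Finset.sum_le_sum (fun a _ => ?_)
    rcases hε with h | h <;> rw [h]
    · nlinarith [sq_nonneg (f a - zz a)]
    · nlinarith [sq_nonneg (f a + zz a)]
  have h6 : ∑ a ∈ K, M a ^ 2 ≤ 2 * ∑ a ∈ K, f a ^ 2 + (1 / 2) * (K.card : ℝ) := by
    have h7 : (K.card : ℝ) = ∑ _a ∈ K, (1 : ℝ) := by simp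
    rw [h7, Finset.mul_sum, Finset.mul_sum, ← Finset.sum_add_distrib]
    refine Finset.sum_le_sum (fun a ha => ?_)
    have e2 : M a = ε * zz a + f a := by
      rw [hM a, hlV a ha]
      ring
    rw [e2]
    have h8 := hz1 a
    have h9 : (ε * zz a + f a) ^ 2 ≤ 2 * (ε ^ 2 * zz a ^ 2) + 2 * f a ^ 2 := by
      nlinarith [sq_nonneg (ε * zz a - f a)]
    rw [hε2] at h9
    linarith
  rw [h1]
  linarith

/-- Insertion of a heavy atom at the midpoint. -/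
theorem insert_step {z : ι → D → ℝ} (hz : ∀ i, ∑ a, z i a ^ 2 ≤ 1) {Λ : D → ℝ}
    (hΛ : ∀ a, 0 ≤ Λ a) (p : Par (Fintype.card D)) {j : ℕ} {s : Finset ι} {i₀ : ι} {P : D → ℝ}
    (hInv : Inv z Λ p j s P) (hi₀ : i₀ ∈ s) (w : ι → ℝ) (wm : ℝ) (hwm0 : 0 ≤ wm)
    (hw : ∀ i ∈ s.erase i₀, 0 ≤ w i ∧ w i ≤ wm) :
    ∃ Ar Br : Finset ι, Ar ⊆ s.erase i₀ ∧ Br = s.erase i₀ \ Ar ∧
      7 / 16 * ((s.erase i₀).card : ℝ) - 2 * ((p.m : ℝ) + 7) ≤ (Ar.card : ℝ) ∧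
      7 / 16 * ((s.erase i₀).card : ℝ) - 2 * ((p.m : ℝ) + 7) ≤ (Br.card : ℝ) ∧
      (|∑ a ∈ Th Λ p.μ j, ((P a + (P a + ∑ i ∈ s, z i a)) / 2) * z i₀ a|
          ≤ (1 / 2) * ∑ a ∈ Th Λ p.μ j, z i₀ a ^ 2 →
       (5 / 4) * ∑ a ∈ Th Λ p.μ j, z i₀ a ^ 2
          + 56 * ((p.m : ℝ) + 7) ^ 2 * Xi z (Th Λ p.μ j) (s.erase i₀)
          ≤ p.β₁ * wt z p.K (Th Λ p.μ j) s i₀ →
       Inv z Λ p (j + 1) Ar P ∧
       Inv z Λ p (j + 1) Br (fun a => P a + ∑ i ∈ Ar, z i a + z i₀ a)) := by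
  obtain ⟨hO, hTP, hTP'⟩ := hInv
  set R := s.erase i₀ with hRdef
  have hRs : R ⊆ s := Finset.erase_subset _ _
  have hi₀R : i₀ ∉ R := Finset.notMem_erase _ _
  set P' : D → ℝ := fun a => P a + ∑ i ∈ s, z i a with hP'
  set c : D → ℝ := fun a => (P a + P' a) / 2 with hc
  have hsum_s : ∀ g : ι → ℝ, ∑ i ∈ s, g i = ∑ i ∈ R, g i + g i₀ := by
    intro g
    rw [hRdef, Finset.sum_erase_add _ _ hi₀]
  have hcardH : (s \ R).card ≤ 2 := by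
    have : s \ R ⊆ {i₀} := by
      intro i hi
      obtain ⟨h1, h2⟩ := Finset.mem_sdiff.mp hi
      by_contra hne
      exact h2 (Finset.mem_erase.mpr ⟨by simpa using hne, h1⟩)
    have := Finset.card_le_card this
    simp at this
    omega
  have hnmc : nm univ c ≤ p.τ - 1 := by
    have e1 : c = fun a => (1 / 2 : ℝ) * (fun a => P a + P' a) a := by
      funext a; simp only [hc]; ring
    rw [e1, nm_smul]
    have h3 := nm_add_le univ P P'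
    have h4 : |(1 / 2 : ℝ)| = 1 / 2 := abs_of_pos (by norm_num)
    rw [h4]
    have h5 := p.norm_endpoint hΛ hTP
    have h6 := p.norm_endpoint hΛ hTP'
    linarith
  have hnmy : nm univ c ≤ p.τ := by linarith
  obtain ⟨Ar, Br, f, l, hAr, hBr, hdec, hcross, hSf, hlV, hleak, hflag, hHS, hc1, hc2, -, -⟩ :=
    round_facts hz hΛ p hO hRs hcardH c hnmy w wm hwm0 hw
  refine ⟨Ar, Br, hAr, hBr, hc1, hc2, ?_⟩
  intro hcross2 hpay
  set S := Th Λ p.μ j with hS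
  set M0 : ℝ := (p.m : ℝ) + 7 with hM0
  set ζ2 := ∑ a ∈ S, z i₀ a ^ 2 with hζ2
  set wst := wt z p.K S s i₀ with hwst
  have hwst0 : 0 ≤ wst := wt_nonneg z p.K S s i₀
  have hBrR : Br ⊆ R := by rw [hBr]; exact Finset.sdiff_subset
  have hsumR : ∀ g : ι → ℝ, ∑ i ∈ R, g i = ∑ i ∈ Ar, g i + ∑ i ∈ Br, g i := by
    intro g
    rw [hBr, add_comm, Finset.sum_sdiff hAr]
  have hz1 : ∀ a, z i₀ a ^ 2 ≤ 1 := fun a =>
    (Finset.single_le_sum (f := fun a => z i₀ a ^ 2) (fun _ _ => sq_nonneg _)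
      (Finset.mem_univ a)).trans (hz i₀)
  have hQ : ∀ ε : ℝ, (ε = 1 / 2 ∨ ε = -(1 / 2)) → ∀ M : D → ℝ,
      (∀ a, M a = c a + ε * z i₀ a + f a + l a) →
      ∀ k, j + 1 ≤ k → ∑ a ∈ S, (M a - l a) ^ 2 + ∑ a ∈ Th Λ p.μ k \ S, M a ^ 2
        ≤ ∑ a ∈ S, ((P a + P' a) / 2) ^ 2
          + (p.β₁ * wst + p.β₂ * ((Th Λ p.μ k \ S).card : ℝ)) := by
    intro ε hε M hM k hk
    have h0 := insert_Q (S := S) (K := Th Λ p.μ k \ S) hε hM hcross hcross2 hz1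
      (fun a ha => hlV a (mem_Vv_of_not_Th (Finset.mem_sdiff.mp ha).2))
    have h10 := hflag k
    have h11 : (0 : ℝ) ≤ ((Th Λ p.μ k \ S).card : ℝ) := Nat.cast_nonneg _
    have h12 : 33 + 32 * M0 ^ 2 ≤ p.β₂ := p.hβ₂
    have h13 := mul_le_mul_of_nonneg_right h12 h11
    have h14 : ∑ a ∈ S, ((P a + P' a) / 2) ^ 2 = ∑ a ∈ S, c a ^ 2 := rfl
    rw [h14]
    have hSf' : ∑ a ∈ S, f a ^ 2 ≤ 16 * M0 ^ 2 * Xi z S R := hSf
    have hpay' : (5 / 4) * ζ2 + 56 * M0 ^ 2 * Xi z S R ≤ p.β₁ * wst := hpay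
    have h15 : (0 : ℝ) ≤ M0 ^ 2 * ((Th Λ p.μ k \ S).card : ℝ) := by positivity
    nlinarith
  -- matrix
  have hXYc : (∅ : Finset ι).card + ({i₀} : Finset ι).card ≤ 2 := by simp
  have hGms : ∀ q, Gm z s q = Gm z R q + Gm z {i₀} q := by
    intro q
    simp only [Gm, Finset.sum_singleton]
    exact hsum_s (fun i => z i q.1 * z i q.2)
  have hGmR : ∀ q, Gm z R q = Gm z Ar q + Gm z Br q := by
    intro q
    simp only [Gm]
    exact hsumR (fun i => z i q.1 * z i q.2)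
  have hGm0 : ∀ q, Gm z (∅ : Finset ι) q = 0 := fun q => by simp [Gm]
  have hOA : OO z Λ p.A p.A (j + 1) Ar := by
    refine OO_child' hz hΛ p hO (F₀ := fun q => Gm z Ar q - (1 / 2) * Gm z R q) (σ := 1)
      (Or.inl rfl) hXYc hHS ?_
    intro q
    rw [hGms, hGm0]
    ring
  have hOB : OO z Λ p.A p.A (j + 1) Br := by
    refine OO_child' hz hΛ p hO (F₀ := fun q => Gm z Ar q - (1 / 2) * Gm z R q) (σ := -1)
      (Or.inr rfl) hXYc hHS ?_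
    intro q
    rw [hGms, hGm0, hGmR]
    ring
  have hAs : Ar ⊆ s := hAr.trans hRs
  have hBs : Br ⊆ s := hBrR.trans hRs
  have hμ0 := p.μ_pos.le
  have hβ₁ := p.β₁_pos.le
  have hκ := p.hκ0
  have hpayle : ∀ C : Finset ι, C ⊆ R → wst ≤ ∑ i ∈ s \ C, wt z p.K S s i := by
    intro C hC
    have hmem : i₀ ∈ s \ C := Finset.mem_sdiff.mpr ⟨hi₀, fun h => hi₀R (hC h)⟩
    exact Finset.single_le_sum (f := fun i => wt z p.K S s i)
      (fun i _ => wt_nonneg z p.K S s i) hmem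
  have hT_A : TT z Λ p.μ p.K p.β₁ p.β₂ p.κ (j + 1) Ar (fun a => P a + ∑ i ∈ Ar, z i a) := by
    refine T_close2 hΛ p hAs hTP hTP' hwst0 (hpayle Ar hAr) (hQ (-(1 / 2)) (Or.inr rfl) _ ?_) hleak
    intro a
    have h1 := hdec a
    have h2 := hsum_s (fun i => z i a)
    simp only [hc, hP']
    rw [h2]
    linarith
  have hT_B : TT z Λ p.μ p.K p.β₁ p.β₂ p.κ (j + 1) Br (fun a => P a + ∑ i ∈ Ar, z i a + z i₀ a) := by
    refine T_close2 hΛ p hBs hTP hTP' hwst0 (hpayle Br hBrR) (hQ (1 / 2) (Or.inl rfl) _ ?_) hleak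
    intro a
    have h1 := hdec a
    have h2 := hsum_s (fun i => z i a)
    simp only [hc, hP']
    rw [h2]
    linarith
  refine ⟨⟨hOA, TT_mono hΛ hμ0 hβ₁ hκ hAs hTP, hT_A⟩, ⟨hOB, hT_B, ?_⟩⟩
  have e1 : (fun a => P a + ∑ i ∈ Ar, z i a + z i₀ a + ∑ i ∈ Br, z i a) = P' := by
    funext a
    have h1 := hsum_s (fun i => z i a)
    have h2 := hsumR (fun i => z i a)
    simp only [hP']
    rw [h1, h2]
    ring
  have e2 : TT z Λ p.μ p.K p.β₁ p.β₂ p.κ (j + 1) Br P' := TT_mono hΛ hμ0 hβ₁ hκ hBs hTP'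
  show TT z Λ p.μ p.K p.β₁ p.β₂ p.κ (j + 1) Br
    (fun a => P a + ∑ i ∈ Ar, z i a + z i₀ a + ∑ i ∈ Br, z i a)
  rw [e1]
  exact e2

end Split

end Vale.Agent.Lib.P262
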