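import Mathlib

namespace Vale.Agent.Lib.P262

open Finset

section Direction

variable {ι E J : Type} [DecidableEq ι] [Fintype E] [Fintype J]

/-- Kernel direction with small quadratic growth (Bessel in a weighted inner product). -/
lemma exists_direction (A : Finset ι) (hA : A.Nonempty) (Φ : J → ι → ℝ)
    (hJ : 2 * Fintype.card J ≤ A.card) (b : ι → E → ℝ) (dd : ι → ℝ)
    (hd : ∀ i ∈ A, 0 < dd i) (hb : ∀ i ∈ A, ∑ a, b i a ^ 2 ≤ dd i) :
    ∃ u : ι → ℝ, (∀ i, i ∉ A → u i = 0) ∧ (∃ i ∈ A, u i ≠ 0) ∧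
      (∀ f, ∑ i ∈ A, Φ f i * u i = 0) ∧
      ∑ a, (∑ i ∈ A, u i * b i a) ^ 2 ≤ 2 * ∑ i ∈ A, dd i * u i ^ 2 := by
  classical
  let n := A.card
  have hn : 0 < n := Finset.card_pos.mpr hA
  let X := EuclideanSpace ℝ ↥A
  let sq : ι → ℝ := fun i => Real.sqrt (dd i)
  have hsq : ∀ i ∈ A, 0 < sq i := fun i hi => Real.sqrt_pos.mpr (hd i hi)
  have hsq2 : ∀ i ∈ A, sq i ^ 2 = dd i := fun i hi => Real.sq_sqrt (hd i hi).le
  -- the constraint map
  let L : X →ₗ[ℝ] (J → ℝ) :=
    { toFun := fun x f => ∑ i : ↥A, Φ f i * (x i / sq i)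
      map_add' := by
        intro x y; funext f
        simp only [Pi.add_apply, ← Finset.sum_add_distrib]
        refine Finset.sum_congr rfl (fun i _ => ?_)
        show Φ f i * ((x i + y i) / sq i) = Φ f i * (x i / sq i) + Φ f i * (y i / sq i)
        ring
      map_smul' := by
        intro c x; funext f
        simp only [RingHom.id_apply, Pi.smul_apply, smul_eq_mul, Finset.mul_sum]
        refine Finset.sum_congr rfl (fun i _ => ?_)
        show Φ f i * ((c * x i) / sq i) = c * (Φ f i * (x i / sq i))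
        ring }
  let W := LinearMap.ker L
  have hfinX : Module.finrank ℝ X = n := by
    simp [X, n]
  have hrank : Module.finrank ℝ (LinearMap.range L) ≤ Fintype.card J := by
    have := Submodule.finrank_le (LinearMap.range L)
    simpa using this
  have hdim : Module.finrank ℝ (LinearMap.range L) + Module.finrank ℝ W = n := by
    rw [← hfinX]; exact LinearMap.finrank_range_add_finrank_ker L
  set k := Module.finrank ℝ W with hk
  have hk2 : n ≤ 2 * k := by omega
  have hkpos : 0 < k := by omega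
  let B := stdOrthonormalBasis ℝ W
  have hB : Orthonormal ℝ (fun p => ((B p : W) : X)) :=
    B.orthonormal.comp_linearIsometry W.subtypeₗᵢ
  let β : E → X := fun a => WithLp.toLp 2 (fun i : ↥A => b i a / sq i)
  -- Bessel
  have hbessel : ∀ a, ∑ p, (inner ℝ ((B p : W) : X) (β a)) ^ 2 ≤ ‖β a‖ ^ 2 := by
    intro a
    have := hB.sum_inner_products_le (s := Finset.univ) (x := β a)
    simpa using this
  have hβnorm : ∀ a, ‖β a‖ ^ 2 = ∑ i : ↥A, b i a ^ 2 / dd i := by
    intro a
    rw [EuclideanSpace.norm_sq_eq]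
    refine Finset.sum_congr rfl (fun i _ => ?_)
    simp only [β, Real.norm_eq_abs, sq_abs, div_pow]
    rw [hsq2 i i.2]
  have htotal : ∑ a, ‖β a‖ ^ 2 ≤ n := by
    simp_rw [hβnorm]
    rw [Finset.sum_comm]
    calc ∑ i : ↥A, ∑ a, b i a ^ 2 / dd i ≤ ∑ _i : ↥A, (1 : ℝ) := by
          refine Finset.sum_le_sum (fun i _ => ?_)
          rw [← Finset.sum_div]
          exact (div_le_one (hd i i.2)).mpr (hb i i.2)
      _ = n := by simp [n]
  -- pick a good basis vector
  have hsumQ : ∑ p, ∑ a, (inner ℝ ((B p : W) : X) (β a)) ^ 2 ≤ 2 * (k : ℝ) := by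
    rw [Finset.sum_comm]
    calc ∑ a, ∑ p, (inner ℝ ((B p : W) : X) (β a)) ^ 2 ≤ ∑ a, ‖β a‖ ^ 2 :=
          Finset.sum_le_sum (fun a _ => hbessel a)
      _ ≤ n := htotal
      _ ≤ 2 * (k : ℝ) := by exact_mod_cast hk2
  have hne : (Finset.univ : Finset (Fin k)).Nonempty :=
    ⟨⟨0, hkpos⟩, Finset.mem_univ _⟩
  obtain ⟨p, -, hp⟩ : ∃ p ∈ (Finset.univ : Finset (Fin k)),
      ∑ a, (inner ℝ ((B p : W) : X) (β a)) ^ 2 ≤ 2 := by
    by_contra hcon
    push Not at hcon
    have : ∑ _p : Fin k, (2 : ℝ) < ∑ p, ∑ a, (inner ℝ ((B p : W) : X) (β a)) ^ 2 :=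
      Finset.sum_lt_sum_of_nonempty hne hcon
    simp only [Finset.sum_const, Finset.card_univ, Fintype.card_fin, nsmul_eq_mul] at this
    linarith
  set x : X := ((B p : W) : X) with hx
  have hxnorm : ‖x‖ = 1 := hB.1 p
  have hxker : L x = 0 := (B p : W).2
  let u : ι → ℝ := fun i => if h : i ∈ A then x ⟨i, h⟩ / sq i else 0
  have hu : ∀ i : ↥A, u i = x i / sq i := fun i => by simp [u]
  have hdu : ∑ i ∈ A, dd i * u i ^ 2 = 1 := by
    rw [← Finset.sum_coe_sort A]
    have : ‖x‖ ^ 2 = 1 := by rw [hxnorm]; norm_num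
    rw [EuclideanSpace.norm_sq_eq] at this
    rw [← this]
    refine Finset.sum_congr rfl (fun i _ => ?_)
    rw [hu, div_pow, hsq2 i i.2, Real.norm_eq_abs, sq_abs]
    field_simp [(hd i i.2).ne']
  refine ⟨u, fun i hi => by simp [u, hi], ?_, ?_, ?_⟩
  · by_contra hcon
    push Not at hcon
    have : ∑ i ∈ A, dd i * u i ^ 2 = 0 :=
      Finset.sum_eq_zero (fun i hi => by rw [hcon i hi]; ring)
    rw [hdu] at this
    exact one_ne_zero this
  · intro f
    rw [← Finset.sum_coe_sort A]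
    have := congrFun hxker f
    simp only [L, Pi.zero_apply] at this
    rw [← this]
    show _ = ∑ i : ↥A, Φ f i * (x i / sq i)
    refine Finset.sum_congr rfl (fun i _ => ?_)
    rw [hu]
  · rw [hdu, mul_one]
    refine le_trans (le_of_eq ?_) hp
    refine Finset.sum_congr rfl (fun a _ => ?_)
    congr 1
    rw [← Finset.sum_coe_sort A, PiLp.inner_apply]
    refine Finset.sum_congr rfl (fun i _ => ?_)
    rw [hu]
    simp only [β, RCLike.inner_apply, conj_trivial]
    ring

end Direction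

section Walk

variable {ι E : Type} [Fintype E]

/-- The fractional coordinates. -/
noncomputable def frac (R : Finset ι) (c : ι → ℝ) : Finset ι :=
  R.filter (fun i => 0 < c i ∧ c i < 1)

lemma mem_frac {R : Finset ι} {c : ι → ℝ} {i : ι} :
    i ∈ frac R c ↔ i ∈ R ∧ 0 < c i ∧ c i < 1 := by
  simp [frac]

/-- The weighted variance. -/
noncomputable def Yd (R : Finset ι) (dd c : ι → ℝ) : ℝ := ∑ i ∈ R, dd i * (c i * (1 - c i))

/-- Move along a direction until a fractional coordinate reaches the boundary. -/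
lemma exists_step (F : Finset ι) (c u : ι → ℝ) (hc : ∀ i ∈ F, 0 < c i ∧ c i < 1)
    (hu : ∃ i ∈ F, u i ≠ 0) :
    ∃ δ : ℝ, 0 < δ ∧ (∀ i ∈ F, 0 ≤ c i + δ * u i ∧ c i + δ * u i ≤ 1) ∧
      ∃ i ∈ F, c i + δ * u i = 0 ∨ c i + δ * u i = 1 := by
  obtain ⟨j0, hj0F, hj0⟩ := hu
  let t : ι → ℝ := fun i => if 0 < u i then (1 - c i) / u i else c i / (- u i)
  let N := F.filter (fun i => u i ≠ 0)
  have hNne : N.Nonempty := ⟨j0, by simp [N, hj0F, hj0]⟩
  obtain ⟨i0, hi0N, hi0min⟩ := Finset.exists_min_image N t hNne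
  have hi0F : i0 ∈ F := (Finset.mem_filter.mp hi0N).1
  have hui0 : u i0 ≠ 0 := (Finset.mem_filter.mp hi0N).2
  have htpos : ∀ i ∈ N, 0 < t i := by
    intro i hi
    have hiF := (Finset.mem_filter.mp hi).1
    have hui := (Finset.mem_filter.mp hi).2
    have hf := hc i hiF
    by_cases hp : 0 < u i
    · simp only [t, hp, if_true]
      exact div_pos (by linarith [hf.2]) hp
    · simp only [t, hp, if_false]
      have : u i < 0 := lt_of_le_of_ne (not_lt.mp hp) hui
      exact div_pos hf.1 (by linarith)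
  refine ⟨t i0, htpos i0 hi0N, ?_, i0, hi0F, ?_⟩
  · intro i hiF
    have hf := hc i hiF
    have hεpos := htpos i0 hi0N
    by_cases hui : u i = 0
    · simp only [hui, mul_zero, add_zero]
      exact ⟨hf.1.le, hf.2.le⟩
    · have hiN : i ∈ N := Finset.mem_filter.mpr ⟨hiF, hui⟩
      have hle := hi0min i hiN
      by_cases hp : 0 < u i
      · have hti : t i = (1 - c i) / u i := by simp [t, hp]
        have : t i0 * u i ≤ 1 - c i := by
          rw [hti] at hle
          have := mul_le_mul_of_nonneg_right hle hp.le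
          rwa [div_mul_cancel₀ _ hp.ne'] at this
        constructor
        · nlinarith [hf.1, mul_pos hεpos hp]
        · linarith
      · have hn : u i < 0 := lt_of_le_of_ne (not_lt.mp hp) hui
        have hti : t i = c i / (- u i) := by simp [t, hp]
        have hny : 0 < - u i := by linarith
        have : t i0 * (- u i) ≤ c i := by
          rw [hti] at hle
          have := mul_le_mul_of_nonneg_right hle hny.le
          rwa [div_mul_cancel₀ _ hny.ne'] at this
        constructor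
        · nlinarith
        · nlinarith [hf.2, mul_pos hεpos hny]
  · by_cases hp : 0 < u i0
    · right
      have hti : t i0 = (1 - c i0) / u i0 := by simp [t, hp]
      rw [hti]; field_simp; ring
    · left
      have hn : u i0 < 0 := lt_of_le_of_ne (not_lt.mp hp) hui0
      have hny : - u i0 ≠ 0 := by linarith
      have hti : t i0 = c i0 / (- u i0) := by simp [t, hp]
      rw [hti]
      have hne : u i0 ≠ 0 := hui0
      field_simp
      ring

variable [DecidableEq ι]

/-- **Walk lemma.**  The number of fractional coordinates can be reduced to `N`, keeping the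
functionals `Φ` exact and paying, in each tracked block, at most twice the variance drop. -/
theorem walk_reduce {J : Type} [Fintype J] (R : Finset ι) (Φ : J → ι → ℝ) {q : ℕ}
    (X : Fin q → Finset E) (b : ι → E → ℝ) (dd : ι → ℝ) (hd : ∀ i ∈ R, 0 < dd i)
    (hb : ∀ i ∈ R, ∑ a, b i a ^ 2 ≤ dd i) (N : ℕ) (hN : 2 * (Fintype.card J + q + 1) ≤ N) :
    ∀ (n : ℕ) (c : ι → ℝ) (err : E → ℝ), (frac R c).card = n → (∀ i ∈ R, 0 ≤ c i ∧ c i ≤ 1) →
      ∃ c' : ι → ℝ, (∀ i ∈ R, 0 ≤ c' i ∧ c' i ≤ 1) ∧ (∀ i ∈ R, i ∉ frac R c → c' i = c i) ∧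
        (∀ f, ∑ i ∈ R, Φ f i * (c' i - c i) = 0) ∧ (frac R c').card ≤ N ∧
        ∀ ℓ, ∑ a ∈ X ℓ, (err a + ∑ i ∈ R, (c' i - c i) * b i a) ^ 2
          ≤ ∑ a ∈ X ℓ, err a ^ 2 + 2 * (Yd R dd c - Yd R dd c') := by
  intro n
  induction n using Nat.strong_induction_on with
  | _ n ih =>
    intro c err hn hc
    by_cases hcard : n ≤ N
    · refine ⟨c, hc, fun _ _ _ => rfl, fun f => by simp, by omega, fun ℓ => by simp⟩
    push Not at hcard
    set F := frac R c with hF
    have hFR : F ⊆ R := Finset.filter_subset _ _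
    have hFfrac : ∀ i ∈ F, 0 < c i ∧ c i < 1 := fun i hi => (mem_frac.mp hi).2
    have hFcard : F.card = n := hn
    have hFne : F.Nonempty := Finset.card_pos.mp (by omega)
    -- the extended family of functionals
    let Φ' : J ⊕ (Fin q ⊕ Unit) → ι → ℝ := fun f i =>
      match f with
      | Sum.inl f => Φ f i
      | Sum.inr (Sum.inl ℓ) => ∑ a ∈ X ℓ, err a * b i a
      | Sum.inr (Sum.inr _) => dd i * (1 - 2 * c i)
    have hcardJ : 2 * Fintype.card (J ⊕ (Fin q ⊕ Unit)) ≤ F.card := by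
      simp only [Fintype.card_sum, Fintype.card_fin, Fintype.card_unit]
      omega
    obtain ⟨u, hu0, huex, huΦ, huQ⟩ := exists_direction F hFne Φ' hcardJ b dd
      (fun i hi => hd i (hFR hi)) (fun i hi => hb i (hFR hi))
    obtain ⟨δ, hδ, hrange, i0, hi0F, hi0⟩ := exists_step F c u hFfrac huex
    set c₁ : ι → ℝ := fun i => c i + δ * u i with hc₁
    have hc₁off : ∀ i, i ∉ F → c₁ i = c i := fun i hi => by simp [hc₁, hu0 i hi]
    have hc₁range : ∀ i ∈ R, 0 ≤ c₁ i ∧ c₁ i ≤ 1 := by
      intro i hi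
      by_cases hiF : i ∈ F
      · exact hrange i hiF
      · rw [hc₁off i hiF]; exact hc i hi
    have hsub : frac R c₁ ⊂ F := by
      refine Finset.ssubset_iff_subset_ne.mpr ⟨?_, ?_⟩
      · intro i hi
        obtain ⟨hiR, h1, h2⟩ := mem_frac.mp hi
        by_contra hiF
        rw [hc₁off i hiF] at h1 h2
        exact hiF (mem_frac.mpr ⟨hiR, h1, h2⟩)
      · intro heq
        have hmem : i0 ∈ frac R c₁ := by rw [heq]; exact hi0F
        obtain ⟨_, h1, h2⟩ := mem_frac.mp hmem
        rcases hi0 with h | h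
        · have : c₁ i0 = 0 := h
          linarith
        · have : c₁ i0 = 1 := h
          linarith
    have hlt : (frac R c₁).card < n := by
      rw [← hFcard]; exact Finset.card_lt_card hsub
    set bu : E → ℝ := fun a => ∑ i ∈ F, u i * b i a with hbu
    set err₁ : E → ℝ := fun a => err a + δ * bu a with herr₁
    obtain ⟨c', hc'range, hc'fix, hc'Φ, hc'card, hc'X⟩ := ih _ hlt c₁ err₁ rfl hc₁range
    -- moving sums from `R` to `F`
    have hRF : ∀ g : ι → ℝ, ∑ i ∈ R, u i * g i = ∑ i ∈ F, u i * g i := by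
      intro g
      refine (Finset.sum_subset hFR (fun i _ hi => ?_)).symm
      rw [hu0 i hi, zero_mul]
    have hstep : ∀ g : ι → ℝ, ∑ i ∈ R, (c' i - c i) * g i
        = ∑ i ∈ R, (c' i - c₁ i) * g i + δ * ∑ i ∈ F, u i * g i := by
      intro g
      rw [← hRF, Finset.mul_sum, ← Finset.sum_add_distrib]
      refine Finset.sum_congr rfl (fun i _ => ?_)
      simp only [hc₁]
      ring
    refine ⟨c', hc'range, ?_, ?_, hc'card, ?_⟩
    · intro i hi hiF
      rw [hc'fix i hi (fun h => hiF (hsub.1 h)), hc₁off i hiF]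
    · intro f
      have h1 := hc'Φ f
      have h2 := huΦ (Sum.inl f)
      have h3 := hstep (Φ f)
      have e1 : ∑ i ∈ R, Φ f i * (c' i - c i) = ∑ i ∈ R, (c' i - c i) * Φ f i :=
        Finset.sum_congr rfl (fun i _ => mul_comm _ _)
      have e2 : ∑ i ∈ R, Φ f i * (c' i - c₁ i) = ∑ i ∈ R, (c' i - c₁ i) * Φ f i :=
        Finset.sum_congr rfl (fun i _ => mul_comm _ _)
      have e3 : ∑ i ∈ F, Φ f i * u i = ∑ i ∈ F, u i * Φ f i :=
        Finset.sum_congr rfl (fun i _ => mul_comm _ _)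
      have h2' : ∑ i ∈ F, Φ f i * u i = 0 := h2
      rw [e1, h3, ← e2, h1, ← e3, h2']
      ring
    · intro ℓ
      have h1 := hc'X ℓ
      -- rewriting the error
      have e1 : ∀ a, err a + ∑ i ∈ R, (c' i - c i) * b i a
          = err₁ a + ∑ i ∈ R, (c' i - c₁ i) * b i a := by
        intro a
        rw [hstep (fun i => b i a)]
        simp only [herr₁, hbu]
        ring
      simp_rw [e1]
      refine h1.trans ?_
      -- the first order term vanishes
      have hfirst : ∑ a ∈ X ℓ, err a * bu a = 0 := by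
        have h2 : ∑ i ∈ F, Φ' (Sum.inr (Sum.inl ℓ)) i * u i = 0 := huΦ (Sum.inr (Sum.inl ℓ))
        have h3 : ∑ i ∈ F, (∑ a ∈ X ℓ, err a * b i a) * u i = 0 := h2
        rw [← h3]
        simp only [hbu, Finset.mul_sum, Finset.sum_mul]
        rw [Finset.sum_comm]
        refine Finset.sum_congr rfl (fun a _ => Finset.sum_congr rfl (fun i _ => ?_))
        ring
      have hsq : ∑ a ∈ X ℓ, err₁ a ^ 2
          = ∑ a ∈ X ℓ, err a ^ 2 + δ ^ 2 * ∑ a ∈ X ℓ, bu a ^ 2 := by
        have : ∀ a, err₁ a ^ 2 = err a ^ 2 + 2 * δ * (err a * bu a) + δ ^ 2 * bu a ^ 2 := by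
          intro a; simp only [herr₁]; ring
        simp_rw [this]
        rw [Finset.sum_add_distrib, Finset.sum_add_distrib, ← Finset.mul_sum, ← Finset.mul_sum,
          hfirst]
        ring
      have hQ : ∑ a ∈ X ℓ, bu a ^ 2 ≤ 2 * ∑ i ∈ F, dd i * u i ^ 2 := by
        refine le_trans ?_ huQ
        exact Finset.sum_le_sum_of_subset_of_nonneg (Finset.subset_univ _)
          (fun a _ _ => sq_nonneg _)
      -- the variance drop
      have hY : Yd R dd c₁ = Yd R dd c - δ ^ 2 * ∑ i ∈ F, dd i * u i ^ 2 := by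
        have h2 : ∑ i ∈ F, Φ' (Sum.inr (Sum.inr ())) i * u i = 0 := huΦ (Sum.inr (Sum.inr ()))
        have h3 : ∑ i ∈ F, (dd i * (1 - 2 * c i)) * u i = 0 := h2
        have e2 : ∑ i ∈ R, dd i * u i ^ 2 = ∑ i ∈ F, dd i * u i ^ 2 := by
          refine (Finset.sum_subset hFR (fun i _ hi => ?_)).symm
          rw [hu0 i hi]; ring
        have e3 : ∑ i ∈ R, (dd i * (1 - 2 * c i)) * u i = ∑ i ∈ F, (dd i * (1 - 2 * c i)) * u i := by
          refine (Finset.sum_subset hFR (fun i _ hi => ?_)).symm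
          rw [hu0 i hi]; ring
        have e4 : Yd R dd c₁ = Yd R dd c + δ * ∑ i ∈ R, (dd i * (1 - 2 * c i)) * u i
            - δ ^ 2 * ∑ i ∈ R, dd i * u i ^ 2 := by
          simp only [Yd, hc₁, Finset.mul_sum]
          rw [← Finset.sum_add_distrib, ← Finset.sum_sub_distrib]
          refine Finset.sum_congr rfl (fun i _ => ?_)
          ring
        rw [e4, e3, h3, e2]
        ring
      have hδ2 : 0 ≤ δ ^ 2 := sq_nonneg δ
      have := mul_le_mul_of_nonneg_left hQ hδ2
      rw [hsq, hY]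
      nlinarith

end Walk

end Vale.Agent.Lib.P262
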